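import Mathlib

set_option linter.all false

section

section

/-! Five-colour closed covers of the complex plane: definitions and statements of the base
lemmas. -/

namespace Vale.Agent.P032.B

open Set Topology

/-- A closed cover of the plane coming from a colouring with five colours. -/
structure CC (F : Fin 5 → Set ℂ) : Prop where
  closed : ∀ i, IsClosed (F i)
  cover : ∀ x, ∃ i, x ∈ F i
  reg : ∀ i, F i ⊆ closure (interior (F i))
  unit : ∀ i, ∀ y ∈ interior (F i), ∀ z ∈ F i, dist y z ≠ 1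

/-- The unit complex number at angle `t`. -/
noncomputable def cis (t : ℝ) : ℂ := Complex.exp (t * Complex.I)

theorem cis_add (s t : ℝ) : cis (s + t) = cis s * cis t := by
  unfold cis; rw [← Complex.exp_add]; push_cast; ring_nf

@[simp] theorem cis_zero : cis 0 = 1 := by simp [cis]

@[simp] theorem norm_cis (t : ℝ) : ‖cis t‖ = 1 := by
  unfold cis; exact Complex.norm_exp_ofReal_mul_I t

theorem cis_ne_zero (t : ℝ) : cis t ≠ 0 := by
  unfold cis; exact Complex.exp_ne_zero _

theorem cis_neg (t : ℝ) : cis (-t) = (cis t)⁻¹ := by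
  unfold cis; rw [← Complex.exp_neg]; push_cast; ring_nf

theorem continuous_cis : Continuous cis := by
  unfold cis; fun_prop

theorem cis_re (t : ℝ) : (cis t).re = Real.cos t := by
  unfold cis; rw [Complex.exp_ofReal_mul_I_re]

theorem cis_im (t : ℝ) : (cis t).im = Real.sin t := by
  unfold cis; rw [Complex.exp_ofReal_mul_I_im]

@[simp] theorem cis_pi : cis Real.pi = -1 := by
  apply Complex.ext <;> simp [cis_re, cis_im]

theorem exists_cis {v : ℂ} (hv : ‖v‖ = 1) : ∃ t : ℝ, v = cis t := by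
  refine ⟨v.arg, ?_⟩
  have := Complex.norm_mul_exp_arg_mul_I v
  rw [hv] at this
  simpa [cis] using this.symm

/-- `x` is a centre of the pair `i j`: an arc of the unit circle about `x` lies in `F i ∩ F j`. -/
def Arc (F : Fin 5 → Set ℂ) (x : ℂ) (i j : Fin 5) : Prop :=
  ∃ t : ℝ, ∀ᶠ s in 𝓝 t, x + cis s ∈ F i ∧ x + cis s ∈ F j

/-- The unit circle about `x` is covered by two colours `p`, `q`; the colour `q` is absent at `x`
and the three other colours are present at `x`. -/
structure Star (F : Fin 5 → Set ℂ) (x : ℂ) (p q a b c : Fin 5) : Prop where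
  nodup : [p, q, a, b, c].Nodup
  cov : ∀ z, dist z x = 1 → z ∈ F p ∨ z ∈ F q
  hq : x ∉ F q
  ha : x ∈ F a
  hb : x ∈ F b
  hc : x ∈ F c

/-- Colour `p` is absent on the circle about `y` near its point `x`. -/
def Free (F : Fin 5 → Set ℂ) (x y : ℂ) (p : Fin 5) : Prop :=
  ∃ r > 0, ∀ z, dist z y = 1 → 0 < dist z x → dist z x < r → z ∉ F p

end Vale.Agent.P032.B
end
end

section

section

/-! From Baire-measurable colourings of the Euclidean plane to five-colour closed covers of `ℂ`. -/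

namespace Vale.Agent.P032.B

open Set Topology

/-- Closed covers of the Euclidean plane coming from colourings. -/
structure CovE {k : ℕ} (F : Fin k → Set (EuclideanSpace ℝ (Fin 2))) : Prop where
  closed : ∀ i, IsClosed (F i)
  cover : ∀ x, ∃ i, x ∈ F i
  reg : ∀ i, F i ⊆ closure (interior (F i))
  unit : ∀ i, ∀ y ∈ interior (F i), ∀ z ∈ F i, dist y z ≠ 1

theorem exists_covE {k : ℕ} (c : EuclideanSpace ℝ (Fin 2) → Fin k)
    {D : Set (EuclideanSpace ℝ (Fin 2))} (hD : D ∈ residual (EuclideanSpace ℝ (Fin 2)))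
    (hc : ∀ x ∈ D, ∀ y ∈ D, dist x y = 1 → c x ≠ c y) (hB : ∀ i, BaireMeasurableSet (c ⁻¹' {i})) :
    ∃ F : Fin k → Set (EuclideanSpace ℝ (Fin 2)), CovE F := by
  classical
  choose U hUo hUeq using fun i => (hB i).residualEq_isOpen
  -- the generic set
  set G : Set (EuclideanSpace ℝ (Fin 2)) := {x | ∀ i, x ∈ c ⁻¹' {i} ↔ x ∈ U i} ∩ D with hG
  have hGr : G ∈ residual (EuclideanSpace ℝ (Fin 2)) := by
    have : ∀ i, ∀ᶠ x in residual (EuclideanSpace ℝ (Fin 2)), x ∈ c ⁻¹' {i} ↔ x ∈ U i :=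
      fun i => Filter.eventuallyEq_set.1 (hUeq i)
    exact Filter.inter_mem (Filter.eventually_all.2 this) hD
  have hGd : Dense G := dense_of_mem_residual hGr
  have hGU : ∀ x ∈ G, ∀ i, x ∈ U i → c x = i := fun x hx i hi => (hx.1 i).2 hi
  have hGc : ∀ x ∈ G, x ∈ U (c x) := fun x hx => (hx.1 (c x)).1 rfl
  -- no unit distance inside U i
  have hU1 : ∀ i, ∀ y ∈ U i, ∀ z ∈ U i, dist y z ≠ 1 := by
    intro i y hy z hz hd
    set v := z - y with hv
    have hyv : y + v = z := by rw [hv]; abel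
    have hVo : IsOpen (U i ∩ (fun w => w + v) ⁻¹' U i) :=
      (hUo i).inter ((hUo i).preimage (continuous_add_const v))
    have hres : G ∩ (fun w => w + v) ⁻¹' G ∈ residual (EuclideanSpace ℝ (Fin 2)) :=
      Filter.inter_mem hGr
        (tendsto_residual_of_isOpenMap (continuous_add_const v) (isOpenMap_add_right v) hGr)
    obtain ⟨w, ⟨hwU, hwU'⟩, hwG, hwG'⟩ := (dense_of_mem_residual hres).inter_open_nonempty _ hVo
      ⟨y, hy, by show y + v ∈ U i; rw [hyv]; exact hz⟩
    have h1 : c w = i := hGU w hwG i hwU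
    have h2 : c (w + v) = i := hGU (w + v) hwG' i hwU'
    refine hc w hwG.2 (w + v) hwG'.2 ?_ (h1.trans h2.symm)
    rw [dist_self_add_right, hv, ← dist_eq_norm, dist_comm]
    exact hd
  refine ⟨fun i => closure (U i), ⟨fun i => isClosed_closure, ?_, ?_, ?_⟩⟩
  · -- cover
    intro x
    have hdense : Dense (⋃ i, U i) := hGd.mono fun y hy => mem_iUnion.2 ⟨c y, hGc y hy⟩
    have hx := hdense x
    rw [closure_iUnion_of_finite] at hx
    exact mem_iUnion.1 hx
  · intro i
    exact closure_mono ((hUo i).subset_interior_iff.2 subset_closure)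
  · -- no unit distance to an interior point
    intro i y hy z hz hd
    -- move z into U i
    have hO1 : IsOpen {w : EuclideanSpace ℝ (Fin 2) | y + (w - z) ∈ interior (closure (U i))} := by
      refine isOpen_interior.preimage ?_
      fun_prop
    obtain ⟨z', hz'1, hz'U⟩ := mem_closure_iff.1 hz _ hO1 (by
      show y + (z - z) ∈ interior (closure (U i))
      rw [sub_self, add_zero]; exact hy)
    set y' := y + (z' - z) with hy'
    have hd' : dist y' z' = 1 := by
      rw [← hd, dist_eq_norm, dist_eq_norm, hy']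
      congr 1
      abel
    have hO2 : IsOpen {w : EuclideanSpace ℝ (Fin 2) | z' + (w - y') ∈ U i} := by
      refine (hUo i).preimage ?_
      fun_prop
    have hz'2 : y' ∈ closure (U i) := interior_subset hz'1
    obtain ⟨y'', hy''1, hy''U⟩ := mem_closure_iff.1 hz'2 _ hO2 (by
      show z' + (y' - y') ∈ U i
      rw [sub_self, add_zero]; exact hz'U)
    refine hU1 i y'' hy''U _ hy''1 ?_
    rw [← hd', dist_eq_norm, dist_eq_norm]
    congr 1
    abel

/-- A closed cover with at most five sets gives a five-colour closed cover of `ℂ`. -/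
theorem exists_CC {k : ℕ} (hk : k ≤ 5) {F : Fin k → Set (EuclideanSpace ℝ (Fin 2))}
    (hF : CovE F) : ∃ G : Fin 5 → Set ℂ, CC G := by
  classical
  set e : ℂ ≃ₗᵢ[ℝ] EuclideanSpace ℝ (Fin 2) := Complex.orthonormalBasisOneI.repr with he
  have hc : Continuous e := e.continuous
  set G : Fin 5 → Set ℂ := fun i => if h : i.1 < k then e ⁻¹' (F ⟨i.1, h⟩) else ∅ with hG
  have hGt : ∀ (i : Fin 5) (h : i.1 < k), G i = e ⁻¹' (F ⟨i.1, h⟩) := fun i h => by
    simp only [hG, dif_pos h]
  have hGf : ∀ (i : Fin 5), ¬ i.1 < k → G i = ∅ := fun i h => by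
    simp only [hG, dif_neg h]
  have hpre : ∀ A : Set (EuclideanSpace ℝ (Fin 2)), interior (e ⁻¹' A) = e ⁻¹' interior A :=
    fun A => (e.toHomeomorph.preimage_interior A).symm
  have hprec : ∀ A : Set (EuclideanSpace ℝ (Fin 2)), closure (e ⁻¹' A) = e ⁻¹' closure A :=
    fun A => (e.toHomeomorph.preimage_closure A).symm
  refine ⟨G, ⟨?_, ?_, ?_, ?_⟩⟩
  · intro i
    by_cases h : i.1 < k
    · rw [hGt i h]; exact (hF.closed _).preimage hc
    · rw [hGf i h]; exact isClosed_empty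
  · intro x
    obtain ⟨j, hj⟩ := hF.cover (e x)
    refine ⟨⟨j.1, j.2.trans_le hk⟩, ?_⟩
    rw [hGt ⟨j.1, j.2.trans_le hk⟩ j.2]
    exact hj
  · intro i
    by_cases h : i.1 < k
    · rw [hGt i h, hpre, hprec]
      exact preimage_mono (hF.reg _)
    · rw [hGf i h]; exact empty_subset _
  · intro i y hy z hz hd
    by_cases h : i.1 < k
    · rw [hGt i h] at hz
      rw [hGt i h, hpre] at hy
      exact hF.unit _ (e y) hy (e z) hz (by rw [e.dist_map]; exact hd)
    · rw [hGf i h] at hz; exact hz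

end Vale.Agent.P032.B
end
end

section

section

/-! First base lemmas. -/

namespace Vale.Agent.P032.B

open Set Topology

variable {F : Fin 5 → Set ℂ}

theorem CC.nhd (h : CC F) (p : ℂ) : ∀ᶠ z in 𝓝 p, ∀ i, z ∈ F i → p ∈ F i := by
  rw [Filter.eventually_all]
  intro i
  by_cases hp : p ∈ F i
  · exact Filter.Eventually.of_forall fun _ _ => hp
  · filter_upwards [(h.closed i).isOpen_compl.mem_nhds hp] with z hz hzi
    exact absurd hzi hz

theorem CC.nhd_ball (h : CC F) (p : ℂ) : ∃ r > 0, ∀ z, dist z p < r → ∀ i, z ∈ F i → p ∈ F i := by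
  obtain ⟨r, hr, hball⟩ := Metric.eventually_nhds_iff_ball.1 (h.nhd p)
  exact ⟨r, hr, fun z hz => hball z hz⟩

/-- The W-lemma. -/
theorem CC.wlemma (h : CC F) {i : Fin 5} {K : Set ℂ} (hK : IsPreconnected K) (hKF : K ⊆ F i)
    {a b z : ℂ} (ha : a ∈ K) (hb : b ∈ K) (h1 : dist a z < 1) (h2 : 1 < dist b z) : z ∉ F i := by
  intro hz
  have hO : IsOpen {z : ℂ | dist a z < 1 ∧ 1 < dist b z} :=
    (isOpen_lt (continuous_const.dist continuous_id) continuous_const).inter
      (isOpen_lt continuous_const (continuous_const.dist continuous_id))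
  obtain ⟨y', hy', hyI⟩ := mem_closure_iff.1 (h.reg i hz) _ hO ⟨h1, h2⟩
  have hcont : ContinuousOn (fun z => dist z y') K :=
    (continuous_id.dist continuous_const).continuousOn
  obtain ⟨w, hwK, hw⟩ := hK.intermediate_value ha hb hcont ⟨hy'.1.le, hy'.2.le⟩
  exact h.unit i y' hyI w (hKF hwK) (by rw [dist_comm]; exact hw)

theorem CC.mem_int (h : CC F) {i : Fin 5} {z : ℂ} (hz : ∀ j, z ∈ F j → j = i) :
    z ∈ interior (F i) := by
  rw [mem_interior_iff_mem_nhds]
  filter_upwards [h.nhd z] with w hw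
  obtain ⟨j, hj⟩ := h.cover w
  exact hz j (hw j hj) ▸ hj

/-- if `i` is the only colour at `z` then `i` is absent on the unit circle about `z` -/
theorem CC.single (h : CC F) {i : Fin 5} {z y : ℂ} (hz : ∀ j, z ∈ F j → j = i)
    (hd : dist z y = 1) : y ∉ F i := fun hy => h.unit i z (h.mem_int hz) y hy hd

theorem CC.diam_le (h : CC F) {i : Fin 5} {K : Set ℂ} (hK : IsPreconnected K) (hKF : K ⊆ F i)
    {a b : ℂ} (ha : a ∈ K) (hb : b ∈ K) : dist a b ≤ 1 := by
  by_contra hlt
  push Not at hlt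
  exact h.wlemma hK hKF ha hb (z := a) (by simp only [dist_self, zero_lt_one]) (by rw [dist_comm]; exact hlt) (hKF ha)

end Vale.Agent.P032.B
end
end

section

section

/-! The rectangle lemma. -/

namespace Vale.Agent.P032.B

open Set Topology

variable {F : Fin 5 → Set ℂ}

theorem CC.rect (h : CC F) {x w : ℂ} {a b : Fin 5}
    (hout : ∀ ε > 0, ∃ v, dist v w < ε ∧ 1 < dist v x ∧ ∀ z, dist z v = 1 → z ∉ F a ∨ z ∉ F b)
    (hin : ∀ ε > 0, ∃ v, dist v w < ε ∧ dist v x < 1 ∧ ∀ z, dist z v = 1 → z ∉ F a ∨ z ∉ F b)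
    (hends : ∀ ρ0 > 0, ∃ ρ > 0, ρ < ρ0 ∧ ∀ g, dist g w = 1 → dist g x = ρ → g ∉ F a ∨ g ∉ F b) :
    ∀ ρ > 0, ∃ R, IsCompact R ∧ R ⊆ Metric.ball x ρ ∧ x ∈ interior R ∧
      ∀ v ∈ frontier R, v ∉ F a ∨ v ∉ F b := by
  intro ρ0 hρ0
  obtain ⟨ρ, hρ, hρρ, hg⟩ := hends ρ0 hρ0
  -- quantitative version of the ends
  obtain ⟨δ, hδ, hδg⟩ : ∃ δ > 0, ∀ z, dist z x = ρ → |dist z w - 1| < δ → z ∉ F a ∨ z ∉ F b := by
    set C : Set ℂ := Metric.sphere x ρ ∩ (F a ∩ F b) with hC
    have hCc : IsCompact C := (isCompact_sphere x ρ).inter_right ((h.closed a).inter (h.closed b))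
    by_cases hne : C.Nonempty
    · obtain ⟨m, hm, hmin⟩ := hCc.exists_isMinOn hne (f := fun z => |dist z w - 1|)
        (by (clear * -; fun_prop))
      have hpos : 0 < |dist m w - 1| := by
        rw [abs_pos]
        intro h0
        rcases hg m (by linarith only [h0]) hm.1 with h1 | h1
        · exact h1 hm.2.1
        · exact h1 hm.2.2
      refine ⟨_, hpos, fun z hz hlt => ?_⟩
      by_contra hcon
      push Not at hcon
      exact absurd (hmin (show z ∈ C from ⟨hz, hcon⟩)) (not_le.2 hlt)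
    · refine ⟨1, one_pos, fun z hz _ => ?_⟩
      by_contra hcon
      push Not at hcon
      exact hne ⟨z, hz, hcon⟩
  obtain ⟨v1, hv1, hv1x, hv1F⟩ := hout δ hδ
  obtain ⟨v2, hv2, hv2x, hv2F⟩ := hin δ hδ
  set R : Set ℂ := {z | dist z x ≤ ρ ∧ 1 ≤ dist z v1 ∧ dist z v2 ≤ 1} with hR
  have hc : ∀ u : ℂ, Continuous fun z : ℂ => dist z u := fun u => continuous_id.dist continuous_const
  have hcl : IsClosed R := by
    exact (isClosed_le (hc x) continuous_const).inter
      ((isClosed_le continuous_const (hc v1)).inter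
      (isClosed_le (hc v2) continuous_const))
  have hop : IsOpen {z : ℂ | dist z x < ρ ∧ 1 < dist z v1 ∧ dist z v2 < 1} := by
    exact (isOpen_lt (hc x) continuous_const).inter
      ((isOpen_lt continuous_const (hc v1)).inter
      (isOpen_lt (hc v2) continuous_const))
  have hsub : {z : ℂ | dist z x < ρ ∧ 1 < dist z v1 ∧ dist z v2 < 1} ⊆ interior R :=
    interior_maximal (fun z hz => ⟨hz.1.le, hz.2.1.le, hz.2.2.le⟩) hop
  refine ⟨R, ?_, ?_, ?_, ?_⟩
  · exact (isCompact_closedBall x ρ).of_isClosed_subset hcl fun z hz => hz.1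
  · exact fun z hz => lt_of_le_of_lt hz.1 hρρ
  · exact hsub ⟨by rw [dist_self]; exact hρ, by rw [dist_comm]; exact hv1x,
      by rw [dist_comm]; exact hv2x⟩
  · intro z hz
    rw [hcl.frontier_eq] at hz
    obtain ⟨⟨h1, h2, h3⟩, hzi⟩ := hz
    by_cases e1 : dist z v1 = 1
    · exact hv1F z e1
    by_cases e2 : dist z v2 = 1
    · exact hv2F z e2
    have h2' : 1 < dist z v1 := lt_of_le_of_ne h2 (Ne.symm e1)
    have h3' : dist z v2 < 1 := lt_of_le_of_ne h3 e2
    have e3 : dist z x = ρ := by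
      by_contra hne
      exact hzi (hsub ⟨lt_of_le_of_ne h1 hne, h2', h3'⟩)
    refine hδg z e3 ?_
    have t1 := dist_triangle z w v1
    have t2 := dist_triangle z v2 w
    rw [dist_comm w v1] at t1
    rw [abs_lt]
    constructor <;> linarith only [hv1, h2', t1, hv2, h3', t2]

/-- Five different colours are all colours. -/
theorem exhaust {p q a b c : Fin 5} (hnd : [p, q, a, b, c].Nodup) (i : Fin 5) :
    i = p ∨ i = q ∨ i = a ∨ i = b ∨ i = c := by
  have : i ∈ [p, q, a, b, c] := by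
    have hf : ([p, q, a, b, c] : List (Fin 5)).toFinset = Finset.univ := by
      apply Finset.eq_univ_of_card
      rw [List.toFinset_card_of_nodup hnd]
      rfl
    have := Finset.mem_univ i
    rw [← hf] at this
    simpa only [List.mem_cons, List.not_mem_nil, or_false, List.toFinset_cons, List.toFinset_nil, insert_empty_eq,     Finset.mem_insert, Finset.mem_singleton] using this
  simpa using this

/-- Points of the unit circle about `y` in terms of the point `x` of this circle. -/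
theorem circ_param {x y g : ℂ} (hx : dist x y = 1) (hg : dist g y = 1) :
    ∃ u : ℝ, g = y + (x - y) * cis u := by
  have hx0 : x - y ≠ 0 := by
    intro h0; rw [dist_eq_norm, h0, norm_zero] at hx; exact zero_ne_one hx
  have hn : ‖(g - y) / (x - y)‖ = 1 := by
    rw [norm_div, ← dist_eq_norm, ← dist_eq_norm, hx, hg, div_one]
  obtain ⟨u, hu⟩ := exists_cis hn
  refine ⟨u, ?_⟩
  rw [← hu]
  field_simp
  ring

theorem normSq_cis_sub_one (u : ℝ) : ‖cis u - 1‖ ^ 2 = 2 - 2 * Real.cos u := by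
  rw [← Complex.normSq_eq_norm_sq, Complex.normSq_apply]
  simp only [Complex.sub_re, Complex.sub_im, cis_re, cis_im, Complex.one_re, Complex.one_im]
  have := Real.sin_sq_add_cos_sq u
  linear_combination this

theorem cis_eq_of_norm {u s : ℝ} (h : ‖cis u - 1‖ = ‖cis s - 1‖) : cis u = cis s ∨ cis u = cis (-s) := by
  have h1 := normSq_cis_sub_one u
  have h2 := normSq_cis_sub_one s
  rw [h] at h1
  have hc : Real.cos u = Real.cos s := by linarith only [h1, h2]
  have hs : Real.sin u ^ 2 = Real.sin s ^ 2 := by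
    have a := Real.sin_sq_add_cos_sq u
    have b := Real.sin_sq_add_cos_sq s
    rw [hc] at a
    linarith only [a, b]
  rcases sq_eq_sq_iff_eq_or_eq_neg.1 hs with h3 | h3
  · left
    apply Complex.ext
    · rw [cis_re, cis_re, hc]
    · rw [cis_im, cis_im, h3]
  · right
    apply Complex.ext
    · rw [cis_re, cis_re, Real.cos_neg, hc]
    · rw [cis_im, cis_im, Real.sin_neg, h3]

theorem exists_small_sin (ρ0 : ℝ) (hρ0 : 0 < ρ0) : ∃ σ > 0, ∀ s, 0 < s → s < σ →
    0 < ‖cis s - 1‖ ∧ ‖cis s - 1‖ < ρ0 := by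
  have hc : Filter.Tendsto (fun s : ℝ => ‖cis s - 1‖) (𝓝 0) (𝓝 ‖cis 0 - 1‖) :=
    ((continuous_cis.sub continuous_const).norm).tendsto 0
  rw [cis_zero, sub_self, norm_zero] at hc
  obtain ⟨σ, hσ, hb⟩ := Metric.eventually_nhds_iff.1 (hc.eventually (gt_mem_nhds hρ0))
  refine ⟨min σ Real.pi, lt_min hσ Real.pi_pos, fun s hs hsσ => ⟨?_, ?_⟩⟩
  · rw [norm_pos_iff, sub_ne_zero]
    intro h1
    have h2 : Real.sin s = 0 := by rw [← cis_im, h1]; rfl
    exact (Real.sin_pos_of_pos_of_lt_pi hs (hsσ.trans_le (min_le_right _ _))).ne' h2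
  · refine hb ?_
    rw [Real.dist_eq, sub_zero, abs_of_pos hs]
    exact hsσ.trans_le (min_le_left _ _)

theorem cis_ne_of_lt {s t : ℝ} (h1 : s < t) (h2 : t - s < 2 * Real.pi) : cis s ≠ cis t := by
  intro he
  have hz : cis (t - s) = 1 := by
    rw [sub_eq_add_neg, cis_add, cis_neg, he, mul_inv_cancel₀ (cis_ne_zero t)]
  have hc : Real.cos (t - s) = 1 := by rw [← cis_re, hz]; rfl
  have h3 := (Real.cos_eq_one_iff_of_lt_of_lt (by linarith) h2).1 hc
  linarith

end Vale.Agent.P032.B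
end
end

section

section

/-! Base lemmas for five-colour closed covers of the complex plane. -/

namespace Vale.Agent.P032.B

open Set Topology

variable {F : Fin 5 → Set ℂ}

theorem sign_change {g : ℝ → ℝ} {g' t : ℝ} (hg : HasDerivAt g g' t) (h0 : g t = 0) (hg' : g' ≠ 0)
    {P : ℝ → Prop} (hP : ∀ᶠ s in 𝓝 t, P s) :
    ∃ s1 s2, (∀ s ∈ uIcc s1 s2, P s) ∧ g s1 < 0 ∧ 0 < g s2 := by
  wlog hpos : 0 < g' generalizing g g'
  · have hneg : g' < 0 := lt_of_le_of_ne (not_lt.1 hpos) hg'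
    obtain ⟨s1, s2, hs, h1, h2⟩ := this (g := fun s => - g s) (g' := -g') hg.neg (by simp [h0])
      (by simpa using hg') (by linarith)
    exact ⟨s2, s1, by rwa [uIcc_comm], by simpa only [Left.neg_pos_iff] using h2, by simpa only [Left.neg_neg_iff] using h1⟩
  have h1 := hg.tendsto_slope
  have h2 : ∀ᶠ s in 𝓝[≠] t, 0 < slope g t s := h1.eventually (lt_mem_nhds hpos)
  rw [eventually_nhdsWithin_iff] at h2
  obtain ⟨ε, hε, hball⟩ := Metric.eventually_nhds_iff.1 (h2.and hP)
  refine ⟨t - ε / 2, t + ε / 2, ?_, ?_, ?_⟩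
  · intro s hs
    rw [uIcc_of_le (by linarith only [hε])] at hs
    refine (hball (y := s) ?_).2
    rw [Real.dist_eq, abs_lt]
    constructor <;> linarith only [hε, hs.1, hs.2]
  · have := (hball (y := t - ε / 2) (by rw [Real.dist_eq, abs_lt]; constructor <;> linarith only [hε])).1
      (by simp; linarith)
    rw [slope_def_field, h0] at this
    have h3 : (g (t - ε / 2) - 0) / (t - ε / 2 - t) = - (g (t - ε / 2) / (ε / 2)) := by
      have : t - ε / 2 - t = -(ε / 2) := by ring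
      rw [this, sub_zero, div_neg]
    rw [h3] at this
    by_contra hcon
    push Not at hcon
    have : 0 ≤ g (t - ε / 2) / (ε / 2) := by (clear * - hcon hε; positivity)
    (clear P hP g' hg h0 hg' hpos h1 h2 hball h3; linarith)
  · have := (hball (y := t + ε / 2) (by rw [Real.dist_eq, abs_lt]; constructor <;> linarith only [hε])).1
      (by simp; linarith)
    rw [slope_def_field, h0] at this
    have h3 : (g (t + ε / 2) - 0) / (t + ε / 2 - t) = (g (t + ε / 2) / (ε / 2)) := by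
      have : t + ε / 2 - t = (ε / 2) := by ring
      rw [this, sub_zero]
    rw [h3] at this
    exact (div_pos_iff_of_pos_right (by linarith only [hε])).1 this

theorem dist_sq (a b : ℂ) : dist a b ^ 2 = (a.re - b.re) ^ 2 + (a.im - b.im) ^ 2 := by
  rw [Complex.dist_eq_re_im, Real.sq_sqrt (by positivity)]

theorem dist_lt_one {a b : ℂ} (h : (a.re - b.re) ^ 2 + (a.im - b.im) ^ 2 < 1) : dist a b < 1 := by
  rw [← dist_sq] at h
  nlinarith [dist_nonneg (x := a) (y := b)]

theorem one_lt_dist {a b : ℂ} (h : 1 < (a.re - b.re) ^ 2 + (a.im - b.im) ^ 2) : 1 < dist a b := by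
  rw [← dist_sq] at h
  nlinarith [dist_nonneg (x := a) (y := b)]

/-- Crossing lemma: arcs on two concentric circles. -/
theorem CC.cross (h : CC F) {i : Fin 5} {x w w' : ℂ} {t : ℝ} (hd : dist w w' = 1)
    (him : (w * (starRingEnd ℂ) w').im ≠ 0) (harc : ∀ᶠ s in 𝓝 t, x + w * cis s ∈ F i) :
    x + w' * cis t ∉ F i := by
  have hd2 : (w.re - w'.re) ^ 2 + (w.im - w'.im) ^ 2 = 1 := by rw [← dist_sq, hd]; norm_num
  simp only [Complex.mul_im, Complex.conj_re, Complex.conj_im] at him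
  set z := x + w' * cis t with hz
  set g : ℝ → ℝ := fun s => ((x + w * cis s).re - z.re) ^ 2 + ((x + w * cis s).im - z.im) ^ 2 - 1
    with hg
  have hg2 : g = fun s => (w.re * Real.cos s - w.im * Real.sin s
      - (w'.re * Real.cos t - w'.im * Real.sin t)) ^ 2 + (w.re * Real.sin s + w.im * Real.cos s
      - (w'.re * Real.sin t + w'.im * Real.cos t)) ^ 2 - 1 := by
    funext s
    simp only [hg, hz, Complex.add_re, Complex.add_im, Complex.mul_re, Complex.mul_im, cis_re,
      cis_im]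
    ring
  have hder : HasDerivAt g (2 * (w.re * w'.im * (-1) + w.im * w'.re) * (1)) t := by
    rw [hg2]
    have hc := Real.hasDerivAt_cos t
    have hs := Real.hasDerivAt_sin t
    have h1 := ((((hc.const_mul w.re).sub (hs.const_mul w.im)).sub_const
      (w'.re * Real.cos t - w'.im * Real.sin t)).pow 2).add
      ((((hs.const_mul w.re).add (hc.const_mul w.im)).sub_const
      (w'.re * Real.sin t + w'.im * Real.cos t)).pow 2)
    have h2 := h1.sub_const 1
    refine HasDerivAt.congr_deriv h2 ?_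
    have := Real.sin_sq_add_cos_sq t
    simp only [Nat.cast_ofNat, Nat.reduceSub, pow_one, Pi.sub_apply, Pi.add_apply]
    linear_combination (2 * (w.re * w'.im * (-1) + w.im * w'.re)) * this
  have hg0 : g t = 0 := by
    rw [hg2]
    have := Real.sin_sq_add_cos_sq t
    simp only
    linear_combination ((w.re - w'.re) ^ 2 + (w.im - w'.im) ^ 2) * this + hd2
  obtain ⟨s1, s2, hs, h1, h2⟩ := sign_change hder hg0
    (by intro h0; apply him; linarith only [h0]) harc
  have hpre : IsPreconnected ((fun s => x + w * cis s) '' uIcc s1 s2) :=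
    isPreconnected_uIcc.image _
      (continuous_const.add (continuous_const.mul continuous_cis)).continuousOn
  refine h.wlemma hpre (a := x + w * cis s1) (b := x + w * cis s2) ?_ ?_ ?_ ?_ ?_
  · rintro _ ⟨s, hs', rfl⟩
    exact hs s hs'
  · exact mem_image_of_mem _ left_mem_uIcc
  · exact mem_image_of_mem _ right_mem_uIcc
  · apply dist_lt_one
    have : g s1 < 0 := h1
    simp only [hg] at this
    linarith only [h1]
  · apply one_lt_dist
    have : 0 < g s2 := h2
    simp only [hg] at this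
    linarith only [h2]

theorem dist_cis_sq (p : ℂ) (a b s : ℝ) :
    ((p + cis a).re - (p + s * cis b).re) ^ 2 + ((p + cis a).im - (p + s * cis b).im) ^ 2
      = 1 + s ^ 2 - 2 * s * Real.cos (a - b) := by
  simp only [Complex.add_re, Complex.add_im, Complex.mul_re, Complex.mul_im, cis_re,
      cis_im, Complex.ofReal_re, Complex.ofReal_im, Real.cos_sub]
  have h1 := Real.sin_sq_add_cos_sq a
  have h2 := Real.sin_sq_add_cos_sq b
  linear_combination h1 + s ^ 2 * h2

theorem continuous_circ (x w : ℂ) : Continuous (fun s : ℝ => x + w * cis s) :=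
  continuous_const.add (continuous_const.mul continuous_cis)

theorem continuous_circ1 (x : ℂ) : Continuous (fun s : ℝ => x + cis s) :=
  continuous_const.add continuous_cis

/-- The wedge lemma: the double wedge at `p` orthogonal to an arc of the unit circle about `p`. -/
theorem CC.wedge (h : CC F) {i : Fin 5} {p : ℂ} {t δ β s : ℝ} (hδ : 0 < δ)
    (hδ' : δ ≤ Real.pi / 2) (hβ : |β - (t + Real.pi / 2)| ≤ δ / 2) (hs : s ≠ 0)
    (hs' : |s| < 2 * Real.sin (δ / 2)) (harc : ∀ α ∈ Icc (t - δ) (t + δ), p + cis α ∈ F i) :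
    p + s * cis β ∉ F i := by
  have hpi := Real.pi_pos
  rw [abs_le] at hβ
  have hpre : IsPreconnected ((fun s => p + cis s) '' Icc (t - δ) (t + δ)) :=
    isPreconnected_Icc.image _ (continuous_circ1 p).continuousOn
  have hsub : ((fun s => p + cis s) '' Icc (t - δ) (t + δ)) ⊆ F i := by
    rintro _ ⟨s, hs', rfl⟩
    exact harc s hs'
  have hA : p + cis (t - δ) ∈ ((fun s => p + cis s) '' Icc (t - δ) (t + δ)) :=
    mem_image_of_mem _ ⟨le_rfl, by linarith only [hδ]⟩
  have hB : p + cis (t + δ) ∈ ((fun s => p + cis s) '' Icc (t - δ) (t + δ)) :=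
    mem_image_of_mem _ ⟨by linarith only [hδ], le_rfl⟩
  have hcB : Real.sin (δ / 2) ≤ Real.cos (t + δ - β) := by
    rw [← Real.cos_pi_div_two_sub, ← Real.cos_neg (t + δ - β)]
    rcases le_total (t + δ - β) 0 with h0 | h0
    · exact Real.cos_le_cos_of_nonneg_of_le_pi (by linarith only [h0]) (by linarith only [hδ, hδ']) (by linarith only [hβ])
    · rw [Real.cos_neg]
      exact Real.cos_le_cos_of_nonneg_of_le_pi (by linarith only [h0]) (by linarith only [hδ, hδ']) (by linarith only [hδ', hβ])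
  have hcA : Real.cos (t - δ - β) ≤ - Real.sin (δ / 2) := by
    rw [← Real.cos_pi_div_two_sub, ← Real.cos_pi_sub, ← Real.cos_neg (t - δ - β)]
    rcases le_total (-(t - δ - β)) Real.pi with h0 | h0
    · exact Real.cos_le_cos_of_nonneg_of_le_pi (by linarith only [hδ, hδ']) (by linarith only [h0]) (by linarith only [hβ])
    · rw [← Real.cos_two_pi_sub]
      exact Real.cos_le_cos_of_nonneg_of_le_pi (by linarith only [hδ, hδ']) (by linarith only [h0]) (by linarith only [hδ', hβ])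
  have hsin : 0 < Real.sin (δ / 2) := Real.sin_pos_of_pos_of_lt_pi (by linarith only [hδ]) (by linarith only [hδ, hδ'])
  rcases lt_or_gt_of_ne hs with hneg | hpos
  · rw [abs_of_neg hneg] at hs'
    refine h.wlemma hpre hsub hA hB ?_ ?_
    · apply dist_lt_one
      rw [dist_cis_sq]
      nlinarith only [hs', hneg, hcA]
    · apply one_lt_dist
      rw [dist_cis_sq]
      nlinarith only [hs', hneg, hcB]
  · rw [abs_of_pos hpos] at hs'
    refine h.wlemma hpre hsub hB hA ?_ ?_
    · apply dist_lt_one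
      rw [dist_cis_sq]
      nlinarith only [hs', hpos, hcB]
    · apply one_lt_dist
      rw [dist_cis_sq]
      nlinarith only [hs', hpos, hcA]

/-- small scale form of the wedge lemma. -/
theorem CC.wedge' (h : CC F) {p : ℂ} {t : ℝ} {P : Fin 5 → Prop}
    (harc : ∀ᶠ s in 𝓝 t, ∀ i, P i → p + cis s ∈ F i) :
    ∃ r > 0, ∀ β s : ℝ, |β - (t + Real.pi / 2)| < r → s ≠ 0 → |s| < r →
      ∀ i, P i → p + s * cis β ∉ F i := by
  obtain ⟨ε, hε, hball⟩ := Metric.eventually_nhds_iff.1 harc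
  have hpi := Real.pi_pos
  set δ := min (ε / 2) (Real.pi / 2) with hδdef
  have hδ : 0 < δ := lt_min (by linarith only [hε]) (by linarith only [hpi])
  have hδ1 : δ ≤ ε / 2 := min_le_left _ _
  have hδ' : δ ≤ Real.pi / 2 := min_le_right _ _
  have hsin : 0 < Real.sin (δ / 2) := Real.sin_pos_of_pos_of_lt_pi (by linarith only [hδ]) (by linarith only [hδ, hδ'])
  refine ⟨min (δ / 2) (2 * Real.sin (δ / 2)), lt_min (by linarith only [hδ]) (by linarith only [hsin]), ?_⟩
  intro β s hβ hs hs' i hi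
  refine h.wedge hδ hδ' (hβ.le.trans (min_le_left _ _)) hs (hs'.trans_le (min_le_right _ _)) ?_
  intro α hα
  refine hball (y := α) ?_ i hi
  rw [Real.dist_eq, abs_lt]
  constructor <;> linarith only [hδ, hδ1, hα.1, hα.2]

theorem dist_cis (a b : ℝ) : ‖cis a - cis b‖ ^ 2 = 2 - 2 * Real.cos (a - b) := by
  rw [← Complex.normSq_eq_norm_sq, Complex.normSq_apply]
  simp only [Complex.sub_re, Complex.sub_im, cis_re, cis_im, Real.cos_sub]
  have h1 := Real.sin_sq_add_cos_sq a
  have h2 := Real.sin_sq_add_cos_sq b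
  linear_combination h1 + h2

theorem norm_cis_add_pi_div_three (a : ℝ) : ‖cis (a + Real.pi / 3) - cis a‖ = 1 := by
  have h1 := dist_cis (a + Real.pi / 3) a
  rw [show a + Real.pi / 3 - a = Real.pi / 3 by ring, Real.cos_pi_div_three] at h1
  have h2 : ‖cis (a + Real.pi / 3) - cis a‖ ^ 2 = 1 := by rw [h1]; norm_num
  nlinarith only [h1, norm_nonneg (cis (a + Real.pi / 3) - cis a)]

theorem small_mem {O : Set ℂ} (hO : IsOpen O) {p : ℂ} (hp : p ∈ O) (c : ℂ) :
    ∀ᶠ u : ℝ in 𝓝 (0 : ℝ), p + (u : ℂ) * c ∈ O := by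
  have hc : Continuous (fun u : ℝ => p + (u : ℂ) * c) := by fun_prop
  have h2 : O ∈ 𝓝 ((fun u : ℝ => p + (u : ℂ) * c) 0) := by simpa only [Complex.ofReal_zero, zero_mul, add_zero] using hO.mem_nhds hp
  exact hc.continuousAt.preimage_mem_nhds h2

theorem small_abs {r : ℝ} (hr : 0 < r) : ∀ᶠ u : ℝ in 𝓝 (0 : ℝ), |u| < r := by
  have := Metric.ball_mem_nhds (0 : ℝ) hr
  filter_upwards [this] with u hu
  simpa [Real.dist_eq] using hu

/-- (2C) an open set with only two colours contains no unit arc longer than 120 degrees. -/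
theorem CC.twoRegion (h : CC F) {k m : Fin 5} {O : Set ℂ} (hO : IsOpen O)
    (hcol : ∀ z ∈ O, ∀ i, z ∈ F i → i = k ∨ i = m) (x : ℂ) {t0 t1 : ℝ}
    (ht : t0 + 2 * Real.pi / 3 < t1) (harc : ∀ t ∈ Icc t0 t1, x + cis t ∈ O) : False := by
  have hpi := Real.pi_pos
  have key : ∀ s ∈ Icc t0 t1, ∀ e : ℂ, ‖e‖ = 1 → x + cis s + e ∈ O →
      ¬ (x + cis s ∈ F k ∧ x + cis s ∈ F m) := by
    rintro s hs e he heO ⟨hk, hm⟩
    obtain ⟨ψ, rfl⟩ := exists_cis he
    have h1 : ∀ᶠ a in 𝓝 ψ, x + cis s + cis a ∈ O :=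
      (continuous_circ1 (x + cis s)).continuousAt.eventually (hO.mem_nhds heO)
    have h2 : ∀ᶠ a in 𝓝 ψ, ∀ i, (i = k ∨ i = m) → x + cis s + cis a ∈ F i := by
      filter_upwards [h1] with a ha
      have hd : dist (x + cis s + cis a) (x + cis s) = 1 := by
        rw [dist_eq_norm]; simp
      rintro i (rfl | rfl)
      · by_contra hcon
        refine h.single (i := m) ?_ hd hm
        intro j hj
        rcases hcol _ ha j hj with rfl | rfl
        · exact absurd hj hcon
        · rfl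
      · by_contra hcon
        refine h.single (i := k) ?_ hd hk
        intro j hj
        rcases hcol _ ha j hj with rfl | rfl
        · rfl
        · exact absurd hj hcon
    obtain ⟨r, hr, hw⟩ := h.wedge' h2
    have h3 : ∀ᶠ u : ℝ in 𝓝[≠] (0 : ℝ), x + cis s + (u : ℂ) * cis (ψ + Real.pi / 2) ∈ O :=
      (small_mem hO (harc s hs) _).filter_mono nhdsWithin_le_nhds
    have h4 : ∀ᶠ u : ℝ in 𝓝[≠] (0 : ℝ), |u| < r :=
      (small_abs hr).filter_mono nhdsWithin_le_nhds
    have h5 : ∀ᶠ u : ℝ in 𝓝[≠] (0 : ℝ), u ≠ 0 := eventually_mem_nhdsWithin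
    obtain ⟨u, hu1, hu2, hu3⟩ := (h3.and (h4.and h5)).exists
    obtain ⟨i, hi⟩ := h.cover (x + cis s + (u : ℂ) * cis (ψ + Real.pi / 2))
    exact hw (ψ + Real.pi / 2) u (by simpa only [sub_self, abs_zero, gt_iff_lt] using hr) hu3 hu2 i (hcol _ hu1 i hi) hi
  have key2 : ∀ s ∈ Icc t0 t1, ¬ (x + cis s ∈ F k ∧ x + cis s ∈ F m) := by
    intro s hs
    rcases le_total s ((t0 + t1) / 2) with hle | hle
    · refine key s hs (cis (s + Real.pi / 3) - cis s) (norm_cis_add_pi_div_three s) ?_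
      have := harc (s + Real.pi / 3) ⟨by linarith only [hpi, hs.1], by linarith only [ht, hle]⟩
      convert this using 1
      ring
    · refine key s hs (cis (s - Real.pi / 3) - cis s) ?_ ?_
      · have := norm_cis_add_pi_div_three (s - Real.pi / 3)
        rw [sub_add_cancel] at this
        rw [norm_sub_rev]; exact this
      have := harc (s - Real.pi / 3) ⟨by linarith only [ht, hle], by linarith only [hpi, hs.2]⟩
      convert this using 1
      ring
  have hdd : dist (x + cis t0) (x + cis (t0 + Real.pi / 3)) = 1 := by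
    rw [dist_comm, dist_eq_norm, add_sub_add_left_eq_sub]
    exact norm_cis_add_pi_div_three t0
  have h0 : t0 ∈ Icc t0 t1 := ⟨le_rfl, by linarith only [ht, hpi]⟩
  have h0' : t0 + Real.pi / 3 ∈ Icc t0 t1 := ⟨by linarith only [hpi], by linarith⟩
  have hcl := isPreconnected_closed_iff.1 (isPreconnected_Icc (a := t0) (b := t1))
    ((fun s => x + cis s) ⁻¹' F k) ((fun s => x + cis s) ⁻¹' F m)
    ((h.closed k).preimage (continuous_circ1 x)) ((h.closed m).preimage (continuous_circ1 x))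
    (by
      intro s hs
      obtain ⟨i, hi⟩ := h.cover (x + cis s)
      rcases hcol _ (harc s hs) i hi with rfl | rfl
      · exact Or.inl hi
      · exact Or.inr hi)
  by_cases hk : (Icc t0 t1 ∩ (fun s => x + cis s) ⁻¹' F k).Nonempty
  · by_cases hm : (Icc t0 t1 ∩ (fun s => x + cis s) ⁻¹' F m).Nonempty
    · obtain ⟨s, hs, hs1, hs2⟩ := hcl hk hm
      exact key2 s hs ⟨hs1, hs2⟩
    · rw [not_nonempty_iff_eq_empty] at hm
      have hall : ∀ s ∈ Icc t0 t1, ∀ j, x + cis s ∈ F j → j = k := by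
        intro s hs j hj
        rcases hcol _ (harc s hs) j hj with rfl | rfl
        · rfl
        · exact absurd (show s ∈ Icc t0 t1 ∩ (fun s => x + cis s) ⁻¹' F j from ⟨hs, hj⟩) (by rw [hm]; simp)
      obtain ⟨i, hi⟩ := h.cover (x + cis (t0 + Real.pi / 3))
      have := hall _ h0' i hi
      subst this
      exact h.single (hall t0 h0) hdd hi
  · rw [not_nonempty_iff_eq_empty] at hk
    have hall : ∀ s ∈ Icc t0 t1, ∀ j, x + cis s ∈ F j → j = m := by
      intro s hs j hj
      rcases hcol _ (harc s hs) j hj with rfl | rfl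
      · exact absurd (show s ∈ Icc t0 t1 ∩ (fun s => x + cis s) ⁻¹' F j from ⟨hs, hj⟩) (by rw [hk]; simp)
      · rfl
    obtain ⟨i, hi⟩ := h.cover (x + cis (t0 + Real.pi / 3))
    have := hall _ h0' i hi
    subst this
    exact h.single (hall t0 h0) hdd hi

theorem two_left : ∀ i j l : Fin 5, i ≠ j → i ≠ l → j ≠ l →
    ∃ k m, ∀ n, n ≠ i → n ≠ j → n ≠ l → n = k ∨ n = m := by decide

theorem CC.sweep (h : CC F) {i j l : Fin 5} (hij : i ≠ j) (hil : i ≠ l) (hjl : j ≠ l) {x : ℂ}
    {t0 t1 : ℝ} (ht : t0 + 2 * Real.pi / 3 < t1)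
    (hi : ∀ t ∈ Icc t0 t1, x + cis t ∉ F i) (hj : ∀ t ∈ Icc t0 t1, x + cis t ∉ F j)
    (hl : ∀ t ∈ Icc t0 t1, x + cis t ∉ F l) : False := by
  obtain ⟨k, m, hkm⟩ := two_left i j l hij hil hjl
  refine h.twoRegion (k := k) (m := m) (O := (F i ∪ F j ∪ F l)ᶜ)
    ((((h.closed i).union (h.closed j)).union (h.closed l)).isOpen_compl) ?_ x ht ?_
  · intro z hz n hn
    simp only [mem_compl_iff, mem_union, not_or] at hz
    refine hkm n ?_ ?_ ?_
    · rintro rfl; exact hz.1.1 hn
    · rintro rfl; exact hz.1.2 hn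
    · rintro rfl; exact hz.2 hn
  · intro t ht'
    simp only [mem_compl_iff, mem_union, not_or]
    exact ⟨⟨hi t ht', hj t ht'⟩, hl t ht'⟩

/-- Lemma Q -/
theorem CC.lemQ (h : CC F) {i j : Fin 5} (hij : i ≠ j) {x w : ℂ} (hw : w ≠ 0) {t : ℝ}
    (harc : ∀ᶠ s in 𝓝 t, x + w * cis s ∈ F i ∧ x + w * cis s ∈ F j) {l : Fin 5}
    (hl : x + w * cis t ∈ F l) : l = i ∨ l = j := by
  by_contra hcon
  push Not at hcon
  obtain ⟨hli, hlj⟩ := hcon
  have hpi := Real.pi_pos
  have hw0 : 0 < ‖w‖ := norm_pos_iff.2 hw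
  obtain ⟨φ, hφ⟩ : ∃ φ : ℝ, w = ‖w‖ * cis φ := by
    obtain ⟨φ, hφ⟩ := exists_cis (v := w / ‖w‖) (by
      rw [norm_div, Complex.norm_real, norm_norm, div_self hw0.ne'])
    refine ⟨φ, ?_⟩
    rw [← hφ, mul_div_cancel₀ _ (by exact_mod_cast hw0.ne')]
  set ψ := φ + t with hψ
  set z0 := x + w * cis t with hz0
  -- near the arc
  have hcomp : ∀ᶠ z in 𝓝 z0, ∀ τ ∈ Icc (ψ + Real.pi / 8) (ψ + 7 * Real.pi / 8),
      z + cis τ ∈ (F i ∪ F j)ᶜ := by
    refine isCompact_Icc.eventually_forall_of_forall_eventually ?_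
    intro τ hτ
    have hO : IsOpen ((F i ∪ F j)ᶜ) := ((h.closed i).union (h.closed j)).isOpen_compl
    have hc : Continuous (fun q : ℂ × ℝ => q.1 + cis q.2) :=
      continuous_fst.add (continuous_cis.comp continuous_snd)
    refine hc.continuousAt.eventually (hO.mem_nhds ?_)
    show z0 + cis τ ∈ (F i ∪ F j)ᶜ
    set w' := w + cis (τ - t) with hw'
    have e1 : z0 + cis τ = x + w' * cis t := by
      rw [hz0, hw', add_mul, ← cis_add]
      ring_nf
    have hd : dist w w' = 1 := by rw [dist_eq_norm, hw']; simp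
    have him : (w * (starRingEnd ℂ) w').im ≠ 0 := by
      have e2 : (w * (starRingEnd ℂ) w').im = ‖w‖ * (- Real.sin (τ - ψ)) := by
        rw [hw']
        have ew1 : w.re = ‖w‖ * Real.cos φ := by
          rw [hφ]; simp [cis_re, cis_im]
        have ew2 : w.im = ‖w‖ * Real.sin φ := by
          rw [hφ]; simp [cis_re, cis_im]
        simp only [Complex.mul_im, Complex.conj_re, Complex.conj_im, Complex.add_re,
          Complex.add_im, cis_re, cis_im]
        have e3 : Real.sin (τ - ψ) = Real.sin ((τ - t) - φ) := by rw [hψ]; ring_nf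
        rw [e3, Real.sin_sub (τ - t) φ, ew1, ew2]
        ring
      rw [e2]
      have hs : 0 < Real.sin (τ - ψ) :=
        Real.sin_pos_of_pos_of_lt_pi (by linarith only [hpi, hτ.1]) (by linarith only [hpi, hτ.2])
      nlinarith only [hw0, hs]
    rw [e1]
    simp only [mem_compl_iff, mem_union, not_or]
    exact ⟨h.cross hd him (harc.mono fun _ hs => hs.1), h.cross hd him (harc.mono fun _ hs => hs.2)⟩
  have hz0l : z0 ∈ closure (interior (F l)) := h.reg l hl
  obtain ⟨z', hz'1, hz'2⟩ := (mem_closure_iff_nhds.1 hz0l) _ hcomp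
  refine h.sweep (i := i) (j := j) (l := l) hij hli.symm hlj.symm (x := z')
    (t0 := ψ + Real.pi / 8) (t1 := ψ + 7 * Real.pi / 8) (by linarith only [hpi]) ?_ ?_ ?_
  · intro τ hτ hF
    exact hz'1 τ hτ (Or.inl hF)
  · intro τ hτ hF
    exact hz'1 τ hτ (Or.inr hF)
  · intro τ hτ hF
    exact h.unit l z' hz'2 _ hF (by rw [dist_eq_norm]; simp)

/-- no nondegenerate connected set carries three colours. -/
theorem CC.tri (h : CC F) {i j k : Fin 5} (hij : i ≠ j) (hik : i ≠ k) (hjk : j ≠ k) {K : Set ℂ}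
    (hK : IsPreconnected K) (hi : K ⊆ F i) (hj : K ⊆ F j) (hk : K ⊆ F k) : K.Subsingleton := by
  intro a ha b hb
  by_contra hab
  have hpi := Real.pi_pos
  have hd0 : 0 < dist a b := dist_pos.2 hab
  -- choose a nearby second point
  obtain ⟨c, hc, hcd⟩ : ∃ c ∈ K, dist a c = min (dist a b) (1 / 2) := by
    have hcont : ContinuousOn (fun c : ℂ => dist a c) K :=
      (continuous_const.dist continuous_id).continuousOn
    obtain ⟨c, hc, hc'⟩ := hK.intermediate_value ha hb hcont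
      (show min (dist a b) (1 / 2) ∈ Icc (dist a a) (dist a b) from
        ⟨by rw [dist_self]; (clear * - hd0; positivity), min_le_left _ _⟩)
    exact ⟨c, hc, hc'⟩
  have hρ0 : 0 < dist a c := by rw [hcd]; exact lt_min hd0 (by norm_num)
  have hρ1 : dist a c ≤ 1 / 2 := by rw [hcd]; exact min_le_right _ _
  obtain ⟨φ, hφ⟩ : ∃ φ : ℝ, c - a = dist a c * cis φ := by
    obtain ⟨φ, hφ⟩ := exists_cis (v := (c - a) / (dist a c : ℂ)) (by
      rw [norm_div, Complex.norm_real, ← dist_eq_norm, dist_comm c a, Real.norm_of_nonneg hρ0.le,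
        div_self hρ0.ne'])
    refine ⟨φ, ?_⟩
    rw [← hφ, mul_div_cancel₀ _ (by exact_mod_cast hρ0.ne')]
  set ρ := dist a c with hρ
  set m := (a + c) / 2 with hm
  have ha' : a = m + ((-(ρ / 2) : ℝ) : ℂ) * cis φ := by
    rw [hm]; push_cast
    have : c = a + ρ * cis φ := by rw [← hφ]; ring
    rw [this]; ring
  have hc' : c = m + ((ρ / 2 : ℝ) : ℂ) * cis φ := by
    rw [hm]; push_cast
    have : c = a + ρ * cis φ := by rw [← hφ]; ring
    rw [this]; ring
  have hkey : ∀ τ ∈ Icc (φ + 5 * Real.pi / 8) (φ + 11 * Real.pi / 8),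
      dist a (m + cis τ) < 1 ∧ 1 < dist c (m + cis τ) := by
    intro τ hτ
    have hcos : Real.cos (τ - φ) < - (1 / 4) := by
      have h1 : - Real.cos (τ - φ) = Real.cos (τ - φ - Real.pi) := by
        rw [Real.cos_sub_pi]
      have h2 : Real.cos (Real.pi * 3 / 8) ≤ Real.cos (τ - φ - Real.pi) := by
        rw [← Real.cos_abs (τ - φ - Real.pi)]
        refine Real.cos_le_cos_of_nonneg_of_le_pi (abs_nonneg _) (by linarith only [hpi]) ?_
        rw [abs_le]
        constructor <;> linarith only [hτ.1, hτ.2]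
      have h3 : 1 / 4 < Real.cos (Real.pi * 3 / 8) := by
        have h4 : Real.cos (Real.pi * 3 / 8) = Real.sin (Real.pi / 8) := by
          rw [← Real.cos_pi_div_two_sub]; ring_nf
        rw [h4]
        have h7 := Real.pi_gt_d2
        have h8 := Real.pi_lt_d2
        have h6 := Real.sin_gt_sub_cube (x := Real.pi / 8) (by positivity)
        have h9 : (Real.pi / 8) ^ 3 ≤ (1 / 2) ^ 3 :=
          pow_le_pow_left₀ (by positivity) (by linarith only [h8]) 3
        norm_num at h7 h9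
        linarith only [h6, h7, h9]
      linarith only [h1, h2, h3]
    have hsym : ∀ s : ℝ, ((m + s * cis φ).re - (m + cis τ).re) ^ 2
        + ((m + s * cis φ).im - (m + cis τ).im) ^ 2 = 1 + s ^ 2 - 2 * s * Real.cos (τ - φ) := by
      intro s
      rw [← dist_cis_sq m τ φ s]; ring
    constructor
    · apply dist_lt_one
      rw [ha', hsym]
      nlinarith only [hρ0, hρ1, hcos]
    · apply one_lt_dist
      rw [hc', hsym]
      nlinarith only [hρ0, hcos]
  refine h.sweep (i := i) (j := j) (l := k) hij hik hjk (x := m)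
    (t0 := φ + 5 * Real.pi / 8) (t1 := φ + 11 * Real.pi / 8) (by linarith only [hpi]) ?_ ?_ ?_
  · intro τ hτ
    exact h.wlemma hK hi ha hc (hkey τ hτ).1 (hkey τ hτ).2
  · intro τ hτ
    exact h.wlemma hK hj ha hc (hkey τ hτ).1 (hkey τ hτ).2
  · intro τ hτ
    exact h.wlemma hK hk ha hc (hkey τ hτ).1 (hkey τ hτ).2

end Vale.Agent.P032.B
end
end

section

section

/-! Grid sums and the discrete Stokes theorem. -/

namespace Vale.Agent.P032.B

open Set Topology

/-- The grid point `(a η, b η)`. -/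
def gp (η : ℝ) (a b : ℤ) : ℂ := ⟨a * η, b * η⟩

/-- The closed grid square with lower left corner `(Q.1 η, Q.2 η)`. -/
def sq (η : ℝ) (Q : ℤ × ℤ) : Set ℂ :=
  {z | Q.1 * η ≤ z.re ∧ z.re ≤ (Q.1 + 1) * η ∧ Q.2 * η ≤ z.im ∧ z.im ≤ (Q.2 + 1) * η}

/-- The sum of `ω` around a grid square. -/
def TT (ω : ℂ → ℂ → ℤ) (η : ℝ) (Q : ℤ × ℤ) : ℤ :=
  ω (gp η Q.1 Q.2) (gp η (Q.1 + 1) Q.2) + ω (gp η (Q.1 + 1) Q.2) (gp η (Q.1 + 1) (Q.2 + 1)) +
  ω (gp η (Q.1 + 1) (Q.2 + 1)) (gp η Q.1 (Q.2 + 1)) + ω (gp η Q.1 (Q.2 + 1)) (gp η Q.1 Q.2)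

/-- The grid squares contained in `K`. -/
def grid (η : ℝ) (K : Set ℂ) : Set (ℤ × ℤ) := {Q | sq η Q ⊆ K}

/-- The total sum over the grid squares contained in `K`. -/
noncomputable def Tot (ω : ℂ → ℂ → ℤ) (η : ℝ) (K : Set ℂ) : ℤ := ∑ᶠ Q ∈ grid η K, TT ω η Q

theorem corner00 {η : ℝ} (hη : 0 < η) (Q : ℤ × ℤ) : gp η Q.1 Q.2 ∈ sq η Q := by
  simp only [sq, gp, mem_ofPred_eq]; refine ⟨le_rfl, ?_, le_rfl, ?_⟩ <;> linarith

theorem corner10 {η : ℝ} (hη : 0 < η) (Q : ℤ × ℤ) : gp η (Q.1 + 1) Q.2 ∈ sq η Q := by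
  simp only [sq, gp, mem_ofPred_eq]; push_cast; refine ⟨?_, ?_, le_rfl, ?_⟩ <;> nlinarith

theorem corner11 {η : ℝ} (hη : 0 < η) (Q : ℤ × ℤ) : gp η (Q.1 + 1) (Q.2 + 1) ∈ sq η Q := by
  simp only [sq, gp, mem_ofPred_eq]; push_cast; refine ⟨?_, ?_, ?_, ?_⟩ <;> nlinarith

theorem corner01 {η : ℝ} (hη : 0 < η) (Q : ℤ × ℤ) : gp η Q.1 (Q.2 + 1) ∈ sq η Q := by
  simp only [sq, gp, mem_ofPred_eq]; push_cast; refine ⟨le_rfl, ?_, ?_, ?_⟩ <;> nlinarith

theorem sq_dist {η : ℝ} {Q : ℤ × ℤ} {z w : ℂ} (hz : z ∈ sq η Q) (hw : w ∈ sq η Q) :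
    dist z w ≤ 2 * η := by
  obtain ⟨h1, h2, h3, h4⟩ := hz
  obtain ⟨k1, k2, k3, k4⟩ := hw
  rw [Complex.dist_eq]
  refine (Complex.norm_le_abs_re_add_abs_im _).trans ?_
  have a1 : |(z - w).re| ≤ η := by
    rw [Complex.sub_re, abs_le]; constructor <;> linarith
  have a2 : |(z - w).im| ≤ η := by
    rw [Complex.sub_im, abs_le]; constructor <;> linarith
  linarith

theorem sq_preconnected (η : ℝ) (Q : ℤ × ℤ) : IsPreconnected (sq η Q) := by
  have : Convex ℝ (sq η Q) := by
    have e : sq η Q = Complex.reCLM ⁻¹' (Icc (Q.1 * η) ((Q.1 + 1) * η)) ∩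
        Complex.imCLM ⁻¹' (Icc (Q.2 * η) ((Q.2 + 1) * η)) := by
      ext z; simp only [sq, mem_ofPred_eq, mem_inter_iff, mem_preimage, Complex.reCLM_apply, mem_Icc, Complex.imCLM_apply, and_assoc]
    rw [e]
    exact ((convex_Icc _ _).linear_preimage Complex.reCLM.toLinearMap).inter
      ((convex_Icc _ _).linear_preimage Complex.imCLM.toLinearMap)
  exact this.isPreconnected

theorem grid_finite {η : ℝ} (hη : 0 < η) {K : Set ℂ} (hK : Bornology.IsBounded K) :
    (grid η K).Finite := by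
  obtain ⟨R, hR⟩ := hK.subset_closedBall 0
  have hsub : grid η K ⊆ Icc (-⌈R / η⌉ : ℤ) ⌈R / η⌉ ×ˢ Icc (-⌈R / η⌉ : ℤ) ⌈R / η⌉ := by
    intro Q hQ
    have h1 := hR (hQ (corner00 hη Q))
    rw [mem_closedBall_zero_iff] at h1
    have h2 := (Complex.abs_re_le_norm _).trans h1
    have h3 := (Complex.abs_im_le_norm _).trans h1
    simp only [gp] at h2 h3
    rw [abs_le] at h2 h3
    have c := Int.le_ceil (R / η)
    have key : ∀ n : ℤ, -R ≤ n * η → n * η ≤ R → n ∈ Icc (-⌈R / η⌉ : ℤ) ⌈R / η⌉ := by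
      intro n ha hb
      rw [mem_Icc]
      constructor
      · have : -(R / η) ≤ n := by rw [← neg_div, div_le_iff₀ hη]; exact ha
        have h5 : (-⌈R / η⌉ : ℝ) ≤ n := by linarith
        exact_mod_cast h5
      · have : (n : ℝ) ≤ R / η := by rw [le_div_iff₀ hη]; exact hb
        have h5 : (n : ℝ) ≤ ⌈R / η⌉ := by linarith only [c, this]
        exact_mod_cast h5
    exact ⟨key _ h2.1 h2.2, key _ h3.1 h3.2⟩
  exact ((finite_Icc _ _).prod (finite_Icc _ _)).subset hsub

/-- Shifting a finite sum. -/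
theorem sum_shift (J : Finset (ℤ × ℤ)) (f : ℤ × ℤ → ℤ) (σ : ℤ × ℤ ≃ ℤ × ℤ)
    (h1 : ∀ Q ∈ J, σ.symm Q ∉ J → f Q = 0) (h2 : ∀ Q ∈ J, σ Q ∉ J → f (σ Q) = 0) :
    ∑ Q ∈ J, f Q = ∑ Q ∈ J, f (σ Q) := by
  classical
  have e2 : ∑ Q ∈ J, f (σ Q) = ∑ Q ∈ J.map σ.toEmbedding, f Q := by
    rw [Finset.sum_map]; rfl
  rw [e2]
  have e3 : ∑ Q ∈ J ∩ J.map σ.toEmbedding, f Q = ∑ Q ∈ J, f Q := by
    refine Finset.sum_subset Finset.inter_subset_left ?_
    intro Q hQ hn
    refine h1 Q hQ fun hs => hn ?_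
    rw [Finset.mem_inter]
    exact ⟨hQ, by rw [Finset.mem_map]; exact ⟨_, hs, by simp⟩⟩
  have e4 : ∑ Q ∈ J ∩ J.map σ.toEmbedding, f Q = ∑ Q ∈ J.map σ.toEmbedding, f Q := by
    refine Finset.sum_subset Finset.inter_subset_right ?_
    intro Q hQ hn
    rw [Finset.mem_map] at hQ
    obtain ⟨P, hP, rfl⟩ := hQ
    refine h2 P hP fun hs => hn ?_
    rw [Finset.mem_inter]
    exact ⟨hs, by rw [Finset.mem_map]; exact ⟨_, hP, rfl⟩⟩
  rw [← e3, e4]

/-- Shift in the first coordinate. -/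
def sh1 : ℤ × ℤ ≃ ℤ × ℤ := (Equiv.addRight 1).prodCongr (Equiv.refl ℤ)

/-- Shift in the second coordinate. -/
def sh2 : ℤ × ℤ ≃ ℤ × ℤ := (Equiv.refl ℤ).prodCongr (Equiv.addRight 1)

/-- Discrete Stokes theorem, vanishing form. -/
theorem stokes (J : Finset (ℤ × ℤ)) (ω : ℂ → ℂ → ℤ) (hω : ∀ p q, ω p q = -ω q p) (η : ℝ)
    (hb : ∀ P ∈ J, ∀ Q ∉ J, (Q = sh1 P ∨ Q = sh1.symm P ∨ Q = sh2 P ∨ Q = sh2.symm P) →
      ∀ p q, (p = gp η Q.1 Q.2 ∨ p = gp η (Q.1 + 1) Q.2 ∨ p = gp η (Q.1 + 1) (Q.2 + 1) ∨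
        p = gp η Q.1 (Q.2 + 1)) → (q = gp η Q.1 Q.2 ∨ q = gp η (Q.1 + 1) Q.2 ∨
        q = gp η (Q.1 + 1) (Q.2 + 1) ∨ q = gp η Q.1 (Q.2 + 1)) → ω p q = 0) :
    ∑ Q ∈ J, TT ω η Q = 0 := by
  classical
  have hT : ∀ Q : ℤ × ℤ, TT ω η Q = (ω (gp η Q.1 Q.2) (gp η (Q.1 + 1) Q.2) -
      ω (gp η (sh2 Q).1 (sh2 Q).2) (gp η ((sh2 Q).1 + 1) (sh2 Q).2)) +
      (ω (gp η (sh1 Q).1 (sh1 Q).2) (gp η (sh1 Q).1 ((sh1 Q).2 + 1)) -
        ω (gp η Q.1 Q.2) (gp η Q.1 (Q.2 + 1))) := by
    intro Q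
    have a : sh2 Q = (Q.1, Q.2 + 1) := rfl
    have b : sh1 Q = (Q.1 + 1, Q.2) := rfl
    rw [a, b]
    simp only [TT]
    rw [hω (gp η (Q.1 + 1) (Q.2 + 1)) (gp η Q.1 (Q.2 + 1)), hω (gp η Q.1 (Q.2 + 1)) (gp η Q.1 Q.2)]
    ring
  rw [Finset.sum_congr rfl fun Q _ => hT Q, Finset.sum_add_distrib, Finset.sum_sub_distrib,
    Finset.sum_sub_distrib]
  have s2 : ∑ Q ∈ J, ω (gp η Q.1 Q.2) (gp η (Q.1 + 1) Q.2) =
      ∑ Q ∈ J, ω (gp η (sh2 Q).1 (sh2 Q).2) (gp η ((sh2 Q).1 + 1) (sh2 Q).2) := by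
    refine sum_shift J (fun Q => ω (gp η Q.1 Q.2) (gp η (Q.1 + 1) Q.2)) sh2 ?_ ?_
    · intro Q hQ hn
      refine hb Q hQ _ hn (Or.inr (Or.inr (Or.inr rfl))) _ _ ?_ ?_
      · right; right; right
        have : (sh2.symm Q) = (Q.1, Q.2 - 1) := rfl
        rw [this]; simp
      · right; right; left
        have : (sh2.symm Q) = (Q.1, Q.2 - 1) := rfl
        rw [this]; simp
    · intro Q hQ hn
      exact hb Q hQ _ hn (Or.inr (Or.inr (Or.inl rfl))) _ _ (Or.inl rfl) (Or.inr (Or.inl rfl))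
  have s1 : ∑ Q ∈ J, ω (gp η Q.1 Q.2) (gp η Q.1 (Q.2 + 1)) =
      ∑ Q ∈ J, ω (gp η (sh1 Q).1 (sh1 Q).2) (gp η (sh1 Q).1 ((sh1 Q).2 + 1)) := by
    refine sum_shift J (fun Q => ω (gp η Q.1 Q.2) (gp η Q.1 (Q.2 + 1))) sh1 ?_ ?_
    · intro Q hQ hn
      refine hb Q hQ _ hn (Or.inr (Or.inl rfl)) _ _ ?_ ?_
      · right; left
        have : (sh1.symm Q) = (Q.1 - 1, Q.2) := rfl
        rw [this]; simp
      · right; right; left
        have : (sh1.symm Q) = (Q.1 - 1, Q.2) := rfl
        rw [this]; simp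
    · intro Q hQ hn
      exact hb Q hQ _ hn (Or.inl rfl) _ _ (Or.inl rfl) (Or.inr (Or.inr (Or.inr rfl)))
  rw [s2, s1]
  ring

end Vale.Agent.P032.B
end
end

section

section

/-! Boundary-vanishing lemma and flat squares. -/

namespace Vale.Agent.P032.B

open Set Topology

theorem Tot_eq_sum {η : ℝ} (hη : 0 < η) {K : Set ℂ} (hK : Bornology.IsBounded K)
    (ω : ℂ → ℂ → ℤ) : Tot ω η K = ∑ Q ∈ (grid_finite hη hK).toFinset, TT ω η Q := by
  unfold Tot
  rw [finsum_mem_eq_finite_toFinset_sum]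

theorem Tot_sub {η : ℝ} (hη : 0 < η) {K : Set ℂ} (hK : Bornology.IsBounded K)
    (ω ω' : ℂ → ℂ → ℤ) : Tot (fun p q => ω p q - ω' p q) η K = Tot ω η K - Tot ω' η K := by
  rw [Tot_eq_sum hη hK, Tot_eq_sum hη hK, Tot_eq_sum hη hK, ← Finset.sum_sub_distrib]
  refine Finset.sum_congr rfl fun Q _ => ?_
  simp only [TT]; ring

theorem Tot_add {η : ℝ} (hη : 0 < η) {K : Set ℂ} (hK : Bornology.IsBounded K)
    (ω ω' : ℂ → ℂ → ℤ) : Tot (fun p q => ω p q + ω' p q) η K = Tot ω η K + Tot ω' η K := by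
  rw [Tot_eq_sum hη hK, Tot_eq_sum hη hK, Tot_eq_sum hη hK, ← Finset.sum_add_distrib]
  refine Finset.sum_congr rfl fun Q _ => ?_
  simp only [TT]; ring

/-- A square on which `ω` is a coboundary. -/
theorem TT_flat {ω : ℂ → ℂ → ℤ} {η : ℝ} {Q : ℤ × ℤ} (hη : 0 < η) (g : ℂ → ℤ)
    (h : ∀ p ∈ sq η Q, ∀ q ∈ sq η Q, ω p q = g q - g p) : TT ω η Q = 0 := by
  simp only [TT]
  rw [h _ (corner00 hη Q) _ (corner10 hη Q), h _ (corner10 hη Q) _ (corner11 hη Q),
    h _ (corner11 hη Q) _ (corner01 hη Q), h _ (corner01 hη Q) _ (corner00 hη Q)]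
  ring

theorem Tot_exact {η : ℝ} (hη : 0 < η) {K : Set ℂ} (hK : Bornology.IsBounded K) (g : ℂ → ℤ) :
    Tot (fun p q => g q - g p) η K = 0 := by
  rw [Tot_eq_sum hη hK]
  exact Finset.sum_eq_zero fun Q _ => TT_flat hη g fun p _ q _ => rfl

/-- Neighbouring squares share a point. -/
theorem nbr_inter {η : ℝ} (hη : 0 < η) {P Q : ℤ × ℤ}
    (h : Q = sh1 P ∨ Q = sh1.symm P ∨ Q = sh2 P ∨ Q = sh2.symm P) : (sq η P ∩ sq η Q).Nonempty := by
  rcases h with rfl | rfl | rfl | rfl
  · have e : sh1 P = (P.1 + 1, P.2) := rfl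
    refine ⟨gp η (P.1 + 1) P.2, corner10 hη P, ?_⟩
    rw [e]; exact corner00 hη (P.1 + 1, P.2)
  · have e : sh1.symm P = (P.1 - 1, P.2) := rfl
    refine ⟨gp η P.1 P.2, corner00 hη P, ?_⟩
    have := corner10 hη (P.1 - 1, P.2)
    rw [e]; simpa using this
  · have e : sh2 P = (P.1, P.2 + 1) := rfl
    refine ⟨gp η P.1 (P.2 + 1), corner01 hη P, ?_⟩
    rw [e]; exact corner00 hη (P.1, P.2 + 1)
  · have e : sh2.symm P = (P.1, P.2 - 1) := rfl
    refine ⟨gp η P.1 P.2, corner00 hη P, ?_⟩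
    have := corner01 hη (P.1, P.2 - 1)
    rw [e]; simpa using this

theorem preconnected_frontier {S K : Set ℂ} (hS : IsPreconnected S) (h1 : (S ∩ K).Nonempty)
    (h2 : (S ∩ Kᶜ).Nonempty) (hK : IsClosed K) : (S ∩ frontier K).Nonempty := by
  by_contra hne
  rw [Set.not_nonempty_iff_eq_empty] at hne
  have hsub : S ⊆ interior K ∪ Kᶜ := by
    intro z hz
    by_cases hzK : z ∈ K
    · left
      by_contra hzi
      have : z ∈ S ∩ frontier K := ⟨hz, by rw [hK.frontier_eq]; exact ⟨hzK, hzi⟩⟩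
      rw [hne] at this
      exact this
    · exact Or.inr hzK
  obtain ⟨z, hz, hz1, hz2⟩ := hS (interior K) Kᶜ isOpen_interior hK.isOpen_compl hsub
    (by
      obtain ⟨z, hz, hzK⟩ := h1
      exact ⟨z, hz, (hsub hz).resolve_right (not_not.2 hzK)⟩) h2
  exact hz2 (interior_subset hz1)

/-- Boundary-vanishing lemma. -/
theorem Tot_bv {K : Set ℂ} (hK : IsCompact K) {ω : ℂ → ℂ → ℤ} (hω : ∀ p q, ω p q = -ω q p)
    (hfr : ∀ z ∈ frontier K, ∃ r > 0, ∀ p ∈ Metric.ball z r, ∀ q ∈ Metric.ball z r, ω p q = 0) :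
    ∀ᶠ η in 𝓝[>] (0 : ℝ), Tot ω η K = 0 := by
  choose! r hr0 hr using hfr
  have hfc : IsCompact (frontier K) := hK.of_isClosed_subset isClosed_frontier
    (hK.isClosed.frontier_subset)
  obtain ⟨δ, hδ, hleb⟩ := lebesgue_number_lemma_of_metric (c := fun z : frontier K =>
    Metric.ball (z : ℂ) (r z)) hfc (fun _ => Metric.isOpen_ball)
    (fun z hz => mem_iUnion.2 ⟨⟨z, hz⟩, Metric.mem_ball_self (hr0 z hz)⟩)
  filter_upwards [Ioo_mem_nhdsGT (show (0 : ℝ) < δ / 4 by positivity)] with η hη'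
  obtain ⟨hη, hηδ⟩ := hη'
  rw [Tot_eq_sum hη hK.isBounded]
  refine stokes _ ω hω η ?_
  intro P hP Q hQ hPQ p q hp hq
  rw [Set.Finite.mem_toFinset] at hP hQ
  have h1 : (sq η Q ∩ K).Nonempty := by
    obtain ⟨z, hz1, hz2⟩ := nbr_inter hη hPQ
    exact ⟨z, hz2, hP hz1⟩
  have h2 : (sq η Q ∩ Kᶜ).Nonempty := by
    obtain ⟨z, hz1, hz2⟩ := not_subset.1 hQ
    exact ⟨z, hz1, hz2⟩
  obtain ⟨z, hzQ, hzf⟩ := preconnected_frontier (sq_preconnected η Q) h1 h2 hK.isClosed
  obtain ⟨y, hy⟩ := hleb z hzf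
  have hmem : ∀ p, (p = gp η Q.1 Q.2 ∨ p = gp η (Q.1 + 1) Q.2 ∨ p = gp η (Q.1 + 1) (Q.2 + 1) ∨
        p = gp η Q.1 (Q.2 + 1)) → p ∈ Metric.ball (y : ℂ) (r y) := by
    intro p hp
    have : p ∈ sq η Q := by
      rcases hp with rfl | rfl | rfl | rfl
      · exact corner00 hη Q
      · exact corner10 hη Q
      · exact corner11 hη Q
      · exact corner01 hη Q
    refine hy ?_
    rw [Metric.mem_ball]
    linarith only [hη, hηδ, sq_dist this hzQ]
  exact hr y y.2 p (hmem p hp) q (hmem q hq)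

/-- `ω` is a coboundary near `z`. -/
def Flat (ω : ℂ → ℂ → ℤ) (z : ℂ) : Prop :=
  ∃ r > 0, ∃ g : ℂ → ℤ, ∀ p ∈ Metric.ball z r, ∀ q ∈ Metric.ball z r, ω p q = g q - g p

end Vale.Agent.P032.B
end
end

section

section

/-! Partition of compact totally disconnected sets and the local-to-global lemma. -/

namespace Vale.Agent.P032.B

open Set Topology

theorem exists_lab {T : Set ℂ} (hT : IsCompact T) (hd : IsTotallyDisconnected T) {ε : ℝ}
    (hε : 0 < ε) : ∃ lab : T → ℂ, (∀ x : T, ∀ᶠ y in 𝓝 x, lab y = lab x) ∧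
      ∀ x : T, dist (x : ℂ) (lab x) < ε := by
  classical
  have : CompactSpace T := isCompact_iff_compactSpace.1 hT
  have : TotallyDisconnectedSpace T := totallyDisconnectedSpace_subtype_iff.2 hd
  obtain ⟨lab, h1, W, hW, hWs, hall⟩ := (isCompact_univ (X := T)).induction_on
    (p := fun Z => ∃ lab : T → ℂ, (∀ x : T, ∀ᶠ y in 𝓝 x, lab y = lab x) ∧
      ∃ W : Set T, IsClopen W ∧ Z ⊆ W ∧ ∀ x ∈ W, dist (x : ℂ) (lab x) < ε)
    ⟨fun _ => 0, fun _ => Filter.Eventually.of_forall fun _ => rfl, ∅, isClopen_empty,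
      Subset.rfl, by simp⟩
    (by
      rintro s t hst ⟨lab, hl, W, hW, hWs, hall⟩
      exact ⟨lab, hl, W, hW, hst.trans hWs, hall⟩)
    (by
      rintro s t ⟨lab, hl, W, hW, hWs, hall⟩ ⟨lab', hl', W', hW', hWs', hall'⟩
      refine ⟨fun x => if x ∈ W then lab x else lab' x, ?_, W ∪ W',
        hW.union hW', union_subset_union hWs hWs', ?_⟩
      · intro x
        by_cases hx : x ∈ W
        · filter_upwards [hl x, hW.isOpen.mem_nhds hx] with y hy hyW
          rw [if_pos hyW, if_pos hx, hy]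
        · filter_upwards [hl' x, hW.compl.isOpen.mem_nhds hx] with y hy hyW
          rw [if_neg hyW, if_neg hx, hy]
      · intro x hx
        by_cases hxW : x ∈ W
        · show dist (x : ℂ) (if x ∈ W then lab x else lab' x) < ε
          rw [if_pos hxW]; exact hall x hxW
        · show dist (x : ℂ) (if x ∈ W then lab x else lab' x) < ε
          rw [if_neg hxW]; exact hall' x (hx.resolve_left hxW))
    (by
      intro x _
      obtain ⟨V, hV, hxV, hVs⟩ := compact_exists_isClopen_in_isOpen (x := x)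
        (U := Subtype.val ⁻¹' Metric.ball (x : ℂ) ε)
        (Metric.isOpen_ball.preimage continuous_subtype_val) (Metric.mem_ball_self hε)
      exact ⟨V, mem_nhdsWithin_of_mem_nhds (hV.isOpen.mem_nhds hxV), fun _ => x,
        fun y => Filter.Eventually.of_forall fun _ => rfl, V, hV, Subset.rfl, fun y hy => hVs hy⟩)
  exact ⟨lab, h1, fun x => hall x (hWs (mem_univ _))⟩

/-- Local-to-global lemma. -/
theorem Tot_lg {K Tr : Set ℂ} (hK : IsCompact K) (hTr : IsClosed Tr)
    (hTd : IsTotallyDisconnected (Tr ∩ K)) {ω : ℂ → ℂ → ℤ}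
    (hflat : ∀ z ∈ K, z ∉ Tr → Flat ω z)
    (hgood : ∀ z ∈ K, z ∈ Tr → Flat ω z ∨ ∃ r > 0, Metric.ball z r ⊆ K ∧
      ∀ K', IsCompact K' → K' ⊆ Metric.ball z r → (∀ u ∈ frontier K', u ∉ Tr) →
        ∀ᶠ η in 𝓝[>] (0 : ℝ), Tot ω η K' = 0) :
    ∀ᶠ η in 𝓝[>] (0 : ℝ), Tot ω η K = 0 := by
  classical
  set T := Tr ∩ K with hTdef
  have hT : IsCompact T := hK.inter_left hTr
  have : CompactSpace T := isCompact_iff_compactSpace.1 hT
  -- a uniform radius
  have hloc : ∀ z ∈ T, ∃ r > 0, (∃ g : ℂ → ℤ, ∀ p ∈ Metric.ball z r, ∀ q ∈ Metric.ball z r,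
      ω p q = g q - g p) ∨ (Metric.ball z r ⊆ K ∧
      ∀ K', IsCompact K' → K' ⊆ Metric.ball z r → (∀ u ∈ frontier K', u ∉ Tr) →
        ∀ᶠ η in 𝓝[>] (0 : ℝ), Tot ω η K' = 0) := by
    intro z hz
    rcases hgood z hz.2 hz.1 with ⟨r, hr, g, hg⟩ | ⟨r, hr, h⟩
    · exact ⟨r, hr, Or.inl ⟨g, hg⟩⟩
    · exact ⟨r, hr, Or.inr h⟩
  choose! r hr0 hr using hloc
  obtain ⟨ρ, hρ, hleb⟩ := lebesgue_number_lemma_of_metric (c := fun z : T =>
    Metric.ball (z : ℂ) (r z)) hT (fun _ => Metric.isOpen_ball)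
    (fun z hz => mem_iUnion.2 ⟨⟨z, hz⟩, Metric.mem_ball_self (hr0 z hz)⟩)
  have hρAB : ∀ x ∈ T, (∃ g : ℂ → ℤ, ∀ p ∈ Metric.ball x ρ, ∀ q ∈ Metric.ball x ρ,
      ω p q = g q - g p) ∨ (Metric.ball x ρ ⊆ K ∧
      ∀ K', IsCompact K' → K' ⊆ Metric.ball x ρ → (∀ u ∈ frontier K', u ∉ Tr) →
        ∀ᶠ η in 𝓝[>] (0 : ℝ), Tot ω η K' = 0) := by
    intro x hx
    obtain ⟨z, hz⟩ := hleb x hx
    rcases hr z z.2 with ⟨g, hg⟩ | ⟨h1, h2⟩
    · exact Or.inl ⟨g, fun p hp q hq => hg p (hz hp) q (hz hq)⟩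
    · exact Or.inr ⟨hz.trans h1, fun K' hK' hs hf => h2 K' hK' (hs.trans hz) hf⟩
  obtain ⟨lab, hlab, hlabd⟩ := exists_lab hT hTd (ε := ρ / 4) (by positivity)
  have hLC : IsLocallyConstant lab := (IsLocallyConstant.iff_eventually_eq _).2 hlab
  have hfin : (range lab).Finite := hLC.range_finite
  -- uniform separation of the fibres
  obtain ⟨η1, hη1, hsep⟩ : ∃ η1 > 0, ∀ x y : T, dist x y < η1 → lab x = lab y := by
    obtain ⟨δ, hδ, h⟩ := lebesgue_number_lemma_of_metric (c := fun c : T =>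
      {y : T | lab y = lab c}) (isCompact_univ (X := T)) (fun c => hLC.isOpen_fiber (lab c))
      (fun z _ => mem_iUnion.2 ⟨z, rfl⟩)
    refine ⟨δ, hδ, fun x y hxy => ?_⟩
    obtain ⟨c, hc⟩ := h x (mem_univ _)
    have h1 : lab x = lab c := hc (Metric.mem_ball_self hδ)
    have h2 : lab y = lab c := hc (by rw [Metric.mem_ball, dist_comm]; exact hxy)
    rw [h1, h2]
  set P : ℂ → Set ℂ := fun c => Subtype.val '' (lab ⁻¹' {c}) with hP
  have hPc : ∀ c, IsCompact (P c) := fun c =>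
    ((hLC.isClosed_fiber c).isCompact).image continuous_subtype_val
  set δ := min η1 ρ / 8 with hδdef
  have hm : 0 < min η1 ρ := lt_min hη1 hρ
  have hδ : 0 < δ := by (clear * - hη1 hρ; positivity)
  have hδη : 8 * δ ≤ η1 := by rw [hδdef]; linarith only [min_le_left η1 ρ]
  have hδρ : 8 * δ ≤ ρ := by rw [hδdef]; linarith only [min_le_right η1 ρ]
  set KK : ℂ → Set ℂ := fun c => Metric.cthickening δ (P c) with hKK
  have hKKc : ∀ c, IsCompact (KK c) := fun c => (hPc c).cthickening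
  have hKKmem : ∀ c z, z ∈ KK c → ∃ y ∈ P c, dist z y ≤ δ := by
    intro c z hz
    rw [hKK] at hz
    simp only at hz
    rw [(hPc c).cthickening_eq_biUnion_closedBall hδ.le] at hz
    obtain ⟨y, hy, hzy⟩ := mem_iUnion₂.1 hz
    exact ⟨y, hy, hzy⟩
  have hfib : ∀ c, ∀ x ∈ P c, ∀ y ∈ P c, dist x y < ρ / 2 := by
    rintro c _ ⟨x, hx, rfl⟩ _ ⟨y, hy, rfl⟩
    have h1 := hlabd x
    have h2 := hlabd y
    rw [mem_preimage, mem_singleton_iff] at hx hy
    rw [hx] at h1
    rw [hy] at h2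
    have := dist_triangle_right (x : ℂ) y c
    linarith only [h1, h2, this]
  have hsub : ∀ c, ∀ x ∈ P c, KK c ⊆ Metric.ball x ρ := by
    intro c x hx z hz
    obtain ⟨y, hy, hzy⟩ := hKKmem c z hz
    rw [Metric.mem_ball]
    have := hfib c y hy x hx
    have := dist_triangle z y x
    (clear ω hflat hgood hTd hTdef r hr0 hr hleb hρAB hlab hLC hfin hsep hP hPc hm hδη KK hKK hKKc hKKmem hz; linarith)
  have hdisj : ∀ c c' z, z ∈ KK c → z ∈ KK c' → c = c' := by
    intro c c' z hz hz'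
    obtain ⟨y, ⟨y0, hy0, rfl⟩, hzy⟩ := hKKmem c z hz
    obtain ⟨y', ⟨y0', hy0', rfl⟩, hzy'⟩ := hKKmem c' z hz'
    have : dist y0 y0' < η1 := by
      have := dist_triangle_left (y0 : ℂ) y0' z
      rw [Subtype.dist_eq]
      linarith only [hδ, hδη, hzy, hzy', this]
    have h3 := hsep _ _ this
    rw [mem_preimage, mem_singleton_iff] at hy0 hy0'
    rw [← hy0, ← hy0', h3]
  -- good clusters
  set B : Set ℂ := {c | (P c).Nonempty ∧ ∀ x ∈ P c, Metric.ball x ρ ⊆ K ∧
      ∀ K', IsCompact K' → K' ⊆ Metric.ball x ρ → (∀ u ∈ frontier K', u ∉ Tr) →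
        ∀ᶠ η in 𝓝[>] (0 : ℝ), Tot ω η K' = 0} with hB
  have hBfin : B.Finite := by
    refine hfin.subset ?_
    rintro c ⟨⟨x, x0, hx0, -⟩, -⟩
    exact ⟨x0, hx0⟩
  have hA : ∀ c ∉ B, ∀ x0 ∈ P c, ∃ x ∈ P c, ∃ g : ℂ → ℤ, ∀ p ∈ Metric.ball x ρ,
      ∀ q ∈ Metric.ball x ρ, ω p q = g q - g p := by
    intro c hc x0 hx0
    by_contra hcon
    push Not at hcon
    refine hc ⟨⟨x0, hx0⟩, fun x hx => ?_⟩
    have hxT : x ∈ T := by
      obtain ⟨x', -, rfl⟩ := hx
      exact x'.2
    rcases hρAB x hxT with ⟨g, hg⟩ | h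
    · obtain ⟨p, hp, q, hq, hne⟩ := hcon x hx g
      exact absurd (hg p hp q hq) hne
    · exact h
  have hBTot : ∀ᶠ η in 𝓝[>] (0 : ℝ), ∀ c ∈ B, Tot ω η (KK c) = 0 := by
    rw [Filter.eventually_all_finite hBfin]
    rintro c ⟨⟨x, hx⟩, hall⟩
    obtain ⟨h1, h2⟩ := hall x hx
    refine h2 (KK c) (hKKc c) (hsub c x hx) ?_
    intro u hu huTr
    have huK : u ∈ KK c := (hKKc c).isClosed.frontier_subset hu
    have huT : u ∈ T := ⟨huTr, h1 (hsub c x hx huK)⟩
    obtain ⟨y, ⟨y0, hy0, rfl⟩, hzy⟩ := hKKmem c u huK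
    have h3 : lab ⟨u, huT⟩ = lab y0 := hsep _ _ (by
      rw [Subtype.dist_eq]; show dist u y0 < η1; linarith only [hδ, hδη, hzy])
    have h4 : u ∈ P c := ⟨⟨u, huT⟩, by rw [mem_preimage, h3]; exact hy0, rfl⟩
    have h5 : u ∈ interior (KK c) := by
      refine interior_maximal (Metric.thickening_subset_cthickening δ (P c))
        Metric.isOpen_thickening ?_
      exact Metric.self_subset_thickening hδ _ h4
    exact hu.2 h5
  -- the rest
  set V := K \ Metric.thickening (δ / 2) T with hV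
  have hVc : IsCompact V := hK.diff Metric.isOpen_thickening
  have hVflat : ∀ z ∈ V, Flat ω z := by
    intro z hz
    refine hflat z hz.1 fun hzT => hz.2 ?_
    exact Metric.self_subset_thickening (by (clear * - hη1 hρ; positivity)) _ ⟨hzT, hz.1⟩
  choose! rv hrv0 hrv using hVflat
  obtain ⟨lam, hlam, hlebV⟩ := lebesgue_number_lemma_of_metric (c := fun z : V =>
    Metric.ball (z : ℂ) (rv z)) hVc (fun _ => Metric.isOpen_ball)
    (fun z hz => mem_iUnion.2 ⟨⟨z, hz⟩, Metric.mem_ball_self (hrv0 z hz)⟩)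
  filter_upwards [hBTot, Ioo_mem_nhdsGT (show (0 : ℝ) < min (lam / 4) (δ / 8) by (clear * - hlam hη1 hρ; positivity))]
    with η hηB hη'
  obtain ⟨hη, hη2⟩ := hη'
  have hη3 : η < lam / 4 := hη2.trans_le (min_le_left _ _)
  have hη4 : η < δ / 8 := hη2.trans_le (min_le_right _ _)
  have hzero : ∀ Q ∈ grid η K, (∀ c ∈ B, Q ∉ grid η (KK c)) → TT ω η Q = 0 := by
    intro Q hQ hQB
    by_cases hc : ∃ c, (P c).Nonempty ∧ sq η Q ⊆ KK c
    · obtain ⟨c, ⟨x0, hx0⟩, hcQ⟩ := hc
      have hcB : c ∉ B := fun hcB => hQB c hcB hcQ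
      obtain ⟨x, hx, g, hg⟩ := hA c hcB x0 hx0
      exact TT_flat hη g fun p hp q hq => hg p (hsub c x hx (hcQ hp)) q (hsub c x hx (hcQ hq))
    · push Not at hc
      have hQV : sq η Q ⊆ V := by
        intro z hz
        refine ⟨hQ hz, fun hzT => ?_⟩
        rw [Metric.mem_thickening_iff] at hzT
        obtain ⟨t, htT, hzt⟩ := hzT
        refine hc (lab ⟨t, htT⟩) ⟨t, ⟨t, htT⟩, rfl, rfl⟩ ?_
        intro u hu
        refine Metric.mem_cthickening_of_dist_le u t _ _ ⟨⟨t, htT⟩, rfl, rfl⟩ ?_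
        have := sq_dist hu hz
        have := dist_triangle u z t
        (clear ω hflat hgood hTd hTdef r hr0 hr hρ hleb hρAB lab hlab hlabd hLC hfin hη1 hsep P hP hPc hδdef hm hδ hδη hδρ KK hKK hKKc hKKmem hfib hsub hdisj B hB hBfin hA hBTot V hV hVc rv hrv0 hrv hlam hlebV hηB hη3 hQ hQB hc htT; linarith)
      obtain ⟨y, hy⟩ := hlebV _ (hQV (corner00 hη Q))
      obtain ⟨g, hg⟩ := hrv y y.2
      have hball : sq η Q ⊆ Metric.ball (y : ℂ) (rv y) := by
        intro p hp
        refine hy ?_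
        rw [Metric.mem_ball]
        have := sq_dist hp (corner00 hη Q)
        linarith only [hη, hη3, this]
      exact TT_flat hη g fun p hp q hq => hg p (hball hp) q (hball hq)
  rw [Tot_eq_sum hη hK.isBounded]
  set J' : Finset (ℤ × ℤ) := hBfin.toFinset.biUnion fun c =>
    (grid_finite hη (hKKc c).isBounded).toFinset with hJ'
  have hsubJ : J' ⊆ (grid_finite hη hK.isBounded).toFinset := by
    intro Q hQ
    rw [hJ', Finset.mem_biUnion] at hQ
    obtain ⟨c, hc, hQc⟩ := hQ
    rw [Set.Finite.mem_toFinset] at hc hQc ⊢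
    obtain ⟨⟨x, hx⟩, hall⟩ := hc
    exact hQc.trans ((hsub c x hx).trans (hall x hx).1)
  rw [← Finset.sum_subset hsubJ]
  · rw [hJ', Finset.sum_biUnion]
    · refine Finset.sum_eq_zero fun c hc => ?_
      rw [← Tot_eq_sum hη (hKKc c).isBounded]
      exact hηB c ((Set.Finite.mem_toFinset _).1 hc)
    · intro c _ c' _ hne
      rw [Function.onFun, Finset.disjoint_left]
      intro Q hQ hQ'
      rw [Set.Finite.mem_toFinset] at hQ hQ'
      exact hne (hdisj c c' _ (hQ (corner00 hη Q)) (hQ' (corner00 hη Q)))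
  · intro Q hQ hn
    rw [Set.Finite.mem_toFinset] at hQ
    refine hzero Q hQ fun c hc hcQ => hn ?_
    rw [hJ', Finset.mem_biUnion]
    exact ⟨c, (Set.Finite.mem_toFinset _).2 hc, (Set.Finite.mem_toFinset _).2 hcQ⟩

end Vale.Agent.P032.B
end
end

section

section

/-! Inessential points. -/

namespace Vale.Agent.P032.B

open Set Topology

variable {F : Fin 5 → Set ℂ}

theorem td_union {A B : Set ℂ} (hA : IsClosed A) (hB : IsCompact B)
    (hAd : IsTotallyDisconnected A) (hBd : IsTotallyDisconnected B) :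
    IsTotallyDisconnected (A ∪ B) := by
  intro t ht htp
  by_cases htA : t ⊆ A
  · exact hAd t htA htp
  obtain ⟨x, hxt, hxA⟩ := not_subset.1 htA
  have hxB : x ∈ B := (ht hxt).resolve_left hxA
  have : CompactSpace B := isCompact_iff_compactSpace.1 hB
  have : TotallyDisconnectedSpace B := totallyDisconnectedSpace_subtype_iff.2 hBd
  obtain ⟨V, hV, hxV, hVs⟩ := compact_exists_isClopen_in_isOpen (x := (⟨x, hxB⟩ : B))
    (U := Subtype.val ⁻¹' Aᶜ) (hA.isOpen_compl.preimage continuous_subtype_val) hxA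
  obtain ⟨O, hO, hOV⟩ := isOpen_induced_iff.1 hV.isOpen
  have hV' : IsClosed (Subtype.val '' V : Set ℂ) :=
    (hV.isClosed.isCompact.image continuous_subtype_val).isClosed
  have hmem : ∀ z, z ∉ A → z ∈ B → z ∈ O → z ∈ (Subtype.val '' V : Set ℂ) := by
    intro z _ hzB hzO
    refine ⟨⟨z, hzB⟩, ?_, rfl⟩
    rw [← hOV]; exact hzO
  have hmem' : ∀ z ∈ (Subtype.val '' V : Set ℂ), z ∈ B ∧ z ∉ A ∧ z ∈ O := by
    rintro _ ⟨z, hz, rfl⟩
    refine ⟨z.2, hVs hz, ?_⟩
    rw [← hOV] at hz; exact hz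
  have hsub : t ⊆ (Subtype.val '' V : Set ℂ) := by
    by_contra hcon
    obtain ⟨y, hyt, hyV⟩ := not_subset.1 hcon
    obtain ⟨z, hzt, ⟨hzA, hzO⟩, hzV⟩ := htp (Aᶜ ∩ O) (Subtype.val '' V : Set ℂ)ᶜ
      (hA.isOpen_compl.inter hO) hV'.isOpen_compl (by
        intro z hz
        by_cases hzV : z ∈ (Subtype.val '' V : Set ℂ)
        · exact Or.inl ⟨(hmem' z hzV).2.1, (hmem' z hzV).2.2⟩
        · exact Or.inr hzV)
      ⟨x, hxt, hxA, by
        have : x ∈ (Subtype.val '' V : Set ℂ) := ⟨⟨x, hxB⟩, hxV, rfl⟩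
        exact (hmem' x this).2.2⟩ ⟨y, hyt, hyV⟩
    exact hzV (hmem z hzA ((ht hzt).resolve_left hzA) hzO)
  exact hBd t (fun z hz => (hmem' z (hsub hz)).1) htp

theorem td_biUnion {α : Type} (s : Finset α) (A : α → Set ℂ) (hA : ∀ a, IsCompact (A a))
    (hAd : ∀ a, IsTotallyDisconnected (A a)) :
    IsCompact (⋃ a ∈ s, A a) ∧ IsTotallyDisconnected (⋃ a ∈ s, A a) := by
  classical
  induction s using Finset.induction_on with
  | empty => simp only [Finset.notMem_empty, iUnion_of_empty, iUnion_empty, finite_empty, Finite.isCompact, isTotallyDisconnected_empty, and_self]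
  | insert a s ha ih =>
    rw [Finset.set_biUnion_insert]
    exact ⟨(hA a).union ih.1, td_union (hA a).isClosed ih.1 (hAd a) ih.2⟩

/-- The points with at least three colours. -/
def Tr (F : Fin 5 → Set ℂ) : Set ℂ :=
  {z | ∃ i j k, i ≠ j ∧ i ≠ k ∧ j ≠ k ∧ z ∈ F i ∧ z ∈ F j ∧ z ∈ F k}

theorem Tr_eq (F : Fin 5 → Set ℂ) : Tr F = ⋃ τ ∈ ((Finset.univ : Finset (Fin 5 × Fin 5 × Fin 5)).filter
    fun τ => τ.1 ≠ τ.2.1 ∧ τ.1 ≠ τ.2.2 ∧ τ.2.1 ≠ τ.2.2), (F τ.1 ∩ F τ.2.1 ∩ F τ.2.2) := by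
  ext z
  simp only [Tr, mem_ofPred_eq, Finset.mem_filter, Finset.mem_univ, true_and, mem_iUnion,
    mem_inter_iff, exists_prop]
  constructor
  · rintro ⟨i, j, k, hij, hik, hjk, hi, hj, hk⟩
    exact ⟨(i, j, k), ⟨hij, hik, hjk⟩, ⟨hi, hj⟩, hk⟩
  · rintro ⟨⟨i, j, k⟩, ⟨hij, hik, hjk⟩, ⟨hi, hj⟩, hk⟩
    exact ⟨i, j, k, hij, hik, hjk, hi, hj, hk⟩

theorem CC.isClosed_Tr (h : CC F) : IsClosed (Tr F) := by
  rw [Tr_eq]
  refine Set.Finite.isClosed_biUnion (Finset.finite_toSet _) fun τ _ => ?_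
  exact ((h.closed _).inter (h.closed _)).inter (h.closed _)

/-- The statement of Lemma Tri. -/
def TriFree (F : Fin 5 → Set ℂ) : Prop := ∀ i j k : Fin 5, i ≠ j → i ≠ k → j ≠ k → ∀ K : Set ℂ,
  IsPreconnected K → K ⊆ F i → K ⊆ F j → K ⊆ F k → K.Subsingleton

theorem CC.td_Tr (h : CC F) (htri : TriFree F) {K : Set ℂ} (hK : IsCompact K) :
    IsTotallyDisconnected (Tr F ∩ K) := by
  classical
  rw [Tr_eq, iUnion₂_inter]
  have hcpt : ∀ τ : Fin 5 × Fin 5 × Fin 5, IsCompact (if (τ.1 ≠ τ.2.1 ∧ τ.1 ≠ τ.2.2 ∧ τ.2.1 ≠ τ.2.2)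
      then F τ.1 ∩ F τ.2.1 ∩ F τ.2.2 ∩ K else ∅) := by
    intro τ
    split_ifs
    · exact hK.inter_left (((h.closed _).inter (h.closed _)).inter (h.closed _))
    · exact isCompact_empty
  have htd : ∀ τ : Fin 5 × Fin 5 × Fin 5, IsTotallyDisconnected
      (if (τ.1 ≠ τ.2.1 ∧ τ.1 ≠ τ.2.2 ∧ τ.2.1 ≠ τ.2.2)
        then F τ.1 ∩ F τ.2.1 ∩ F τ.2.2 ∩ K else ∅) := by
    intro τ
    split_ifs with hτ
    · intro t ht htp
      exact htri _ _ _ hτ.1 hτ.2.1 hτ.2.2 t htp (fun z hz => (ht hz).1.1.1)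
        (fun z hz => (ht hz).1.1.2) (fun z hz => (ht hz).1.2)
    · exact isTotallyDisconnected_empty
  have hh := (td_biUnion Finset.univ _ hcpt htd).2
  intro t ht htp
  refine hh t (fun z hz => ?_) htp
  obtain ⟨τ, hτ⟩ := mem_iUnion.1 (ht hz)
  obtain ⟨hτ1, hτ2⟩ := mem_iUnion.1 hτ
  refine mem_iUnion₂.2 ⟨τ, Finset.mem_univ _, ?_⟩
  rw [if_pos (Finset.mem_filter.1 hτ1).2]
  exact hτ2

theorem two_of_notTr (h : CC F) {z : ℂ} (hz : z ∉ Tr F) : ∃ i j, z ∈ F i ∧ z ∈ F j ∧
    ∀ k, z ∈ F k → k = i ∨ k = j := by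
  obtain ⟨i, hi⟩ := h.cover z
  by_cases hall : ∀ k, z ∈ F k → k = i
  · exact ⟨i, i, hi, hi, fun k hk => Or.inl (hall k hk)⟩
  · push Not at hall
    obtain ⟨j, hj, hji⟩ := hall
    refine ⟨i, j, hi, hj, fun k hk => ?_⟩
    by_contra hcon
    push Not at hcon
    exact hz ⟨i, j, k, hji.symm, hcon.1.symm, hcon.2.symm, hi, hj, hk⟩

theorem flat_of_two (h : CC F) {z : ℂ} {i j : Fin 5} (hz : ∀ k, z ∈ F k → k = i ∨ k = j)
    {ℓ : ℂ → Fin 5} (hℓ : ∀ p, p ∈ F (ℓ p)) {θ : Fin 5 → Fin 5 → ℤ}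
    (hθ : ∀ i j, θ i j = -θ j i) : Flat (fun p q => θ (ℓ p) (ℓ q)) z := by
  obtain ⟨r, hr, hball⟩ := h.nhd_ball z
  have h0 : ∀ i, θ i i = 0 := fun i => by have := hθ i i; omega
  refine ⟨r, hr, fun p => if ℓ p = i then 0 else θ i j, fun p hp q hq => ?_⟩
  have hp' := hz _ (hball p hp _ (hℓ p))
  have hq' := hz _ (hball q hq _ (hℓ q))
  show θ (ℓ p) (ℓ q) = (if ℓ q = i then 0 else θ i j) - (if ℓ p = i then 0 else θ i j)
  rcases hp' with hp' | hp' <;> rcases hq' with hq' | hq' <;> rw [hp', hq']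
  · simp [h0]
  · by_cases hji : j = i
    · simp [hji, h0]
    · simp [hji]
  · by_cases hji : j = i
    · simp [hji, h0]
    · simp [hji, hθ j i]
  · simp [h0]

/-- Inessential points. -/
def Iness (F : Fin 5 → Set ℂ) (x : ℂ) : Prop :=
  ∃ r > 0, ∀ K, IsCompact K → K ⊆ Metric.ball x r → (∀ u ∈ frontier K, u ∉ Tr F) →
    ∀ ℓ : ℂ → Fin 5, (∀ p, p ∈ F (ℓ p)) → ∀ θ : Fin 5 → Fin 5 → ℤ, (∀ i j, θ i j = -θ j i) →
      ∀ᶠ η in 𝓝[>] (0 : ℝ), Tot (fun p q => θ (ℓ p) (ℓ q)) η K = 0

theorem frontier_unbroken (h : CC F) {x : ℂ} {r : ℝ} (Gr : Fin 5 → Fin 5 → Prop)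
    (hGr : ∀ z ∈ Metric.ball x r, ∀ i j, i ≠ j → z ∈ F i → z ∈ F j →
      (∀ k, z ∈ F k → k = i ∨ k = j) → Gr i j) {K : Set ℂ} (hK : IsCompact K)
    (hKr : K ⊆ Metric.ball x r) (hfr : ∀ u ∈ frontier K, u ∉ Tr F)
    {ℓ : ℂ → Fin 5} (hℓ : ∀ p, p ∈ F (ℓ p)) {θ : Fin 5 → Fin 5 → ℤ} (hθ : ∀ i j, θ i j = -θ j i)
    (hθ0 : ∀ i j, Gr i j → θ i j = 0) :
    ∀ᶠ η in 𝓝[>] (0 : ℝ), Tot (fun p q => θ (ℓ p) (ℓ q)) η K = 0 := by
  refine Tot_bv hK (fun p q => hθ _ _) ?_
  intro z hz
  obtain ⟨i, j, hi, hj, hij⟩ := two_of_notTr h (hfr z hz)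
  obtain ⟨s, hs, hball⟩ := h.nhd_ball z
  have h0 : ∀ i, θ i i = 0 := fun i => by have := hθ i i; omega
  have hzr : z ∈ Metric.ball x r := hKr (hK.isClosed.frontier_subset hz)
  have key : ∀ u v, (u = i ∨ u = j) → (v = i ∨ v = j) → θ u v = 0 := by
    have hc : θ i j = 0 := by
      by_cases hne : i = j
      · rw [hne]; exact h0 j
      · exact hθ0 _ _ (hGr z hzr i j hne hi hj hij)
    have hc' : θ j i = 0 := by rw [hθ, hc]; rfl
    rintro u v (rfl | rfl) (rfl | rfl)
    · exact h0 _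
    · exact hc
    · exact hc'
    · exact h0 _
  exact ⟨s, hs, fun p hp q hq => key _ _ (hij _ (hball p hp _ (hℓ p))) (hij _ (hball q hq _ (hℓ q)))⟩

/-- (I2) a point whose unbroken pairs form an acyclic graph is inessential. -/
theorem iness_of_graph (h : CC F) {x : ℂ} (Gr : Fin 5 → Fin 5 → Prop)
    (hGr : ∀ᶠ z in 𝓝 x, ∀ i j, i ≠ j → z ∈ F i → z ∈ F j →
      (∀ k, z ∈ F k → k = i ∨ k = j) → Gr i j)
    (hac : ∀ θ : Fin 5 → Fin 5 → ℤ, (∀ i j, θ i j = -θ j i) →
      ∃ f : Fin 5 → ℤ, ∀ i j, Gr i j → θ i j = f j - f i) : Iness F x := by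
  obtain ⟨r, hr, hball⟩ := Metric.eventually_nhds_iff_ball.1 hGr
  refine ⟨r, hr, fun K hK hKr hfr ℓ hℓ θ hθ => ?_⟩
  obtain ⟨f, hf⟩ := hac θ hθ
  have key := frontier_unbroken h Gr hball hK hKr hfr hℓ (θ := fun i j => θ i j - (f j - f i))
    (fun i j => by have := hθ i j; omega) (fun i j hij => by
      have := hf i j hij; omega)
  filter_upwards [key, self_mem_nhdsWithin] with η hη1 hη
  have e := Tot_add hη hK.isBounded (fun p q => θ (ℓ p) (ℓ q) - (f (ℓ q) - f (ℓ p)))
    (fun p q => f (ℓ q) - f (ℓ p))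
  simp only [sub_add_cancel] at e
  rw [e, hη1, Tot_exact hη hK.isBounded (fun p => f (ℓ p))]
  rfl

/-- (I1) -/
theorem iness_of_two (h : CC F) {x : ℂ} {i j : Fin 5} (hx : ∀ k, x ∈ F k → k = i ∨ k = j) :
    Iness F x := by
  refine iness_of_graph h (fun u v => (u = i ∨ u = j) ∧ (v = i ∨ v = j)) ?_ ?_
  · filter_upwards [h.nhd x] with z hz u v _ hu hv _
    exact ⟨hx u (hz u hu), hx v (hz v hv)⟩
  · intro θ hθ
    have h0 : ∀ i, θ i i = 0 := fun i => by have := hθ i i; omega
    refine ⟨fun u => if u = i then 0 else θ i j, ?_⟩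
    rintro u v ⟨rfl | rfl, rfl | rfl⟩
    · simp [h0]
    · by_cases hji : v = u
      · simp [hji, h0]
      · simp [hji]
    · by_cases hji : u = v
      · simp [hji, h0]
      · simp [hji, hθ u v]
    · simp [h0]

end Vale.Agent.P032.B
end
end

section

section

/-! Ends of thin rectangles. -/

namespace Vale.Agent.P032.B

open Set Topology

variable {F : Fin 5 → Set ℂ}

theorem dist_param {x y : ℂ} (hx : dist x y = 1) (s : ℝ) :
    dist (y + (x - y) * cis s) x = ‖cis s - 1‖ := by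
  rw [dist_eq_norm]
  have : y + (x - y) * cis s - x = (x - y) * (cis s - 1) := by ring
  rw [this, norm_mul, ← dist_eq_norm, hx, one_mul]

theorem ends_arc (h : CC F) {x w : ℂ} {j : Fin 5} (hw : dist w x = 1)
    (harc : ∀ᶠ s in 𝓝 (0 : ℝ), x + (w - x) * cis s ∈ F j) {g : ℂ} (hg : dist g w = 1)
    (hgx : g ≠ x) (hg2 : dist g x < 2) : g ∉ F j := by
  obtain ⟨u, rfl⟩ := circ_param (x := x) (y := w) (by rw [dist_comm]; exact hw) hg
  have hwx : dist x w = 1 := by rw [dist_comm]; exact hw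
  have hn : Complex.normSq (w - x) = 1 := by
    rw [Complex.normSq_eq_norm_sq, ← dist_eq_norm, hw]; norm_num
  have hsin : Real.sin u ≠ 0 := by
    intro h0
    rw [dist_param hwx] at hg2
    rcases Real.sin_eq_zero_iff_cos_eq.1 h0 with h1 | h1
    · apply hgx
      have : cis u = 1 := Complex.ext (by rw [cis_re, h1]; rfl) (by rw [cis_im, h0]; rfl)
      rw [this]; ring
    · have : cis u = -1 := Complex.ext (by rw [cis_re, h1]; rfl) (by rw [cis_im, h0]; simp)
      rw [this] at hg2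
      norm_num at hg2
  have key := h.cross (i := j) (x := x) (w := w - x) (w' := (w - x) * (1 - cis u)) (t := 0) ?_ ?_ harc
  · have e : w + (x - w) * cis u = x + (w - x) * (1 - cis u) * cis 0 := by
      rw [cis_zero]; ring
    rw [e]; exact key
  · rw [dist_eq_norm]
    have : w - x - (w - x) * (1 - cis u) = (w - x) * cis u := by ring
    rw [this, norm_mul, norm_cis, mul_one, ← dist_eq_norm, hw]
  · have e : (w - x) * (starRingEnd ℂ) ((w - x) * (1 - cis u)) =
        (Complex.normSq (w - x) : ℂ) * (1 - (starRingEnd ℂ) (cis u)) := by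
      rw [map_mul (starRingEnd ℂ) (w - x) (1 - cis u), map_sub (starRingEnd ℂ) 1 (cis u), map_one,
        ← mul_assoc, Complex.mul_conj]
    rw [e, hn, Complex.ofReal_one, one_mul, Complex.sub_im, Complex.one_im, Complex.conj_im,
      cis_im]
    simpa using hsin

theorem ends_arc' (h : CC F) {x w : ℂ} {j : Fin 5} (hw : dist w x = 1)
    (harc : ∀ᶠ s in 𝓝 (0 : ℝ), x + (w - x) * cis s ∈ F j) :
    ∀ ρ0 > 0, ∃ ρ > 0, ρ < ρ0 ∧ ∀ g, dist g w = 1 → dist g x = ρ → g ∉ F j := by
  intro ρ0 hρ0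
  refine ⟨min 1 ρ0 / 2, by positivity, ?_, fun g hg hgx => ?_⟩
  · have := min_le_right 1 ρ0
    linarith
  · have h1 := min_le_left 1 ρ0
    have h2 : 0 < min 1 ρ0 := by positivity
    refine ends_arc h hw harc hg ?_ (by rw [hgx]; linarith only [h1])
    rintro rfl
    rw [dist_self] at hgx
    linarith

theorem ends_chord (h : CC F) (htri : TriFree F) {x y : ℂ} {a b d : Fin 5} (hab : a ≠ b)
    (had : a ≠ d) (hbd : b ≠ d) (hy : dist y x = 1)
    (hch : ∃ r > 0, ∀ z, dist z y = 1 → dist z x < r → z ∈ F d) :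
    ∀ ρ0 > 0, ∃ ρ > 0, ρ < ρ0 ∧ ∀ g, dist g y = 1 → dist g x = ρ → g ∉ F a ∨ g ∉ F b := by
  intro ρ0 hρ0
  obtain ⟨r, hr, hch⟩ := hch
  have hxy : dist x y = 1 := by rw [dist_comm]; exact hy
  obtain ⟨σ, hσ, hσs⟩ := exists_small_sin (min r ρ0) (lt_min hr hρ0)
  have hcont : Continuous fun s : ℝ => y + (x - y) * cis s :=
    continuous_const.add (continuous_const.mul continuous_cis)
  have hon : ∀ s : ℝ, dist (y + (x - y) * cis s) y = 1 := by
    intro s
    rw [dist_eq_norm, add_sub_cancel_left, norm_mul, norm_cis, mul_one, ← dist_eq_norm, hxy]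
  have hneg : ∀ s : ℝ, ‖cis (-s) - 1‖ = ‖cis s - 1‖ := by
    intro s
    have h1 := normSq_cis_sub_one s
    have h2 := normSq_cis_sub_one (-s)
    rw [Real.cos_neg, ← h1] at h2
    exact (sq_eq_sq₀ (norm_nonneg _) (norm_nonneg _)).1 h2
  -- every interval of parameters contains a good one
  have hgood : ∀ ε : ℝ, (ε = 1 ∨ ε = -1) → ∀ s1 s2 : ℝ, 0 < s1 → s1 < s2 → s2 < σ →
      ∃ s, s1 < s ∧ s < s2 ∧ ¬ (y + (x - y) * cis (ε * s) ∈ F a ∧ y + (x - y) * cis (ε * s) ∈ F b) := by
    intro ε hε s1 s2 h0 h12 h2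
    by_contra hcon
    push Not at hcon
    have hin : ∀ s, s1 < s → s < s2 → y + (x - y) * cis (ε * s) ∈ F d := by
      intro s hs1 hs2
      refine hch _ (hon _) ?_
      rw [dist_param hxy]
      have := (hσs s (h0.trans hs1) (hs2.trans h2)).2
      rcases hε with rfl | rfl
      · rw [one_mul]; exact this.trans_le (min_le_left _ _)
      · rw [neg_one_mul, hneg]; exact this.trans_le (min_le_left _ _)
    set K := (fun s : ℝ => y + (x - y) * cis (ε * s)) '' Ioo s1 s2 with hK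
    have hKp : IsPreconnected K := isPreconnected_Ioo.image _
      (hcont.comp (continuous_const.mul continuous_id)).continuousOn
    have hsub := htri a b d hab had hbd K hKp
      (by rintro _ ⟨s, hs, rfl⟩; exact (hcon s hs.1 hs.2).1)
      (by rintro _ ⟨s, hs, rfl⟩; exact (hcon s hs.1 hs.2).2)
      (by rintro _ ⟨s, hs, rfl⟩; exact hin s hs.1 hs.2)
    -- two different points of K
    set u := (2 * s1 + s2) / 3 with hu
    set v := (s1 + 2 * s2) / 3 with hv
    have hu1 : u ∈ Ioo s1 s2 := ⟨by rw [hu]; linarith only [h12], by rw [hu]; linarith only [h12]⟩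
    have hv1 : v ∈ Ioo s1 s2 := ⟨by rw [hv]; linarith only [h12], by rw [hv]; linarith only [h12]⟩
    have huv : u < v := by rw [hu, hv]; linarith only [h12]
    have he := hsub (mem_image_of_mem _ hu1) (mem_image_of_mem _ hv1)
    have hne : x - y ≠ 0 := by
      intro h0; rw [dist_eq_norm, h0, norm_zero] at hxy; exact zero_ne_one hxy
    have he' : cis (ε * u) = cis (ε * v) := mul_left_cancel₀ hne (add_left_cancel he)
    -- distance to `x` distinguishes them
    have hdist : ∀ s, 0 < s → s < σ → Real.cos (ε * s) = Real.cos s := by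
      intro s _ _
      rcases hε with rfl | rfl
      · rw [one_mul]
      · rw [neg_one_mul, Real.cos_neg]
    have hcos : Real.cos u = Real.cos v := by
      rw [← hdist u (h0.trans hu1.1) (hu1.2.trans h2), ← hdist v (h0.trans hv1.1) (hv1.2.trans h2),
        ← cis_re, ← cis_re, he']
    have hsin : Real.sin u = Real.sin v := by
      rcases hε with rfl | rfl
      · rw [one_mul, one_mul] at he'; rw [← cis_im, ← cis_im, he']
      · rw [neg_one_mul, neg_one_mul] at he'
        have : Real.sin (-u) = Real.sin (-v) := by rw [← cis_im, ← cis_im, he']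
        rw [Real.sin_neg, Real.sin_neg] at this
        linarith only [this]
    have hz : cis (v - u) = 1 := by
      have e1 : cis (v - u) = cis v * (cis u)⁻¹ := by rw [sub_eq_add_neg, cis_add, cis_neg]
      have e2 : cis u = cis v := Complex.ext (by rw [cis_re, cis_re, hcos])
        (by rw [cis_im, cis_im, hsin])
      rw [e1, e2, mul_inv_cancel₀ (cis_ne_zero v)]
    have := (hσs (v - u) (by linarith only [huv]) (by linarith only [h0, h12, h2, hu, hv])).1
    rw [hz, sub_self, norm_zero] at this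
    exact lt_irrefl _ this
  obtain ⟨s, hs1, hs2, hs3⟩ := hgood 1 (Or.inl rfl) (σ / 3) (2 * σ / 3) (by (clear * - hσ; positivity)) (by linarith only [hσ])
    (by linarith)
  rw [one_mul] at hs3
  -- an interval around s of good parameters
  have hop : IsOpen {s : ℝ | ¬ (y + (x - y) * cis s ∈ F a ∧ y + (x - y) * cis s ∈ F b)} := by
    exact (((h.closed a).inter (h.closed b)).preimage hcont).isOpen_compl
  obtain ⟨ε, hε, hb⟩ := Metric.isOpen_iff.1 hop s hs3
  set m := min ε (σ / 3) with hm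
  have hm0 : 0 < m := by (clear * - hε hσ; positivity)
  have hm1 : m ≤ ε := min_le_left _ _
  have hm2 : m ≤ σ / 3 := min_le_right _ _
  obtain ⟨t, ht1, ht2, ht3⟩ := hgood (-1) (Or.inr rfl) s (s + m) (by linarith only [hs1, hm0, hm2]) (by linarith only [hm0])
    (by linarith only [hs2, hm2])
  rw [neg_one_mul] at ht3
  have htg : ¬ (y + (x - y) * cis t ∈ F a ∧ y + (x - y) * cis t ∈ F b) := by
    refine hb ?_
    rw [Metric.mem_ball, Real.dist_eq, abs_lt]
    constructor <;> linarith only [hm1, ht1, ht2]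
  have ht0 : 0 < t := by linarith only [hs1, hm2, ht1, ht2]
  have htσ : t < σ := by linarith only [hs2, hm2, ht2]
  refine ⟨‖cis t - 1‖, (hσs t ht0 htσ).1, (hσs t ht0 htσ).2.trans_le (min_le_right _ _), ?_⟩
  intro g hg hgx
  obtain ⟨u, rfl⟩ := circ_param hxy hg
  rw [dist_param hxy] at hgx
  rcases cis_eq_of_norm hgx with e | e
  · rw [e]; exact not_and_or.1 htg
  · rw [e]; exact not_and_or.1 ht3

end Vale.Agent.P032.B
end
end

section

section

/-! Isolated points surrounded by curves on which one of two colours is missing. -/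

namespace Vale.Agent.P032.B

open Set Topology

variable {F : Fin 5 → Set ℂ}

theorem Tot_congr {η : ℝ} (hη : 0 < η) {K : Set ℂ} (hK : Bornology.IsBounded K)
    {ω ω' : ℂ → ℂ → ℤ} (h : ∀ p ∈ K, ∀ q ∈ K, ω p q = ω' p q) : Tot ω η K = Tot ω' η K := by
  rw [Tot_eq_sum hη hK, Tot_eq_sum hη hK]
  refine Finset.sum_congr rfl fun Q hQ => ?_
  rw [Set.Finite.mem_toFinset] at hQ
  simp only [TT]
  rw [h _ (hQ (corner00 hη Q)) _ (hQ (corner10 hη Q)), h _ (hQ (corner10 hη Q)) _ (hQ (corner11 hη Q)),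
    h _ (hQ (corner11 hη Q)) _ (hQ (corner01 hη Q)), h _ (hQ (corner01 hη Q)) _ (hQ (corner00 hη Q))]

theorem flat_congr {ω ω' : ℂ → ℂ → ℤ} {z : ℂ} {s : ℝ} (hs : 0 < s)
    (h : ∀ p ∈ Metric.ball z s, ∀ q ∈ Metric.ball z s, ω' p q = ω p q) (hf : Flat ω z) :
    Flat ω' z := by
  obtain ⟨r, hr, g, hg⟩ := hf
  refine ⟨min r s, lt_min hr hs, g, fun p hp q hq => ?_⟩
  have hp1 := Metric.ball_subset_ball (min_le_left r s) hp
  have hp2 := Metric.ball_subset_ball (min_le_right r s) hp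
  have hq1 := Metric.ball_subset_ball (min_le_left r s) hq
  have hq2 := Metric.ball_subset_ball (min_le_right r s) hq
  rw [h p hp2 q hq2, hg p hp1 q hq1]

/-- (I3') -/
theorem iness_of_iso (h : CC F) (htri : TriFree F) {x : ℂ} {r : ℝ} (hr : 0 < r)
    (Gr : Fin 5 → Fin 5 → Prop)
    (hGr : ∀ z ∈ Metric.ball x r, ∀ i j, i ≠ j → z ∈ F i → z ∈ F j →
      (∀ k, z ∈ F k → k = i ∨ k = j) → Gr i j) {a b : Fin 5}
    (hac : ∀ θ : Fin 5 → Fin 5 → ℤ, (∀ i j, θ i j = -θ j i) →
      ∃ f : Fin 5 → ℤ, ∀ i j, Gr i j → ¬ (i = a ∧ j = b) → ¬ (i = b ∧ j = a) →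
        θ i j = f j - f i)
    (hiso : ∀ z ∈ Metric.ball x r, z ≠ x → Iness F z)
    (hR : ∀ ρ > 0, ∃ R, IsCompact R ∧ R ⊆ Metric.ball x ρ ∧ x ∈ interior R ∧
      ∀ v ∈ frontier R, v ∉ F a ∨ v ∉ F b) : Iness F x := by
  classical
  refine ⟨r, hr, fun K hK hKr hfr ℓ hℓ θ hθ => ?_⟩
  obtain ⟨f, hf⟩ := hac θ hθ
  set θ2 : Fin 5 → Fin 5 → ℤ := fun i j => if (i = a ∧ j = b) ∨ (i = b ∧ j = a) then
    θ i j - (f j - f i) else 0 with hθ2
  have hθ2a : ∀ i j, θ2 i j = -θ2 j i := by
    intro i j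
    simp only [hθ2]
    by_cases hc : (i = a ∧ j = b) ∨ (i = b ∧ j = a)
    · have hc' : (j = a ∧ i = b) ∨ (j = b ∧ i = a) := by (clear * - hc; tauto)
      rw [if_pos hc, if_pos hc']
      have := hθ i j; omega
    · have hc' : ¬ ((j = a ∧ i = b) ∨ (j = b ∧ i = a)) := by (clear * - hc; tauto)
      rw [if_neg hc, if_neg hc']; rfl
  -- it is enough to treat θ2
  have key1 := frontier_unbroken h Gr hGr hK hKr hfr hℓ
    (θ := fun i j => θ i j - (f j - f i) - θ2 i j)
    (fun i j => by have := hθ i j; have := hθ2a i j; omega) (fun i j hij => by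
      simp only [hθ2]
      by_cases hc : (i = a ∧ j = b) ∨ (i = b ∧ j = a)
      · rw [if_pos hc]; omega
      · rw [if_neg hc]
        have := hf i j hij (fun h' => hc (Or.inl h')) (fun h' => hc (Or.inr h'))
        omega)
  suffices key2 : ∀ᶠ η in 𝓝[>] (0 : ℝ), Tot (fun p q => θ2 (ℓ p) (ℓ q)) η K = 0 by
    filter_upwards [key1, key2, self_mem_nhdsWithin] with η h1 h2 hη
    have e1 := Tot_add hη hK.isBounded
      (fun p q => θ (ℓ p) (ℓ q) - (f (ℓ q) - f (ℓ p)) - θ2 (ℓ p) (ℓ q))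
      (fun p q => θ2 (ℓ p) (ℓ q))
    have e2 := Tot_add hη hK.isBounded (fun p q => θ (ℓ p) (ℓ q) - (f (ℓ q) - f (ℓ p)))
      (fun p q => f (ℓ q) - f (ℓ p))
    simp only [sub_add_cancel] at e1 e2
    rw [e2, e1, h1, h2, Tot_exact hη hK.isBounded (fun p => f (ℓ p))]
    rfl
  -- colours near a point of ball x r at which a or b is missing
  have hzero : ∀ z, (z ∉ F a ∨ z ∉ F b) → ∃ s > 0, ∀ p ∈ Metric.ball z s, ∀ q ∈ Metric.ball z s,
      θ2 (ℓ p) (ℓ q) = 0 := by
    intro z hz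
    obtain ⟨s, hs, hball⟩ := h.nhd_ball z
    refine ⟨s, hs, fun p hp q hq => ?_⟩
    have hp' := hball p hp _ (hℓ p)
    have hq' := hball q hq _ (hℓ q)
    simp only [hθ2]
    rw [if_neg]
    rintro (⟨h1, h2⟩ | ⟨h1, h2⟩)
    · rw [h1] at hp'; rw [h2] at hq'
      rcases hz with hz | hz
      · exact hz hp'
      · exact hz hq'
    · rw [h1] at hp'; rw [h2] at hq'
      rcases hz with hz | hz
      · exact hz hq'
      · exact hz hp'
  have hint : ∀ z ∈ K, z ∈ Tr F → z ∈ interior K := by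
    intro z hz hzT
    by_contra hzi
    exact hfr z (by rw [hK.isClosed.frontier_eq]; exact ⟨hz, hzi⟩) hzT
  by_cases hxK : x ∈ interior K
  · obtain ⟨ρ, hρ, hρK⟩ := Metric.isOpen_iff.1 isOpen_interior x hxK
    obtain ⟨R, hRc, hRρ, hxR, hRf⟩ := hR ρ hρ
    have hRK : R ⊆ interior K := hRρ.trans hρK
    set ω : ℂ → ℂ → ℤ := fun p q => θ2 (ℓ p) (ℓ q) with hω
    set ω' : ℂ → ℂ → ℤ := fun p q => if p ∈ R ∧ q ∈ R then 0 else ω p q with hω'
    have hout : ∀ z ∉ R, ∃ s > 0, ∀ p ∈ Metric.ball z s, p ∉ R := by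
      intro z hz
      obtain ⟨s, hs, hb⟩ := Metric.isOpen_iff.1 hRc.isClosed.isOpen_compl z hz
      exact ⟨s, hs, fun p hp => hb hp⟩
    have hRflat : ∀ z ∈ R, Flat ω' z := by
      intro z hz
      by_cases hzi : z ∈ interior R
      · obtain ⟨s, hs, hb⟩ := Metric.isOpen_iff.1 isOpen_interior z hzi
        refine ⟨s, hs, fun _ => 0, fun p hp q hq => ?_⟩
        simp only [hω']
        rw [if_pos ⟨interior_subset (hb hp), interior_subset (hb hq)⟩]; rfl
      · obtain ⟨s, hs, hb⟩ := hzero z (hRf z (by rw [hRc.isClosed.frontier_eq]; exact ⟨hz, hzi⟩))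
        refine ⟨s, hs, fun _ => 0, fun p hp q hq => ?_⟩
        simp only [hω']
        split_ifs
        · rfl
        · rw [hω]; simp only; rw [hb p hp q hq]; rfl
    have hdiff : ∀ᶠ η in 𝓝[>] (0 : ℝ), Tot (fun p q => ω p q - ω' p q) η K = 0 := by
      refine Tot_bv hK ?_ ?_
      · intro p q
        simp only [hω', hω]
        by_cases hc : p ∈ R ∧ q ∈ R
        · rw [if_pos hc, if_pos hc.symm]
          have := hθ2a (ℓ p) (ℓ q); omega
        · rw [if_neg hc, if_neg fun hc' => hc hc'.symm]; omega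
      · intro z hz
        obtain ⟨s, hs, hb⟩ := hout z fun hzR => hz.2 (hRK hzR)
        refine ⟨s, hs, fun p hp q hq => ?_⟩
        simp only [hω']
        rw [if_neg fun hc => hb p hp hc.1]; omega
    have hlg : ∀ᶠ η in 𝓝[>] (0 : ℝ), Tot ω' η K = 0 := by
      refine Tot_lg hK h.isClosed_Tr (h.td_Tr htri hK) ?_ ?_
      · intro z hz hzT
        by_cases hzR : z ∈ R
        · exact hRflat z hzR
        · obtain ⟨s, hs, hb⟩ := hout z hzR
          obtain ⟨i, j, -, -, hij⟩ := two_of_notTr h hzT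
          refine flat_congr hs (fun p hp q hq => ?_) (flat_of_two h hij hℓ hθ2a)
          simp only [hω']
          rw [if_neg fun hc => hb p hp hc.1]
      · intro z hz hzT
        by_cases hzR : z ∈ R
        · exact Or.inl (hRflat z hzR)
        · right
          obtain ⟨s, hs, hb⟩ := hout z hzR
          obtain ⟨t, ht, htK⟩ := Metric.isOpen_iff.1 isOpen_interior z (hint z hz hzT)
          have hzx : z ≠ x := fun e => hzR (e ▸ interior_subset hxR)
          obtain ⟨u, hu, hI⟩ := hiso z (hKr hz) hzx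
          refine ⟨min s (min t u), lt_min hs (lt_min ht hu), ?_, ?_⟩
          · exact (Metric.ball_subset_ball ((min_le_right _ _).trans (min_le_left _ _))).trans
              (htK.trans interior_subset)
          · intro K' hK' hK'b hfr'
            have h1 := hI K' hK' (hK'b.trans (Metric.ball_subset_ball
              ((min_le_right _ _).trans (min_le_right _ _)))) hfr' ℓ hℓ θ2 hθ2a
            filter_upwards [h1, self_mem_nhdsWithin] with η h2 hη
            rw [← h2]
            refine Tot_congr hη hK'.isBounded fun p hp q hq => ?_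
            simp only [hω', hω]
            rw [if_neg fun hc => hb p (Metric.ball_subset_ball (min_le_left _ _) (hK'b hp)) hc.1]
    filter_upwards [hdiff, hlg, self_mem_nhdsWithin] with η h1 h2 hη
    have := Tot_sub hη hK.isBounded ω ω'
    rw [h1, h2] at this
    show Tot ω η K = 0
    omega
  · refine Tot_lg hK h.isClosed_Tr (h.td_Tr htri hK) ?_ ?_
    · intro z hz hzT
      obtain ⟨i, j, -, -, hij⟩ := two_of_notTr h hzT
      exact flat_of_two h hij hℓ hθ2a
    · intro z hz hzT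
      right
      have hzi := hint z hz hzT
      obtain ⟨t, ht, htK⟩ := Metric.isOpen_iff.1 isOpen_interior z hzi
      have hzx : z ≠ x := fun e => hxK (e ▸ hzi)
      obtain ⟨u, hu, hI⟩ := hiso z (hKr hz) hzx
      refine ⟨min t u, lt_min ht hu, ?_, ?_⟩
      · exact (Metric.ball_subset_ball (min_le_left _ _)).trans (htK.trans interior_subset)
      · intro K' hK' hK'b hfr'
        exact hI K' hK' (hK'b.trans (Metric.ball_subset_ball (min_le_right _ _))) hfr' ℓ hℓ θ2 hθ2a

end Vale.Agent.P032.B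
end
end

section

section

/-! Base lemmas for five-colour closed covers of the complex plane, second part. -/

namespace Vale.Agent.P032.B

open Set Topology

variable {F : Fin 5 → Set ℂ}

theorem circ_sq (p : ℂ) (a b s : ℝ) :
    ((p + s * cis b).re - (p + cis a).re) ^ 2 + ((p + s * cis b).im - (p + cis a).im) ^ 2
      = 1 + s ^ 2 - 2 * s * Real.cos (a - b) := by
  rw [← dist_cis_sq p a b s]; ring

/-- Ring lemma -/
theorem CC.ring (h : CC F) {i j l : Fin 5} (hij : i ≠ j) {p : ℂ}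
    (hS : ∀ k, p ∈ F k → k = i ∨ k = j ∨ k = l) (harc : Arc F p i j) :
    p ∈ F l ∧ ∀ z, dist z p = 1 → z ∉ F l := by
  obtain ⟨t, ht⟩ := harc
  have hpi := Real.pi_pos
  have h2 : ∀ᶠ a in 𝓝 t, ∀ k, (k = i ∨ k = j) → p + cis a ∈ F k := by
    filter_upwards [ht] with a ha
    rintro k (rfl | rfl)
    · exact ha.1
    · exact ha.2
  obtain ⟨r, hr, hw⟩ := h.wedge' h2
  obtain ⟨ε, hε, hball⟩ := Metric.eventually_nhds_iff.1 (h.nhd p)
  set ρ := min r ε with hρ
  have hρ0 : 0 < ρ := lt_min hr hε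
  have hl : ∀ β s : ℝ, |β - (t + Real.pi / 2)| < r → s ≠ 0 → |s| < ρ → p + s * cis β ∈ F l := by
    intro β s hβ hs hs'
    obtain ⟨k, hk⟩ := h.cover (p + s * cis β)
    have h3 := hw β s hβ hs (hs'.trans_le (min_le_left _ _))
    have h4 : dist (p + s * cis β) p < ε := by
      rw [dist_eq_norm]
      simp only [add_sub_cancel_left, norm_mul, Complex.norm_real, norm_cis, mul_one]
      exact hs'.trans_le (min_le_right _ _)
    rcases hS k (hball h4 k hk) with rfl | rfl | rfl
    · exact absurd hk (h3 k (Or.inl rfl))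
    · exact absurd hk (h3 k (Or.inr rfl))
    · exact hk
  have hpl : p ∈ F l := by
    have hc : Filter.Tendsto (fun u : ℝ => p + (u : ℂ) * cis (t + Real.pi / 2)) (𝓝[≠] 0) (𝓝 p) := by
      have hc' : Continuous (fun u : ℝ => p + (u : ℂ) * cis (t + Real.pi / 2)) := by fun_prop
      have := (hc'.tendsto 0).mono_left (nhdsWithin_le_nhds (s := {0}ᶜ))
      simpa using this
    refine (h.closed l).mem_of_tendsto hc ?_
    have h4 : ∀ᶠ u : ℝ in 𝓝[≠] (0 : ℝ), |u| < ρ :=
      (small_abs hρ0).filter_mono nhdsWithin_le_nhds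
    have h5 : ∀ᶠ u : ℝ in 𝓝[≠] (0 : ℝ), u ≠ 0 := eventually_mem_nhdsWithin
    filter_upwards [h4, h5] with u hu1 hu2
    exact hl _ u (by simpa using hr) hu2 hu1
  refine ⟨hpl, ?_⟩
  intro z hz
  obtain ⟨φ, hφ⟩ : ∃ φ : ℝ, z - p = cis φ := exists_cis (by rw [← dist_eq_norm, hz])
  have hzp : z = p + cis φ := by rw [← hφ]; ring
  -- choose a good direction
  obtain ⟨β, hβ1, hβ2⟩ : ∃ β : ℝ, |β - (t + Real.pi / 2)| < r ∧ Real.cos (φ - β) ≠ 0 := by
    by_cases h0 : Real.cos (φ - (t + Real.pi / 2)) = 0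
    · refine ⟨t + Real.pi / 2 + min (r / 2) 1, ?_, ?_⟩
      · rw [add_sub_cancel_left, abs_of_pos (lt_min (by linarith only [hr]) one_pos)]
        exact (min_le_left _ _).trans_lt (by linarith only [hr])
      · have e1 : φ - (t + Real.pi / 2 + min (r / 2) 1)
            = (φ - (t + Real.pi / 2)) - min (r / 2) 1 := by ring
        rw [e1, Real.cos_sub, h0, zero_mul, zero_add]
        have h1 : Real.sin (φ - (t + Real.pi / 2)) ≠ 0 := by
          intro h1
          have := Real.sin_sq_add_cos_sq (φ - (t + Real.pi / 2))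
          rw [h0, h1] at this
          norm_num at this
        have h2 : 0 < Real.sin (min (r / 2) 1) :=
          Real.sin_pos_of_pos_of_lt_pi (lt_min (by linarith only [hr]) one_pos)
            ((min_le_right _ _).trans_lt (by linarith only [Real.pi_gt_three]))
        exact mul_ne_zero h1 h2.ne'
    · exact ⟨t + Real.pi / 2, by simpa using hr, h0⟩
  set c := Real.cos (φ - β) with hc
  obtain ⟨s, hs0, hsρ, hsc⟩ : ∃ s : ℝ, 0 < s ∧ s < ρ ∧ s < 2 * |c| :=
    ⟨min (ρ / 2) |c|, lt_min (by linarith only [hρ0]) (abs_pos.2 hβ2),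
      (min_le_left _ _).trans_lt (by linarith only [hρ0]),
      (min_le_right _ _).trans_lt (by linarith only [abs_pos.2 hβ2])⟩
  have hpre : IsPreconnected ((fun u : ℝ => p + (u : ℂ) * cis β) '' Icc (-s) s) := by
    refine isPreconnected_Icc.image _ ?_
    have hc' : Continuous (fun u : ℝ => p + (u : ℂ) * cis β) := by fun_prop
    exact hc'.continuousOn
  have hsub : ((fun u : ℝ => p + (u : ℂ) * cis β) '' Icc (-s) s) ⊆ F l := by
    rintro _ ⟨u, hu, rfl⟩
    by_cases hu0 : u = 0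
    · simpa [hu0] using hpl
    · exact hl β u hβ1 hu0 ((abs_le.2 hu).trans_lt hsρ)
  have hA : p + ((-s : ℝ) : ℂ) * cis β ∈ ((fun u : ℝ => p + (u : ℂ) * cis β) '' Icc (-s) s) :=
    mem_image_of_mem _ ⟨le_rfl, by linarith only [hs0]⟩
  have hB : p + ((s : ℝ) : ℂ) * cis β ∈ ((fun u : ℝ => p + (u : ℂ) * cis β) '' Icc (-s) s) :=
    mem_image_of_mem _ ⟨by linarith only [hs0], le_rfl⟩
  rw [hzp]
  rcases lt_or_gt_of_ne hβ2 with hneg | hpos
  · rw [abs_of_neg hneg] at hsc
    refine h.wlemma hpre hsub hA hB ?_ ?_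
    · apply dist_lt_one
      rw [circ_sq]
      nlinarith only [hs0, hsc]
    · apply one_lt_dist
      rw [circ_sq]
      nlinarith only [hs0, hsc]
  · rw [abs_of_pos hpos] at hsc
    refine h.wlemma hpre hsub hB hA ?_ ?_
    · apply dist_lt_one
      rw [circ_sq]
      nlinarith only [hs0, hsc]
    · apply one_lt_dist
      rw [circ_sq]
      nlinarith only [hs0, hsc]

/-- near an inner point of an arc of the type `i j` only the colours `i j` occur. -/
theorem CC.arcQ (h : CC F) {i j : Fin 5} (hij : i ≠ j) {x : ℂ} {t : ℝ}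
    (harc : ∀ᶠ s in 𝓝 t, x + cis s ∈ F i ∧ x + cis s ∈ F j) :
    ∀ᶠ y in 𝓝 (x + cis t), ∀ k, y ∈ F k → k = i ∨ k = j := by
  filter_upwards [h.nhd (x + cis t)] with y hy k hk
  refine h.lemQ hij (x := x) (w := 1) one_ne_zero (t := t) ?_ ?_
  · simpa only [one_mul, Filter.eventually_and] using harc
  · simpa using hy k hk

/-- a point all of whose colours are among `i j`, adjacent to a point carrying both colours,
carries both colours. -/
theorem CC.both (h : CC F) {i j : Fin 5} {y c : ℂ} (hy : ∀ k, y ∈ F k → k = i ∨ k = j)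
    (hi : c ∈ F i) (hj : c ∈ F j) (hd : dist y c = 1) : y ∈ F i ∧ y ∈ F j := by
  constructor
  · by_contra hcon
    refine h.single (i := j) ?_ hd hj
    intro k hk
    rcases hy k hk with rfl | rfl
    · exact absurd hk hcon
    · rfl
  · by_contra hcon
    refine h.single (i := i) ?_ hd hi
    intro k hk
    rcases hy k hk with rfl | rfl
    · rfl
    · exact absurd hk hcon

theorem CC.T1 (h : CC F) {i j : Fin 5} (hij : i ≠ j) {K : Set ℂ} (hK : IsPreconnected K)
    (hi : K ⊆ F i) (hj : K ⊆ F j) {p q : ℂ} (hp : p ∈ K) (hq : q ∈ K) (hpq : p ≠ q) :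
    ¬ Arc F p i j := by
  rintro ⟨t, ht⟩
  -- no open set is swept
  have hV : ∀ V : Set ℂ, IsOpen V → (∀ y ∈ V, ∀ k, y ∈ F k → k = i ∨ k = j) →
      ∀ a ∈ K, ∀ b ∈ K, (∀ y ∈ V, dist a y < 1 ∧ 1 < dist b y) → V = ∅ := by
    intro V hVo hVc a ha b hb hVd
    by_contra hne
    obtain ⟨y, hy⟩ := nonempty_iff_ne_empty.2 hne
    have hsub : V ⊆ F i := by
      intro u hu
      have hcont : ContinuousOn (fun c : ℂ => dist c u) K :=
        (continuous_id.dist continuous_const).continuousOn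
      obtain ⟨c, hc, hc'⟩ := hK.intermediate_value ha hb hcont
        (show (1 : ℝ) ∈ Icc (dist a u) (dist b u) from ⟨(hVd u hu).1.le, (hVd u hu).2.le⟩)
      exact (h.both (hVc u hu) (hi hc) (hj hc) (by rw [dist_comm]; exact hc')).1
    have hcont : ContinuousOn (fun c : ℂ => dist c y) K :=
      (continuous_id.dist continuous_const).continuousOn
    obtain ⟨c, hc, hc'⟩ := hK.intermediate_value ha hb hcont
      (show (1 : ℝ) ∈ Icc (dist a y) (dist b y) from ⟨(hVd y hy).1.le, (hVd y hy).2.le⟩)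
    exact h.unit i y (interior_maximal hsub hVo hy) c (hi hc) (by rw [dist_comm]; exact hc')
  have hone : ∀ᶠ s in 𝓝 t, dist q (p + cis s) = 1 := by
    filter_upwards [ht.eventually_nhds] with s hs
    obtain ⟨ε, hε, hball⟩ := Metric.eventually_nhds_iff.1 (h.arcQ hij hs)
    by_contra hne
    have hball' : ∀ u : ℝ, |u| < ε → ∀ k, p + ((1 + u : ℝ) : ℂ) * cis s ∈ F k → k = i ∨ k = j := by
      intro u hu
      refine hball ?_
      rw [dist_eq_norm]
      have : p + ((1 + u : ℝ) : ℂ) * cis s - (p + cis s) = (u : ℂ) * cis s := by push_cast; ring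
      rw [this]
      simpa using hu
    have hdu : ∀ u : ℝ, dist p (p + ((1 + u : ℝ) : ℂ) * cis s) = |1 + u| := by
      intro u
      rw [dist_comm, dist_eq_norm]
      simp only [add_sub_cancel_left, norm_mul, norm_cis, mul_one, Complex.norm_real,
        Real.norm_eq_abs]
    rcases lt_or_gt_of_ne hne with hlt | hgt
    · -- q is inside
      set V : Set ℂ := Metric.ball (p + cis s) ε ∩ {y | dist q y < 1 ∧ 1 < dist p y} with hVdef
      have hVo : IsOpen V := Metric.isOpen_ball.inter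
        ((isOpen_lt (continuous_const.dist continuous_id) continuous_const).inter
        (isOpen_lt continuous_const (continuous_const.dist continuous_id)))
      have hVe := hV V hVo (fun y hy => hball hy.1) q hq p hp (fun y hy => hy.2)
      have h1 : ∀ᶠ u : ℝ in 𝓝 (0 : ℝ), dist q (p + cis s + (u : ℂ) * cis s) < 1 := by
        have hO : IsOpen {y : ℂ | dist q y < 1} :=
          isOpen_lt (continuous_const.dist continuous_id) continuous_const
        exact small_mem hO (p := p + cis s) hlt (cis s)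
      have h2 := small_abs hε
      have h3 : ∀ᶠ u : ℝ in 𝓝[>] (0 : ℝ), 0 < u := eventually_mem_nhdsWithin
      obtain ⟨u, hu1, hu2, hu3⟩ := ((h1.filter_mono nhdsWithin_le_nhds).and
        ((h2.filter_mono nhdsWithin_le_nhds).and h3)).exists
      have : p + cis s + (u : ℂ) * cis s ∈ V := by
        refine ⟨?_, hu1, ?_⟩
        · rw [Metric.mem_ball, dist_eq_norm]
          simpa using hu2
        · rw [dist_comm, dist_eq_norm]
          have : p + cis s + (u : ℂ) * cis s - p = ((1 + u : ℝ) : ℂ) * cis s := by push_cast; ring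
          rw [this, norm_mul, norm_cis, mul_one, Complex.norm_real, Real.norm_eq_abs,
            abs_of_pos (by linarith only [hu3])]
          linarith
      rw [hVe] at this
      exact this
    · set V : Set ℂ := Metric.ball (p + cis s) ε ∩ {y | dist p y < 1 ∧ 1 < dist q y} with hVdef
      have hVo : IsOpen V := Metric.isOpen_ball.inter
        ((isOpen_lt (continuous_const.dist continuous_id) continuous_const).inter
        (isOpen_lt continuous_const (continuous_const.dist continuous_id)))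
      have hVe := hV V hVo (fun y hy => hball hy.1) p hp q hq (fun y hy => hy.2)
      have h1 : ∀ᶠ u : ℝ in 𝓝 (0 : ℝ), 1 < dist q (p + cis s + (u : ℂ) * cis s) := by
        have hO : IsOpen {y : ℂ | 1 < dist q y} :=
          isOpen_lt continuous_const (continuous_const.dist continuous_id)
        exact small_mem hO (p := p + cis s) hgt (cis s)
      have h2 := small_abs (lt_min hε one_pos)
      have h3 : ∀ᶠ u : ℝ in 𝓝[<] (0 : ℝ), u < 0 := eventually_mem_nhdsWithin
      obtain ⟨u, hu1, hu2, hu3⟩ := ((h1.filter_mono nhdsWithin_le_nhds).and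
        ((h2.filter_mono nhdsWithin_le_nhds).and h3)).exists
      rw [lt_min_iff, abs_of_neg hu3] at hu2
      have : p + cis s + (u : ℂ) * cis s ∈ V := by
        refine ⟨?_, ?_, hu1⟩
        · rw [Metric.mem_ball, dist_eq_norm]
          simpa [abs_of_neg hu3] using hu2.1
        · rw [dist_comm, dist_eq_norm]
          have : p + cis s + (u : ℂ) * cis s - p = ((1 + u : ℝ) : ℂ) * cis s := by push_cast; ring
          rw [this, norm_mul, norm_cis, mul_one, Complex.norm_real, Real.norm_eq_abs,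
            abs_of_pos (by linarith)]
          linarith
      rw [hVe] at this
      exact this
  -- now the circle about p near t is on the circle about q
  have hρ0 : 0 < dist p q := dist_pos.2 hpq
  obtain ⟨ψ, hψ⟩ : ∃ ψ : ℝ, q - p = (dist p q : ℂ) * cis ψ := by
    obtain ⟨ψ, hψ⟩ := exists_cis (v := (q - p) / (dist p q : ℂ)) (by
      rw [norm_div, Complex.norm_real, ← dist_eq_norm, dist_comm q p, Real.norm_of_nonneg hρ0.le,
        div_self hρ0.ne'])
    refine ⟨ψ, ?_⟩
    rw [← hψ, mul_div_cancel₀ _ (by exact_mod_cast hρ0.ne')]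
  have hqe : q = p + (dist p q : ℂ) * cis ψ := by rw [← hψ]; ring
  set ρ := dist p q with hρ
  have hcos : ∀ᶠ s in 𝓝 t, Real.cos (s - ψ) = ρ / 2 := by
    filter_upwards [hone] with s hs
    have h1 : dist q (p + cis s) ^ 2 = 1 := by rw [hs]; norm_num
    rw [dist_sq, hqe, circ_sq] at h1
    have : ρ * (ρ - 2 * Real.cos (s - ψ)) = 0 := by linear_combination h1
    rcases mul_eq_zero.1 this with h2 | h2
    · exact absurd h2 hρ0.ne'
    · linarith only [h2]
  have hsin : ∀ᶠ s in 𝓝 t, Real.sin (s - ψ) = 0 := by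
    filter_upwards [hcos.eventually_nhds] with s hs
    have h1 : HasDerivAt (fun s => Real.cos (s - ψ)) (-Real.sin (s - ψ)) s :=
      (Real.hasDerivAt_cos (s - ψ)).comp_sub_const s ψ
    have h2 : HasDerivAt (fun s => Real.cos (s - ψ)) 0 s :=
      (hasDerivAt_const s (ρ / 2)).congr_of_eventuallyEq hs
    have := h1.unique h2
    linarith only [this]
  have h1 : HasDerivAt (fun s => Real.sin (s - ψ)) (Real.cos (t - ψ)) t :=
    (Real.hasDerivAt_sin (t - ψ)).comp_sub_const t ψ
  have h2 : HasDerivAt (fun s => Real.sin (s - ψ)) 0 t :=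
    (hasDerivAt_const t (0 : ℝ)).congr_of_eventuallyEq hsin
  have h3 := h1.unique h2
  have h4 := hsin.self_of_nhds
  have h5 := Real.sin_sq_add_cos_sq (t - ψ)
  rw [h3, h4] at h5
  norm_num at h5

/-- a pair occurring on an arc about `x` is broken near `x` -/
theorem CC.broken' (h : CC F) {i j : Fin 5} (hij : i ≠ j) {x : ℂ}
    (harc : Arc F x i j) : ∀ᶠ z in 𝓝 x, z ∈ F i → z ∈ F j →
      Arc F z i j ∧ ∃ k, k ≠ i ∧ k ≠ j ∧ z ∈ F k := by
  obtain ⟨t, ht⟩ := harc
  obtain ⟨ε, hε, hball⟩ := Metric.eventually_nhds_iff.1 (h.arcQ hij ht)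
  have h1 : ∀ᶠ s in 𝓝 t, dist (cis s) (cis t) < ε / 2 :=
    (continuous_cis.continuousAt (x := t)).eventually (Metric.ball_mem_nhds _ (by linarith))
  filter_upwards [Metric.ball_mem_nhds x (half_pos hε)] with z hz hzi hzj
  have harc : Arc F z i j := by
    refine ⟨t, ?_⟩
    filter_upwards [h1] with s hs
    have hd : dist (z + cis s) (x + cis t) < ε := by
      have := dist_add_add_le z (cis s) x (cis t)
      rw [Metric.mem_ball] at hz
      linarith only [hz, hs, this]
    exact h.both (hball hd) hzi hzj (by rw [dist_eq_norm]; simp)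
  refine ⟨harc, ?_⟩
  by_contra hcon
  push Not at hcon
  have := h.ring (l := i) hij (p := z) (by
    intro k hk
    by_contra h3
    push Not at h3
    exact hcon k h3.1 h3.2.1 hk) harc
  obtain ⟨s, hs⟩ := harc
  exact this.2 _ (by rw [dist_eq_norm]; simp) hs.self_of_nhds.1

theorem CC.broken (h : CC F) {i j : Fin 5} (hij : i ≠ j) {x : ℂ} (_hi : x ∈ F i) (_hj : x ∈ F j)
    (harc : Arc F x i j) : ∀ᶠ z in 𝓝 x, z ∈ F i → z ∈ F j → ∃ k, k ≠ i ∧ k ≠ j ∧ z ∈ F k :=
  (h.broken' hij harc).mono fun _ hz hi hj => (hz hi hj).2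

/-- generic rotations form an open dense set. -/
theorem CC.gen (h : CC F) (V : Finset ℂ) (x : ℂ) :
    IsOpen {t : ℝ | ∀ w ∈ V, ∀ i, x + w * cis t ∈ F i → ∀ᶠ s in 𝓝 t, x + w * cis s ∈ F i} ∧
    Dense {t : ℝ | ∀ w ∈ V, ∀ i, x + w * cis t ∈ F i → ∀ᶠ s in 𝓝 t, x + w * cis s ∈ F i} := by
  classical
  have hone : ∀ (w : ℂ) (i : Fin 5),
      IsOpen {t : ℝ | x + w * cis t ∈ F i → ∀ᶠ s in 𝓝 t, x + w * cis s ∈ F i} ∧
      Dense {t : ℝ | x + w * cis t ∈ F i → ∀ᶠ s in 𝓝 t, x + w * cis s ∈ F i} := by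
    intro w i
    set A : Set ℝ := (fun s : ℝ => x + w * cis s) ⁻¹' F i with hA
    have hAc : IsClosed A := (h.closed i).preimage (continuous_circ x w)
    have heq : {t : ℝ | x + w * cis t ∈ F i → ∀ᶠ s in 𝓝 t, x + w * cis s ∈ F i}
        = (frontier A)ᶜ := by
      ext t
      rw [hAc.frontier_eq]
      simp only [mem_ofPred_eq, mem_compl_iff, mem_sdiff, not_and, not_not,
        mem_interior_iff_mem_nhds]
      rfl
    rw [heq]
    refine ⟨isClosed_frontier.isOpen_compl, ?_⟩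
    exact interior_eq_empty_iff_dense_compl.1 (interior_frontier hAc)
  induction V using Finset.induction_on with
  | empty => simp only [Finset.notMem_empty, IsEmpty.forall_iff, implies_true, ofPred_true, isOpen_univ, dense_univ, and_self]
  | insert w V _ ih =>
    have e1 : {t : ℝ | ∀ u ∈ insert w V, ∀ i, x + u * cis t ∈ F i →
        ∀ᶠ s in 𝓝 t, x + u * cis s ∈ F i}
        = (⋂ i, {t : ℝ | x + w * cis t ∈ F i → ∀ᶠ s in 𝓝 t, x + w * cis s ∈ F i}) ∩
          {t : ℝ | ∀ u ∈ V, ∀ i, x + u * cis t ∈ F i → ∀ᶠ s in 𝓝 t, x + u * cis s ∈ F i} := by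
      ext t
      simp only [Finset.mem_insert, forall_eq_or_imp, mem_ofPred_eq, mem_inter_iff, mem_iInter]
    rw [e1]
    have ho : IsOpen (⋂ i, {t : ℝ | x + w * cis t ∈ F i → ∀ᶠ s in 𝓝 t, x + w * cis s ∈ F i}) :=
      isOpen_iInter_of_finite fun i => (hone w i).1
    have hd : Dense (⋂ i, {t : ℝ | x + w * cis t ∈ F i → ∀ᶠ s in 𝓝 t, x + w * cis s ∈ F i}) :=
      dense_iInter_of_isOpen (fun i => (hone w i).1) (fun i => (hone w i).2)
    exact ⟨ho.inter ih.1, hd.inter_of_isOpen_left ih.2 ho⟩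

/-- generic rotations -/
theorem CC.dense_gen (h : CC F) (V : Finset ℂ) (x : ℂ) :
    Dense {t : ℝ | ∀ w ∈ V, ∀ i, x + w * cis t ∈ F i → ∀ᶠ s in 𝓝 t, x + w * cis s ∈ F i} :=
  (h.gen V x).2

/-- escape lemma at a non-centre -/
theorem CC.escape (h : CC F) {x : ℂ} (hno : ∀ i j, i ≠ j → x ∈ F i → x ∈ F j → ¬ Arc F x i j) {z : ℂ}
    (hz : dist z x = 1) : ∃ i, x ∉ F i ∧ z ∈ F i := by
  by_contra hcon
  push Not at hcon
  obtain ⟨t, ht⟩ : ∃ t : ℝ, z - x = cis t := exists_cis (by rw [← dist_eq_norm, hz])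
  have hzx : z = x + cis t := by rw [← ht]; ring
  subst hzx
  have h1 : ∀ᶠ s in 𝓝 t, ∀ i, x + cis s ∈ F i → x ∈ F i := by
    have := (continuous_circ1 x).continuousAt.eventually (h.nhd (x + cis t))
    filter_upwards [this] with s hs i hi
    by_contra hx
    exact hcon i hx (hs i hi)
  obtain ⟨O, hO, hOo, hOt⟩ := eventually_nhds_iff.1 h1
  obtain ⟨s, hsO, hs⟩ := (h.dense_gen {1} x).inter_open_nonempty O hOo ⟨t, hOt⟩
  simp only [Finset.mem_singleton, forall_eq, one_mul, mem_ofPred_eq] at hs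
  obtain ⟨i, hi⟩ := h.cover (x + cis s)
  have hxi := hO s hsO i hi
  by_cases hj : ∃ j, j ≠ i ∧ x + cis s ∈ F j
  · obtain ⟨j, hji, hj⟩ := hj
    exact hno j i hji (hO s hsO j hj) hxi ⟨s, (hs j hj).and (hs i hi)⟩
  · push Not at hj
    refine h.single (i := i) (z := x + cis s) ?_ (by rw [dist_eq_norm]; simp) hxi
    intro k hk
    by_contra hki
    exact hj k hki hk

end Vale.Agent.P032.B
end
end

section

section

/-! Star theory, part 1. -/

namespace Vale.Agent.P032.B

open Set Topology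

variable {F : Fin 5 → Set ℂ}

theorem polar_of {v x : ℂ} (hv : 0 < dist v x) : ∃ φ : ℝ, v = x + (dist v x : ℝ) * cis φ := by
  have h0 : v - x ≠ 0 := by
    rw [dist_eq_norm] at hv; exact norm_pos_iff.1 hv
  have hn : ‖(v - x) / (dist v x : ℝ)‖ = 1 := by
    rw [norm_div, Complex.norm_real, Real.norm_of_nonneg hv.le, ← dist_eq_norm, div_self hv.ne']
  obtain ⟨φ, hφ⟩ := exists_cis hn
  refine ⟨φ, ?_⟩
  rw [← hφ]
  have : ((dist v x : ℝ) : ℂ) ≠ 0 := by exact_mod_cast hv.ne'
  field_simp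
  ring

theorem Star.s1 (h : CC F) {x : ℂ} {p q a b c : Fin 5} (hx : Star F x p q a b c) {K : Set ℂ}
    (hK : IsPreconnected K) (hp : K ⊆ F p) (hq : K ⊆ F q)
    (h2 : ∀ v ∈ K, 0 < dist v x ∧ dist v x < 2) : K.Subsingleton := by
  intro k1 hk1 k2 hk2
  obtain ⟨hr1, hr1'⟩ := h2 k1 hk1
  obtain ⟨hr2, hr2'⟩ := h2 k2 hk2
  obtain ⟨φ, hφ⟩ := polar_of hr1
  obtain ⟨ψ, hψ⟩ := polar_of hr2
  set ρ := dist k1 x with hρ
  set σ := dist k2 x with hσ
  have hg1 : ∀ s, dist (x + cis s) k1 ^ 2 = 1 + ρ ^ 2 - 2 * ρ * Real.cos (s - φ) := by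
    intro s; rw [dist_sq, hφ, dist_cis_sq]
  have hg2 : ∀ s, dist (x + cis s) k2 ^ 2 = 1 + σ ^ 2 - 2 * σ * Real.cos (s - ψ) := by
    intro s; rw [dist_sq, hψ, dist_cis_sq]
  have hcov : ∀ s, x + cis s ∈ F p ∨ x + cis s ∈ F q := fun s => hx.cov _ (by
    rw [dist_eq_norm]; simp)
  have lt1 : ∀ {u v : ℂ}, dist u v ^ 2 < 1 → dist v u < 1 := fun {u v} hlt => by
    rw [dist_comm]; nlinarith only [hlt]
  have gt1 : ∀ {u v : ℂ}, 1 < dist u v ^ 2 → 1 < dist v u := fun {u v} hlt => by
    rw [dist_comm]; nlinarith only [hlt, dist_nonneg (x := u) (y := v)]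
  have key : ∀ t, ρ = 2 * Real.cos (t - φ) → Real.sin (t - φ) ≠ 0 →
      σ = 2 * Real.cos (t - ψ) := by
    intro t ht hsin
    by_contra hne
    set g : ℝ → ℝ := fun s => ρ ^ 2 - 2 * ρ * Real.cos (s - φ) with hg
    have hder : HasDerivAt g (2 * ρ * Real.sin (t - φ)) t := by
      have h1 : HasDerivAt (fun s => Real.cos (s - φ)) (-Real.sin (t - φ)) t :=
        (Real.hasDerivAt_cos (t - φ)).comp_sub_const t φ
      have h3 := (h1.const_mul (2 * ρ)).const_sub (ρ ^ 2)
      refine h3.congr_deriv ?_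
      ring
    have hg0 : g t = 0 := by
      simp only [hg]
      have : Real.cos (t - φ) = ρ / 2 := by linarith only [ht]
      rw [this]; ring
    have hder0 : 2 * ρ * Real.sin (t - φ) ≠ 0 := by (clear * - hr1 hsin; positivity)
    have hG : Continuous fun s : ℝ => σ ^ 2 - 2 * σ * Real.cos (s - ψ) := by fun_prop
    have hGt : σ ^ 2 - 2 * σ * Real.cos (t - ψ) ≠ 0 := by
      intro h0
      apply hne
      have : σ * (σ - 2 * Real.cos (t - ψ)) = 0 := by linarith only [h0]
      rcases mul_eq_zero.1 this with h4 | h4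
      · exact absurd h4 hr2.ne'
      · linarith only [h4]
    rcases lt_or_gt_of_ne hGt with hneg | hpos
    · obtain ⟨s1, s2, hs, -, h5⟩ := sign_change hder hg0 hder0
        (hG.continuousAt.eventually (gt_mem_nhds hneg))
      have h6 := hs s2 right_mem_uIcc
      have d1 : 1 < dist k1 (x + cis s2) := gt1 (by rw [hg1]; simp only [hg] at h5; linarith only [h5])
      have d2 : dist k2 (x + cis s2) < 1 := lt1 (by rw [hg2]; linarith only [h6])
      rcases hcov s2 with h7 | h7
      · exact h.wlemma hK hp hk2 hk1 d2 d1 h7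
      · exact h.wlemma hK hq hk2 hk1 d2 d1 h7
    · obtain ⟨s1, s2, hs, h5, -⟩ := sign_change hder hg0 hder0
        (hG.continuousAt.eventually (lt_mem_nhds hpos))
      have h6 := hs s1 left_mem_uIcc
      have d1 : dist k1 (x + cis s1) < 1 := lt1 (by rw [hg1]; simp only [hg] at h5; linarith only [h5])
      have d2 : 1 < dist k2 (x + cis s1) := gt1 (by rw [hg2]; linarith only [h6])
      rcases hcov s1 with h7 | h7
      · exact h.wlemma hK hp hk1 hk2 d1 d2 h7
      · exact h.wlemma hK hq hk1 hk2 d1 d2 h7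
  set α := Real.arccos (ρ / 2) with hα
  have hcosα : Real.cos α = ρ / 2 := Real.cos_arccos (by linarith only [hr1]) (by linarith only [hr1'])
  have hα0 : 0 < α := Real.arccos_pos.2 (by linarith only [hr1'])
  have hαπ : α < Real.pi := by
    refine lt_of_le_of_ne (Real.arccos_le_pi _) fun h0 => ?_
    rw [h0, Real.cos_pi] at hcosα
    linarith only [hr1, hcosα]
  have hsinα : 0 < Real.sin α := Real.sin_pos_of_pos_of_lt_pi hα0 hαπ
  have k1' := key (φ + α) (by rw [add_sub_cancel_left, hcosα]; ring)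
    (by rw [add_sub_cancel_left]; exact hsinα.ne')
  have k2' := key (φ - α) (by
      have : φ - α - φ = -α := by ring
      rw [this, Real.cos_neg, hcosα]; ring) (by
      have : φ - α - φ = -α := by ring
      rw [this, Real.sin_neg]; linarith only [hsinα])
  have e1 : φ + α - ψ = (φ - ψ) + α := by ring
  have e2 : φ - α - ψ = (φ - ψ) - α := by ring
  rw [e1, Real.cos_add] at k1'
  rw [e2, Real.cos_sub] at k2'
  have hsin0 : Real.sin (φ - ψ) = 0 := by
    have : Real.sin (φ - ψ) * Real.sin α = 0 := by linarith only [k1', k2']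
    rcases mul_eq_zero.1 this with h4 | h4
    · exact h4
    · exact absurd h4 hsinα.ne'
  have hcos1 : Real.cos (φ - ψ) = 1 := by
    rcases Real.sin_eq_zero_iff_cos_eq.1 hsin0 with h4 | h4
    · exact h4
    · rw [hsin0, h4, hcosα] at k1'
      linarith only [hr1, hr2, k1']
  have hcis : cis φ = cis ψ := by
    have : cis (φ - ψ) = 1 := Complex.ext (by rw [cis_re, hcos1]; rfl) (by rw [cis_im, hsin0]; rfl)
    have e3 : φ = (φ - ψ) + ψ := by ring
    rw [e3, cis_add, this, one_mul]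
  have hρσ : σ = ρ := by
    rw [hsin0, hcos1, hcosα] at k1'
    linarith only [k1']
  rw [hφ, hψ, hρσ, hcis]

/-- A whole unit circle is not covered by one colour. -/
theorem CC.circle (h : CC F) (i : Fin 5) (x : ℂ) (hall : ∀ t : ℝ, x + cis t ∈ F i) : False := by
  have hpre : IsPreconnected ((fun t : ℝ => x + cis t) '' univ) :=
    isPreconnected_univ.image _ (continuous_circ1 x).continuousOn
  have hd := h.diam_le hpre (by rintro _ ⟨t, -, rfl⟩; exact hall t)
    (mem_image_of_mem _ (mem_univ (0 : ℝ))) (mem_image_of_mem _ (mem_univ Real.pi))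
  simp only [cis_zero, cis_pi] at hd
  rw [dist_eq_norm] at hd
  have : x + 1 - (x + -1) = (2 : ℂ) := by ring
  rw [this] at hd
  norm_num at hd

theorem Star.s2 (h : CC F) {x : ℂ} {p q a b c : Fin 5} (hx : Star F x p q a b c) :
    ∃ y, dist y x = 1 ∧ y ∈ F p ∧ y ∈ F q := by
  by_contra hcon
  push Not at hcon
  have hd : ∀ t : ℝ, dist (x + cis t) x = 1 := fun t => by rw [dist_eq_norm]; simp
  have hcov : ∀ t : ℝ, x + cis t ∈ F p ∨ x + cis t ∈ F q := fun t => hx.cov _ (hd t)
  have hpre : IsPreconnected (univ : Set ℝ) := isPreconnected_univ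
  rw [isPreconnected_closed_iff] at hpre
  obtain ⟨tp, htp⟩ : ∃ t : ℝ, x + cis t ∈ F p := by
    by_contra hc
    push Not at hc
    exact h.circle q x fun t => (hcov t).resolve_left (hc t)
  obtain ⟨tq, htq⟩ : ∃ t : ℝ, x + cis t ∈ F q := by
    by_contra hc
    push Not at hc
    exact h.circle p x fun t => (hcov t).resolve_right (hc t)
  obtain ⟨t, -, ht⟩ := hpre ((fun t : ℝ => x + cis t) ⁻¹' F p) ((fun t : ℝ => x + cis t) ⁻¹' F q)
    ((h.closed p).preimage (continuous_circ1 x)) ((h.closed q).preimage (continuous_circ1 x))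
    (fun t _ => hcov t) ⟨tp, mem_univ _, htp⟩ ⟨tq, mem_univ _, htq⟩
  exact hcon _ (hd t) ht.1 ht.2

theorem norm_cis_pi_div_three_sub_one : ‖cis (Real.pi / 3) - 1‖ = 1 := by
  have := norm_cis_add_pi_div_three 0
  rwa [zero_add, cis_zero] at this

theorem norm_cis_neg_pi_div_three_sub_one : ‖cis (-(Real.pi / 3)) - 1‖ = 1 := by
  have := norm_cis_add_pi_div_three (-(Real.pi / 3))
  rw [neg_add_cancel, cis_zero, norm_sub_rev] at this
  exact this

/-- rotation by `±60` degrees about the centre of a circle covered by two colours -/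
theorem rot_step (h : CC F) {x : ℂ} {p q : Fin 5} (hcov : ∀ z, dist z x = 1 → z ∈ F p ∨ z ∈ F q)
    {y : ℂ} (hy : dist y x = 1) (hp : y ∈ F p) (hq : y ∈ F q) {ζ : ℂ} (hζ : ‖ζ‖ = 1)
    (hζ1 : ‖ζ - 1‖ = 1) (hζi : ζ.im ≠ 0) : x + ζ * (y - x) ∈ F p ∧ x + ζ * (y - x) ∈ F q := by
  have hn : ‖y - x‖ = 1 := by rw [← dist_eq_norm, hy]
  have hcont : Continuous fun s : ℝ => x + ζ * (y - x) * cis s := continuous_circ x _
  have main : ∀ u v : Fin 5, (∀ z, dist z x = 1 → z ∈ F u ∨ z ∈ F v) → y ∈ F u → y ∈ F v →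
      x + ζ * (y - x) ∈ F v := by
    intro u v hcov hu hv
    by_contra hn'
    have harc : ∀ᶠ s in 𝓝 (0 : ℝ), x + ζ * (y - x) * cis s ∈ F u := by
      have h0 : x + ζ * (y - x) * cis 0 ∉ F v := by rw [cis_zero, mul_one]; exact hn'
      filter_upwards [hcont.continuousAt.eventually ((h.closed v).isOpen_compl.mem_nhds h0)]
        with s hs
      refine (hcov _ ?_).resolve_right hs
      rw [dist_eq_norm, add_sub_cancel_left, norm_mul, norm_mul, norm_cis, hζ, hn]
      norm_num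
    refine h.cross (w' := y - x) ?_ ?_ harc ?_
    · rw [dist_eq_norm]
      have : ζ * (y - x) - (y - x) = (ζ - 1) * (y - x) := by ring
      rw [this, norm_mul, hζ1, hn, one_mul]
    · rw [mul_assoc, Complex.mul_conj, Complex.normSq_eq_norm_sq, hn]
      simpa using hζi
    · rw [cis_zero, mul_one, add_sub_cancel]; exact hu
  exact ⟨main q p (fun z hz => (hcov z hz).symm) hq hp, main p q hcov hp hq⟩

theorem Star.s2rot (h : CC F) {x : ℂ} {p q a b c : Fin 5} (hx : Star F x p q a b c) {y : ℂ}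
    (hy : dist y x = 1) (hp : y ∈ F p) (hq : y ∈ F q) (k : ℤ) :
    x + cis (k * (Real.pi / 3)) * (y - x) ∈ F p ∧ x + cis (k * (Real.pi / 3)) * (y - x) ∈ F q := by
  have hsin : 0 < Real.sin (Real.pi / 3) :=
    Real.sin_pos_of_pos_of_lt_pi (by positivity) (by linarith only [Real.pi_pos])
  have hon : ∀ t : ℝ, dist (x + cis t * (y - x)) x = 1 := by
    intro t
    rw [dist_eq_norm, add_sub_cancel_left, norm_mul, norm_cis, one_mul, ← dist_eq_norm, hy]
  induction k using Int.induction_on with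
  | zero => simpa using ⟨hp, hq⟩
  | succ n ih =>
    have := rot_step h hx.cov (hon _) ih.1 ih.2 (ζ := cis (Real.pi / 3)) (norm_cis _)
      norm_cis_pi_div_three_sub_one (by rw [cis_im]; exact hsin.ne')
    rw [add_sub_cancel_left, ← mul_assoc, ← cis_add] at this
    have e : Real.pi / 3 + (n : ℤ) * (Real.pi / 3) = ((n + 1 : ℤ) : ℝ) * (Real.pi / 3) := by
      push_cast; ring
    rw [e] at this
    exact this
  | pred n ih =>
    have := rot_step h hx.cov (hon _) ih.1 ih.2 (ζ := cis (-(Real.pi / 3))) (norm_cis _)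
      norm_cis_neg_pi_div_three_sub_one (by rw [cis_im, Real.sin_neg]; linarith only [hsin])
    rw [add_sub_cancel_left, ← mul_assoc, ← cis_add] at this
    have e : -(Real.pi / 3) + ((-n : ℤ) : ℝ) * (Real.pi / 3) = ((-n - 1 : ℤ) : ℝ) * (Real.pi / 3) := by
      push_cast; ring
    rw [e] at this
    exact this

theorem normSq_cis_add (a b : ℝ) : ‖cis a + cis b‖ ^ 2 = 2 + 2 * Real.cos (a - b) := by
  have := dist_cis a (b + Real.pi)
  rw [cis_add, cis_pi, mul_neg_one, sub_neg_eq_add] at this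
  rw [this]
  have e : a - (b + Real.pi) = (a - b) - Real.pi := by ring
  rw [e, Real.cos_sub_pi]
  ring

theorem cis_pi_div_three_ne : (1 : ℂ) - cis (Real.pi / 3) = cis (-(Real.pi / 3)) := by
  apply Complex.ext
  · rw [Complex.sub_re, cis_re, cis_re, Real.cos_neg, Real.cos_pi_div_three, Complex.one_re]
    norm_num
  · rw [Complex.sub_im, cis_im, cis_im, Real.sin_neg, Complex.one_im, zero_sub]

theorem Star.s3aux (h : CC F) {x : ℂ} {p q a b c : Fin 5} (hx : Star F x p q a b c) {y : ℂ}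
    (hy : dist y x = 1) (hp : y ∈ F p) (hq : y ∈ F q) (P : ℂ → Prop) {ε : ℝ} (hε : 0 < ε)
    (hcol : ∀ z, dist z y < ε → P z → ∀ k, z ∈ F k → k = p ∨ k = q) {σ : ℝ}
    (hσ : σ = 1 ∨ σ = -1) (harc : ∀ s : ℝ, 0 < s → s < 1 → ∀ z : ℂ,
      dist z x ^ 2 = 2 + 2 * Real.cos (2 * Real.pi / 3 - σ * s) → P z) : False := by
  have hn : ‖y - x‖ = 1 := by rw [← dist_eq_norm, hy]
  have hyx : y - x ≠ 0 := by intro h0; rw [h0, norm_zero] at hn; exact zero_ne_one hn
  have hrot := hx.s2rot h hy hp hq 1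
  rw [Int.cast_one, one_mul] at hrot
  set y1 := x + cis (Real.pi / 3) * (y - x) with hy1
  set z : ℝ → ℂ := fun s => y1 + (y - y1) * cis (σ * s) with hz
  have hyy : y - y1 = (y - x) * cis (-(Real.pi / 3)) := by
    rw [← cis_pi_div_three_ne, hy1]; ring
  have hz1 : ∀ s, dist (z s) y1 = 1 := by
    intro s
    simp only [hz]
    rw [dist_eq_norm, add_sub_cancel_left, hyy, norm_mul, norm_mul, norm_cis, norm_cis, hn]
    norm_num
  have hzx : ∀ s, dist (z s) x ^ 2 = 2 + 2 * Real.cos (2 * Real.pi / 3 - σ * s) := by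
    intro s
    have e : z s - x = (y - x) * (cis (Real.pi / 3) + cis (-(Real.pi / 3) + σ * s)) := by
      simp only [hz]
      rw [hyy, cis_add, hy1]; ring
    rw [dist_eq_norm, e, norm_mul, hn, one_mul, normSq_cis_add]
    congr 2
    congr 1
    ring
  have hzc : Continuous z := by
    simp only [hz]
    exact continuous_const.add (continuous_const.mul (continuous_cis.comp (continuous_const.mul
      continuous_id)))
  have hz0 : z 0 = y := by simp only [hz]; rw [mul_zero, cis_zero, mul_one]; ring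
  have hev : ∀ᶠ s in 𝓝 (0 : ℝ), dist (z s) y < ε ∧ 0 < dist (z s) x ∧ dist (z s) x < 2 := by
    have h1 : ∀ᶠ s in 𝓝 (0 : ℝ), dist (z s) y < ε := by
      have : Continuous fun s => dist (z s) y := hzc.dist continuous_const
      exact this.continuousAt.eventually (gt_mem_nhds (by simp only [hz0, dist_self]; exact hε))
    have hc : Continuous fun s => dist (z s) x := hzc.dist continuous_const
    have h2 : ∀ᶠ s in 𝓝 (0 : ℝ), 0 < dist (z s) x :=
      hc.continuousAt.eventually (lt_mem_nhds (by simp only [hz0, hy]; norm_num))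
    have h3 : ∀ᶠ s in 𝓝 (0 : ℝ), dist (z s) x < 2 :=
      hc.continuousAt.eventually (gt_mem_nhds (by simp only [hz0, hy]; norm_num))
    filter_upwards [h1, h2, h3] with s h1 h2 h3 using ⟨h1, h2, h3⟩
  obtain ⟨δ, hδ, hb⟩ := Metric.eventually_nhds_iff.1 hev
  set s0 := min δ 1 with hs0
  have hs0' : 0 < s0 := by (clear * - hδ; positivity)
  have hmem : ∀ s ∈ Ioo 0 s0, z s ∈ F p ∧ z s ∈ F q ∧ 0 < dist (z s) x ∧ dist (z s) x < 2 := by
    rintro s ⟨h1, h2⟩
    have h3 := hb (y := s) (by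
      rw [Real.dist_eq, sub_zero, abs_of_pos h1]; exact h2.trans_le (min_le_left _ _))
    have hc := hcol (z s) h3.1 (harc s h1 (h2.trans_le (min_le_right _ _)) _ (hzx s))
    refine ⟨?_, ?_, h3.2⟩
    · by_contra hnp
      exact h.single (i := q) (fun j hj => (hc j hj).resolve_left fun e => hnp (e ▸ hj)) (hz1 s)
        hrot.2
    · by_contra hnq
      exact h.single (i := p) (fun j hj => (hc j hj).resolve_right fun e => hnq (e ▸ hj)) (hz1 s)
        hrot.1
  have hsub := hx.s1 h (K := z '' Ioo 0 s0) (isPreconnected_Ioo.image _ hzc.continuousOn)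
    (by rintro _ ⟨s, hs, rfl⟩; exact (hmem s hs).1)
    (by rintro _ ⟨s, hs, rfl⟩; exact (hmem s hs).2.1)
    (by rintro _ ⟨s, hs, rfl⟩; exact (hmem s hs).2.2)
  have he := hsub (mem_image_of_mem _ (show s0 / 3 ∈ Ioo 0 s0 from ⟨by positivity, by linarith only [hs0']⟩))
    (mem_image_of_mem _ (show s0 / 2 ∈ Ioo 0 s0 from ⟨by (clear * - hδ; positivity), by linarith only [hs0']⟩))
  have hne : y - y1 ≠ 0 := by
    rw [hyy]; exact mul_ne_zero hyx (cis_ne_zero _)
  have he' : cis (σ * (s0 / 3)) = cis (σ * (s0 / 2)) := mul_left_cancel₀ hne (add_left_cancel he)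
  have hs01 : s0 ≤ 1 := min_le_right _ _
  have hpi := Real.pi_gt_three
  rcases hσ with rfl | rfl
  · exact cis_ne_of_lt (by linarith only [hs0']) (by linarith only [hs01, hpi]) he'
  · exact cis_ne_of_lt (by linarith only [hs0']) (by linarith only [hs01, hpi]) he'.symm

theorem cos_two_pi_div_three : Real.cos (2 * Real.pi / 3) = -(1 / 2) := by
  have : 2 * Real.pi / 3 = Real.pi - Real.pi / 3 := by ring
  rw [this, Real.cos_pi_sub, Real.cos_pi_div_three]

theorem Star.s3out (h : CC F) {x : ℂ} {p q a b c : Fin 5} (hx : Star F x p q a b c) {y : ℂ}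
    (hy : dist y x = 1) (hp : y ∈ F p) (hq : y ∈ F q) :
    ∃ k, (k = a ∨ k = b ∨ k = c) ∧ ∀ ε > 0, ∃ z ∈ interior (F k), dist z y < ε ∧ 1 < dist z x := by
  by_contra hcon
  push Not at hcon
  obtain ⟨εa, ha, hεa⟩ := hcon a (Or.inl rfl)
  obtain ⟨εb, hb, hεb⟩ := hcon b (Or.inr (Or.inl rfl))
  obtain ⟨εc, hc, hεc⟩ := hcon c (Or.inr (Or.inr rfl))
  have hpi := Real.pi_gt_three
  refine hx.s3aux h hy hp hq (fun z => 1 < dist z x) (ε := min εa (min εb εc))
    (lt_min ha (lt_min hb hc)) ?_ (σ := 1) (Or.inl rfl) ?_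
  · intro z hz h1 k hk
    have hopen : IsOpen {z : ℂ | dist z y < min εa (min εb εc) ∧ 1 < dist z x} :=
      (isOpen_lt (continuous_id.dist continuous_const) continuous_const).inter
        (isOpen_lt continuous_const (continuous_id.dist continuous_const))
    obtain ⟨z', ⟨hz1, hz2⟩, hz'⟩ := mem_closure_iff.1 (h.reg k hk) _ hopen ⟨hz, h1⟩
    rcases exhaust hx.nodup k with rfl | rfl | rfl | rfl | rfl
    · exact Or.inl rfl
    · exact Or.inr rfl
    · exact absurd (hεa z' hz' (hz1.trans_le (min_le_left _ _))) (not_le.2 hz2)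
    · exact absurd (hεb z' hz' (hz1.trans_le ((min_le_right _ _).trans (min_le_left _ _))))
        (not_le.2 hz2)
    · exact absurd (hεc z' hz' (hz1.trans_le ((min_le_right _ _).trans (min_le_right _ _))))
        (not_le.2 hz2)
  · intro s hs0 hs1 z hz
    have : Real.cos (2 * Real.pi / 3) < Real.cos (2 * Real.pi / 3 - 1 * s) :=
      Real.cos_lt_cos_of_nonneg_of_le_pi (by linarith only [hpi, hs1]) (by linarith only [hpi]) (by linarith only [hs0])
    rw [cos_two_pi_div_three] at this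
    nlinarith only [hz, this, dist_nonneg (x := z) (y := x)]

theorem Star.s3in (h : CC F) {x : ℂ} {p q a b c : Fin 5} (hx : Star F x p q a b c) {y : ℂ}
    (hy : dist y x = 1) (hp : y ∈ F p) (hq : y ∈ F q) :
    ∃ k, (k = a ∨ k = b ∨ k = c) ∧ ∀ ε > 0, ∃ z ∈ interior (F k), dist z y < ε ∧ dist z x < 1 := by
  by_contra hcon
  push Not at hcon
  obtain ⟨εa, ha, hεa⟩ := hcon a (Or.inl rfl)
  obtain ⟨εb, hb, hεb⟩ := hcon b (Or.inr (Or.inl rfl))
  obtain ⟨εc, hc, hεc⟩ := hcon c (Or.inr (Or.inr rfl))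
  have hpi := Real.pi_gt_three
  refine hx.s3aux h hy hp hq (fun z => dist z x < 1) (ε := min εa (min εb εc))
    (lt_min ha (lt_min hb hc)) ?_ (σ := -1) (Or.inr rfl) ?_
  · intro z hz h1 k hk
    have hopen : IsOpen {z : ℂ | dist z y < min εa (min εb εc) ∧ dist z x < 1} :=
      (isOpen_lt (continuous_id.dist continuous_const) continuous_const).inter
        (isOpen_lt (continuous_id.dist continuous_const) continuous_const)
    obtain ⟨z', ⟨hz1, hz2⟩, hz'⟩ := mem_closure_iff.1 (h.reg k hk) _ hopen ⟨hz, h1⟩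
    rcases exhaust hx.nodup k with rfl | rfl | rfl | rfl | rfl
    · exact Or.inl rfl
    · exact Or.inr rfl
    · exact absurd (hεa z' hz' (hz1.trans_le (min_le_left _ _))) (not_le.2 hz2)
    · exact absurd (hεb z' hz' (hz1.trans_le ((min_le_right _ _).trans (min_le_left _ _))))
        (not_le.2 hz2)
    · exact absurd (hεc z' hz' (hz1.trans_le ((min_le_right _ _).trans (min_le_right _ _))))
        (not_le.2 hz2)
  · intro s hs0 hs1 z hz
    have : Real.cos (2 * Real.pi / 3 - -1 * s) < Real.cos (2 * Real.pi / 3) :=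
      Real.cos_lt_cos_of_nonneg_of_le_pi (by linarith only [hpi]) (by linarith only [hpi, hs1]) (by linarith only [hs0])
    rw [cos_two_pi_div_three] at this
    nlinarith only [hz, this]

end Vale.Agent.P032.B
end
end

section

section

/-! Isolation of points whose unit circle carries two colours only. -/

namespace Vale.Agent.P032.B

open Set Topology

variable {F : Fin 5 → Set ℂ}

/-- crossing lemma at parameter zero -/
theorem CC.cross0 (h : CC F) {i : Fin 5} {o P v : ℂ} (hd : dist P v = 1)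
    (him : ((P - o) * (starRingEnd ℂ) (v - o)).im ≠ 0)
    (harc : ∀ᶠ s in 𝓝 (0 : ℝ), o + (P - o) * cis s ∈ F i) : v ∉ F i := by
  have := h.cross (x := o) (w := P - o) (w' := v - o) (t := 0)
    (by rw [dist_eq_norm] at hd ⊢; rw [← hd]; congr 1; ring) him harc
  simpa using this

theorem im_ne {a b : ℂ} (h1 : ‖a‖ = 1) (h2 : ‖a - b‖ = 1) (h3 : b ≠ 0) (h4 : ‖b‖ < 2) :
    (a * (starRingEnd ℂ) b).im ≠ 0 := by
  intro h0
  have e1 : a.re ^ 2 + a.im ^ 2 = 1 := by
    have := Complex.normSq_eq_norm_sq a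
    rw [h1, Complex.normSq_apply] at this
    linarith
  have e2 : (a.re - b.re) ^ 2 + (a.im - b.im) ^ 2 = 1 := by
    have := Complex.normSq_eq_norm_sq (a - b)
    rw [h2, Complex.normSq_apply] at this
    simp only [Complex.sub_re, Complex.sub_im] at this
    linarith only [this]
  have e3 : b.re ^ 2 + b.im ^ 2 < 4 := by
    have := Complex.normSq_eq_norm_sq b
    rw [Complex.normSq_apply] at this
    nlinarith only [h4, this, norm_nonneg b]
  have e4 : 0 < b.re ^ 2 + b.im ^ 2 := by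
    have := Complex.normSq_pos.2 h3
    rw [Complex.normSq_apply] at this
    linarith
  simp only [Complex.mul_im, Complex.conj_re, Complex.conj_im] at h0
  -- re^2 + im^2 = |a|^2 |b|^2
  have e5 : 2 * (a.re * b.re + a.im * b.im) = b.re ^ 2 + b.im ^ 2 := by linarith only [e1, e2]
  have e6 : (a.re * b.re + a.im * b.im) ^ 2 = b.re ^ 2 + b.im ^ 2 := by
    have : (a.re * b.re + a.im * b.im) ^ 2
        = (a.re ^ 2 + a.im ^ 2) * (b.re ^ 2 + b.im ^ 2) - (a.re * -b.im + a.im * b.re) ^ 2 := by ring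
    rw [this, h0, e1]; ring
  nlinarith only [e1, e2, e6, e3, e4]

theorem arc_of_not (h : CC F) {x P : ℂ} {p q : Fin 5}
    (hcov : ∀ z, dist z x = 1 → z ∈ F p ∨ z ∈ F q) (hP : dist P x = 1) (hq : P ∉ F q) :
    ∀ᶠ s in 𝓝 (0 : ℝ), x + (P - x) * cis s ∈ F p := by
  have hc : Continuous (fun s : ℝ => x + (P - x) * cis s) := continuous_circ x (P - x)
  have h0 : (F q)ᶜ ∈ 𝓝 ((fun s : ℝ => x + (P - x) * cis s) 0) := by
    refine (h.closed q).isOpen_compl.mem_nhds ?_
    simpa using hq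
  filter_upwards [hc.continuousAt.preimage_mem_nhds h0] with s hs
  rcases hcov (x + (P - x) * cis s) (by
    rw [dist_eq_norm] at hP ⊢
    simp [hP]) with h1 | h1
  · exact h1
  · exact absurd h1 hs

/-- two step chain between the circles about `x` and `x'`. -/
theorem chain (h : CC F) {x x' : ℂ} {p q : Fin 5}
    (hcov : ∀ z, dist z x = 1 → z ∈ F p ∨ z ∈ F q)
    (hcov' : ∀ z, dist z x' = 1 → z ∈ F p ∨ z ∈ F q) {q1 v y2 : ℂ} (hv : dist v x = 1)
    (hvq : v ∉ F q) (h1 : dist v q1 = 1) (h2 : dist q1 x' = 1) (h3 : dist q1 y2 = 1)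
    (him1 : ((v - x) * (starRingEnd ℂ) (q1 - x)).im ≠ 0)
    (him2 : ((q1 - x') * (starRingEnd ℂ) (y2 - x')).im ≠ 0) : y2 ∉ F q := by
  have e1 : q1 ∉ F p := h.cross0 h1 him1 (arc_of_not h hcov hv hvq)
  have e2 : ∀ᶠ s in 𝓝 (0 : ℝ), x' + (q1 - x') * cis s ∈ F q :=
    arc_of_not h (fun z hz => (hcov' z hz).symm) h2 e1
  exact h.cross0 h3 him2 e2

theorem cis_sub_conj (a b : ℝ) : cis a * (starRingEnd ℂ) (cis b) = cis (a - b) := by
  apply Complex.ext <;>
  simp only [Complex.mul_re, Complex.mul_im, Complex.conj_re, Complex.conj_im, cis_re, cis_im,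
    Real.cos_sub, Real.sin_sub] <;> ring

theorem cis_add_cis_third (a : ℝ) : cis (a + 2 * Real.pi / 3) + cis a = cis (a + Real.pi / 3) := by
  have h1 : Real.cos (2 * Real.pi / 3) = - (1 / 2) := by
    have : 2 * Real.pi / 3 = Real.pi - Real.pi / 3 := by ring
    rw [this, Real.cos_pi_sub, Real.cos_pi_div_three]
  have h2 : Real.sin (2 * Real.pi / 3) = Real.sqrt 3 / 2 := by
    have : 2 * Real.pi / 3 = Real.pi - Real.pi / 3 := by ring
    rw [this, Real.sin_pi_sub, Real.sin_pi_div_three]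
  apply Complex.ext
  · simp only [Complex.add_re, cis_re, Real.cos_add, h1, h2, Real.cos_pi_div_three,
      Real.sin_pi_div_three]
    ring
  · simp only [Complex.add_im, cis_im, Real.sin_add, h1, h2, Real.cos_pi_div_three,
      Real.sin_pi_div_three]
    ring

/-- the complement of `F q` on the circle is invariant under rotation by 120 degrees. -/
theorem rot120 (h : CC F) {x : ℂ} {p q : Fin 5}
    (hcov : ∀ z, dist z x = 1 → z ∈ F p ∨ z ∈ F q) {t : ℝ} (ht : x + cis t ∉ F q) :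
    x + cis (t + 2 * Real.pi / 3) ∉ F q := by
  have hpi := Real.pi_pos
  refine chain h hcov hcov (v := x + cis t) (q1 := x + cis (t + Real.pi / 3)) ?_ ht ?_ ?_ ?_ ?_ ?_
  · simp [dist_eq_norm]
  · rw [dist_comm, dist_eq_norm, add_sub_add_left_eq_sub]
    exact norm_cis_add_pi_div_three t
  · simp [dist_eq_norm]
  · rw [dist_comm, dist_eq_norm, add_sub_add_left_eq_sub]
    have := norm_cis_add_pi_div_three (t + Real.pi / 3)
    rwa [show t + Real.pi / 3 + Real.pi / 3 = t + 2 * Real.pi / 3 by ring] at this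
  · rw [add_sub_cancel_left, add_sub_cancel_left, cis_sub_conj, cis_im]
    rw [show t - (t + Real.pi / 3) = -(Real.pi / 3) by ring, Real.sin_neg,
      Real.sin_pi_div_three]
    have : 0 < Real.sqrt 3 := Real.sqrt_pos.2 (by norm_num)
    linarith only [this]
  · rw [add_sub_cancel_left, add_sub_cancel_left, cis_sub_conj, cis_im]
    rw [show t + Real.pi / 3 - (t + 2 * Real.pi / 3) = -(Real.pi / 3) by ring, Real.sin_neg,
      Real.sin_pi_div_three]
    have : 0 < Real.sqrt 3 := Real.sqrt_pos.2 (by norm_num)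
    linarith

theorem circle_preconnected (x : ℂ) : IsPreconnected (range fun s : ℝ => x + cis s) := by
  rw [← image_univ]
  exact isPreconnected_univ.image _ (continuous_circ1 x).continuousOn

theorem exists_not_mem (h : CC F) (x : ℂ) (q : Fin 5) : ∃ t : ℝ, x + cis t ∉ F q := by
  by_contra hcon
  push Not at hcon
  have hsub : (range fun s : ℝ => x + cis s) ⊆ F q := by
    rintro _ ⟨s, rfl⟩; exact hcon s
  have := h.diam_le (circle_preconnected x) hsub (a := x + cis 0) (b := x + cis Real.pi)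
    (mem_range_self (f := fun s : ℝ => x + cis s) 0)
    (mem_range_self (f := fun s : ℝ => x + cis s) Real.pi)
  rw [dist_eq_norm] at this
  simp only [cis_zero, cis_pi, add_sub_add_left_eq_sub] at this
  norm_num at this

/-- first entrance: a boundary parameter. -/
theorem exists_entrance (h : CC F) (x : ℂ) (q : Fin 5) {t0 t1 : ℝ} (h0 : x + cis t0 ∉ F q)
    (h1 : x + cis t1 ∈ F q) (h01 : t0 ≤ t1) :
    ∃ β, t0 < β ∧ x + cis β ∈ F q ∧ ∀ s, t0 ≤ s → s < β → x + cis s ∉ F q := by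
  set A : Set ℝ := {t | t0 ≤ t ∧ x + cis t ∈ F q} with hA
  have hAc : IsClosed A := isClosed_Ici.inter ((h.closed q).preimage (continuous_circ1 x))
  have hAn : A.Nonempty := ⟨t1, h01, h1⟩
  have hAb : BddBelow A := ⟨t0, fun t ht => ht.1⟩
  have hm := hAc.csInf_mem hAn hAb
  refine ⟨sInf A, lt_of_le_of_ne hm.1 ?_, hm.2, ?_⟩
  · intro he
    rw [← he] at hm
    exact h0 hm.2
  · intro s hs hs' hF
    exact not_lt.2 (csInf_le hAb ⟨hs, hF⟩) hs'

/-- Isolation, in the form: two colours on the circles about `x` and about `x'`. -/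
theorem isolation (h : CC F) {x : ℂ} {p q : Fin 5}
    (hcov : ∀ z, dist z x = 1 → z ∈ F p ∨ z ∈ F q) :
    ∃ r > 0, ∀ x', dist x' x < r → x' ≠ x → ∃ z, dist z x' = 1 ∧ z ∉ F p ∧ z ∉ F q := by
  have hpi := Real.pi_pos
  obtain ⟨t0, ht0⟩ := exists_not_mem h x q
  obtain ⟨t1, ht1⟩ := exists_not_mem h x p
  have ht1q : x + cis t1 ∈ F q := by
    rcases hcov (x + cis t1) (by simp [dist_eq_norm]) with h1 | h1
    · exact absurd h1 ht1
    · exact h1
  obtain ⟨β, hβ0, hβq, hβ⟩ : ∃ β, t0 < β ∧ x + cis β ∈ F q ∧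
      ∀ s, t0 ≤ s → s < β → x + cis s ∉ F q := by
    obtain ⟨n, hn⟩ := exists_nat_ge ((t0 - t1) / (2 * Real.pi))
    have h1 : t0 ≤ t1 + n * (2 * Real.pi) := by
      rw [div_le_iff₀ (by linarith only [hpi])] at hn
      linarith
    refine exists_entrance h x q ht0 (t1 := t1 + n * (2 * Real.pi)) ?_ h1
    have : cis (t1 + n * (2 * Real.pi)) = cis t1 := by
      apply Complex.ext
      · rw [cis_re, cis_re, Real.cos_add_nat_mul_two_pi]
      · rw [cis_im, cis_im, Real.sin_add_nat_mul_two_pi]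
    rw [this]; exact ht1q
  set s0 := min ((β - t0) / 2) (Real.pi / 6) with hs0
  have hs0pos : 0 < s0 := lt_min (by linarith only [hβ0]) (by linarith only [hpi])
  have hs01 : s0 ≤ (β - t0) / 2 := min_le_left _ _
  have hs02 : s0 ≤ Real.pi / 6 := min_le_right _ _
  have hnot : ∀ s, 0 < s → s ≤ s0 → x + cis (β - s) ∉ F q := fun s hs hs' =>
    hβ _ (by linarith only [hs0pos, hs01, hs']) (by linarith only [hs])
  have hnot' : ∀ (k : ℕ) (s : ℝ), 0 < s → s ≤ s0 → x + cis (β + k * (2 * Real.pi / 3) - s) ∉ F q := by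
    intro k s hs hs'
    induction k with
    | zero => simpa only [CharP.cast_eq_zero, zero_mul, add_zero] using hnot s hs hs'
    | succ k ih =>
      have := rot120 h hcov ih
      convert this using 4
      push_cast
      ring
  have hin : ∀ k : ℕ, x + cis (β + k * (2 * Real.pi / 3)) ∈ F q := by
    have h3 : ∀ t, x + cis t ∈ F q → x + cis (t + 2 * Real.pi / 3) ∈ F q := by
      intro t ht
      by_contra hcon
      have h4 := rot120 h hcov (rot120 h hcov hcon)
      apply h4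
      have : cis (t + 2 * Real.pi / 3 + 2 * Real.pi / 3 + 2 * Real.pi / 3) = cis t := by
        rw [show t + 2 * Real.pi / 3 + 2 * Real.pi / 3 + 2 * Real.pi / 3 = t + 2 * Real.pi by ring]
        apply Complex.ext
        · rw [cis_re, cis_re, Real.cos_add_two_pi]
        · rw [cis_im, cis_im, Real.sin_add_two_pi]
      rw [this]; exact ht
    intro k
    induction k with
    | zero => simpa only [CharP.cast_eq_zero, zero_mul, add_zero] using hβq
    | succ k ih =>
      have := h3 _ ih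
      convert this using 3
      push_cast
      ring
  have hcos : Real.cos (Real.pi / 3 + s0 / 2) < 1 / 2 := by
    rw [← Real.cos_pi_div_three]
    exact Real.cos_lt_cos_of_nonneg_of_le_pi (by linarith only [hs0pos, hs02]) (by linarith only [hs0pos, hs02]) (by linarith only [hs0pos])
  have hcos0 : 0 ≤ Real.cos (Real.pi / 3 + s0 / 2) :=
    Real.cos_nonneg_of_neg_pi_div_two_le_of_le (by linarith only [hs0pos, hs02]) (by linarith only [hs0pos, hs02])
  refine ⟨1 - 2 * Real.cos (Real.pi / 3 + s0 / 2), by linarith only [hcos], ?_⟩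
  intro x' hx' hne
  by_contra hcon
  push Not at hcon
  have hcov' : ∀ z, dist z x' = 1 → z ∈ F p ∨ z ∈ F q := by
    intro z hz
    by_cases hp : z ∈ F p
    · exact Or.inl hp
    · exact Or.inr (hcon z hz hp)
  set d := x' - x with hd
  have hd0 : d ≠ 0 := sub_ne_zero.2 hne
  have hdn : ‖d‖ < 1 - 2 * Real.cos (Real.pi / 3 + s0 / 2) := by
    rw [hd, ← dist_eq_norm]; exact hx'
  -- choice of k
  obtain ⟨k, hk⟩ : ∃ k : ℕ, (cis (β + k * (2 * Real.pi / 3) + Real.pi / 3) * (starRingEnd ℂ) d).re ≤ 0 := by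
    by_contra hall
    push Not at hall
    have h0 := hall 0
    have h1 := hall 1
    have h2 := hall 2
    have hsum : cis (β + (0 : ℕ) * (2 * Real.pi / 3) + Real.pi / 3)
        + cis (β + (1 : ℕ) * (2 * Real.pi / 3) + Real.pi / 3)
        + cis (β + (2 : ℕ) * (2 * Real.pi / 3) + Real.pi / 3) = 0 := by
      have e1 := cis_add_cis_third (β + Real.pi / 3)
      have e2 : cis (β + (2 : ℕ) * (2 * Real.pi / 3) + Real.pi / 3)
          = - cis (β + Real.pi / 3 + Real.pi / 3) := by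
        rw [show β + (2 : ℕ) * (2 * Real.pi / 3) + Real.pi / 3
          = β + Real.pi / 3 + Real.pi / 3 + Real.pi by push_cast; ring, cis_add _ Real.pi, cis_pi]
        ring
      have e3 : cis (β + (0 : ℕ) * (2 * Real.pi / 3) + Real.pi / 3) = cis (β + Real.pi / 3) := by
        congr 1; push_cast; ring
      have e4 : cis (β + (1 : ℕ) * (2 * Real.pi / 3) + Real.pi / 3)
          = cis (β + Real.pi / 3 + 2 * Real.pi / 3) := by
        congr 1; push_cast; ring
      rw [e2, e3, e4, ← e1]; ring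
    have h5 : (((cis (β + (0 : ℕ) * (2 * Real.pi / 3) + Real.pi / 3)
        + cis (β + (1 : ℕ) * (2 * Real.pi / 3) + Real.pi / 3)
        + cis (β + (2 : ℕ) * (2 * Real.pi / 3) + Real.pi / 3))) * (starRingEnd ℂ) d).re = 0 := by
      rw [hsum]; simp
    rw [add_mul, add_mul, Complex.add_re, Complex.add_re] at h5
    linarith only [h0, h1, h2, h5]
  set b := β + k * (2 * Real.pi / 3) with hb
  set f : ℝ → ℝ := fun s => ‖cis (b + 2 * Real.pi / 3) + cis (b - s) - d‖ with hf
  have hfc : Continuous f := by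
    rw [hf]
    have : Continuous fun s : ℝ => cis (b - s) := continuous_cis.comp (continuous_const.sub continuous_id)
    exact ((continuous_const.add this).sub continuous_const).norm
  have hf0 : 1 < f 0 := by
    have e1 : f 0 = ‖cis (b + Real.pi / 3) - d‖ := by
      simp only [hf, sub_zero]
      rw [cis_add_cis_third]
    rw [e1]
    have e2 : ‖cis (b + Real.pi / 3) - d‖ ^ 2 = 1 - 2 * (cis (b + Real.pi / 3) * (starRingEnd ℂ) d).re
        + ‖d‖ ^ 2 := by
      rw [← Complex.normSq_eq_norm_sq, ← Complex.normSq_eq_norm_sq, Complex.normSq_sub,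
        Complex.normSq_eq_norm_sq (cis _), norm_cis]
      ring
    have e3 : 0 < ‖d‖ := norm_pos_iff.2 hd0
    nlinarith only [hk, e2, e3, norm_nonneg (cis (b + Real.pi / 3) - d)]
  have hf1 : f s0 < 1 := by
    have e1 : ‖cis (b + 2 * Real.pi / 3) + cis (b - s0)‖ = 2 * Real.cos (Real.pi / 3 + s0 / 2) := by
      have e2 : cis (b + 2 * Real.pi / 3) + cis (b - s0)
          = ((2 * Real.cos (Real.pi / 3 + s0 / 2) : ℝ) : ℂ) * cis (b + Real.pi / 3 - s0 / 2) := by
        have a1 : b + 2 * Real.pi / 3 = (b + Real.pi / 3 - s0 / 2) + (Real.pi / 3 + s0 / 2) := by ring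
        have a2 : b - s0 = (b + Real.pi / 3 - s0 / 2) - (Real.pi / 3 + s0 / 2) := by ring
        rw [a1, a2]
        apply Complex.ext
        · simp only [Complex.add_re, Complex.mul_re, cis_re, cis_im, Complex.ofReal_re,
            Complex.ofReal_im, Real.cos_add, Real.cos_sub, Real.sin_add, Real.sin_sub]
          ring_nf
        · simp only [Complex.add_im, Complex.mul_im, cis_re, cis_im, Complex.ofReal_re,
            Complex.ofReal_im, Real.cos_add, Real.cos_sub, Real.sin_add, Real.sin_sub]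
          ring_nf
      rw [e2, norm_mul, norm_cis, mul_one, Complex.norm_real, Real.norm_eq_abs,
        abs_of_nonneg (by linarith only [hcos0])]
    have e3 : f s0 ≤ ‖cis (b + 2 * Real.pi / 3) + cis (b - s0)‖ + ‖d‖ := norm_sub_le _ _
    rw [e1] at e3
    linarith only [hdn, e3]
  obtain ⟨s, hs, hfs⟩ : (1 : ℝ) ∈ f '' Icc 0 s0 :=
    intermediate_value_Icc' hs0pos.le hfc.continuousOn ⟨hf1.le, hf0.le⟩
  have hspos : 0 < s := by
    rcases hs.1.lt_or_eq with h1 | h1
    · exact h1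
    · rw [← h1] at hfs; linarith only [hf0, hfs]
  have hss : s ≤ s0 := hs.2
  refine chain h hcov hcov' (v := x + cis (b - s))
    (q1 := x + cis (b + 2 * Real.pi / 3) + cis (b - s)) (y2 := x + cis (b + 2 * Real.pi / 3))
    ?_ (hnot' k s hspos hss) ?_ ?_ ?_ ?_ ?_ ?_
  · simp [dist_eq_norm]
  · rw [dist_comm, dist_eq_norm]
    have : x + cis (b + 2 * Real.pi / 3) + cis (b - s) - (x + cis (b - s))
      = cis (b + 2 * Real.pi / 3) := by ring
    rw [this, norm_cis]
  · rw [dist_eq_norm]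
    have : x + cis (b + 2 * Real.pi / 3) + cis (b - s) - x'
      = cis (b + 2 * Real.pi / 3) + cis (b - s) - d := by rw [hd]; ring
    rw [this]; exact hfs
  · rw [dist_eq_norm]
    have : x + cis (b + 2 * Real.pi / 3) + cis (b - s) - (x + cis (b + 2 * Real.pi / 3))
      = cis (b - s) := by ring
    rw [this, norm_cis]
  · have e1 : x + cis (b + 2 * Real.pi / 3) + cis (b - s) - x
        = cis (b + 2 * Real.pi / 3) + cis (b - s) := by ring
    rw [e1, add_sub_cancel_left, map_add, mul_add, cis_sub_conj, cis_sub_conj, Complex.add_im,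
      cis_im, cis_im]
    rw [show b - s - (b + 2 * Real.pi / 3) = -(s + 2 * Real.pi / 3) by ring, sub_self,
      Real.sin_zero, Real.sin_neg]
    have : 0 < Real.sin (s + 2 * Real.pi / 3) :=
      Real.sin_pos_of_pos_of_lt_pi (by linarith only [hs0pos, hs02, hspos]) (by linarith only [hs0pos, hs02, hss])
    linarith only [this]
  · refine im_ne ?_ ?_ ?_ ?_
    · have : x + cis (b + 2 * Real.pi / 3) + cis (b - s) - x'
        = cis (b + 2 * Real.pi / 3) + cis (b - s) - d := by rw [hd]; ring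
      rw [this]; exact hfs
    · have : x + cis (b + 2 * Real.pi / 3) + cis (b - s) - x' - (x + cis (b + 2 * Real.pi / 3) - x')
        = cis (b - s) := by ring
      rw [this, norm_cis]
    · intro h0
      have e1 : cis (b + 2 * Real.pi / 3) = d := by rw [hd]; linear_combination h0
      have e2 : ‖d‖ = 1 := by rw [← e1, norm_cis]
      linarith only [hcos0, hdn, e2]
    · have e1 : x + cis (b + 2 * Real.pi / 3) - x' = cis (b + 2 * Real.pi / 3) - d := by
        rw [hd]; ring
      rw [e1]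
      have := norm_sub_le (cis (b + 2 * Real.pi / 3)) d
      rw [norm_cis] at this
      linarith only [hcos0, hdn, this]
  · have h1 := hin (k + 1)
    have e1 : β + ((k + 1 : ℕ) : ℝ) * (2 * Real.pi / 3) = b + 2 * Real.pi / 3 := by
      rw [hb]; push_cast; ring
    rwa [e1] at h1

theorem Star.s4 (h : CC F) {x : ℂ} {p q a b c : Fin 5} (hx : Star F x p q a b c) :
    ∃ r > 0, ∀ x', dist x' x < r → x' ≠ x → ∃ z, dist z x' = 1 ∧ z ∉ F p ∧ z ∉ F q :=
  isolation h hx.cov

/-- BETA points: a point with exactly three colours which is not a centre. -/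
structure Beta (F : Fin 5 → Set ℂ) (x : ℂ) (p q a b c : Fin 5) : Prop where
  nodup : [p, q, a, b, c].Nodup
  hp : x ∉ F p
  hq : x ∉ F q
  ha : x ∈ F a
  hb : x ∈ F b
  hc : x ∈ F c
  nc : ¬ Arc F x a b ∧ ¬ Arc F x a c ∧ ¬ Arc F x b c

end Vale.Agent.P032.B
end
end

section

section

/-! Chords and BETA points. -/

namespace Vale.Agent.P032.B

open Set Topology

variable {F : Fin 5 → Set ℂ}

theorem all_of_nodup {p q a b c : Fin 5} (hn : [p, q, a, b, c].Nodup) (i : Fin 5) :
    i = p ∨ i = q ∨ i = a ∨ i = b ∨ i = c := by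
  have h1 : [p, q, a, b, c].toFinset = Finset.univ :=
    Finset.eq_univ_of_card _ (by rw [List.toFinset_card_of_nodup hn]; rfl)
  have h2 : i ∈ [p, q, a, b, c].toFinset := by rw [h1]; exact Finset.mem_univ i
  simpa only [List.toFinset_cons, List.toFinset_nil, insert_empty_eq, Finset.mem_insert,     Finset.mem_singleton] using h2

/-- Point of the circle about `y` through `x`, at angle `s` from `x`. -/
noncomputable def ch (x y : ℂ) (s : ℝ) : ℂ := y + (x - y) * cis s

@[simp] theorem ch_zero (x y : ℂ) : ch x y 0 = x := by simp [ch]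

theorem ch_cont (x y : ℂ) : Continuous (ch x y) := continuous_circ y (x - y)

theorem ch_dist {x y : ℂ} (h : dist y x = 1) (s : ℝ) : dist (ch x y s) y = 1 := by
  rw [dist_comm, dist_eq_norm] at h
  rw [dist_eq_norm, ch]
  simp [h]

theorem cis_inj {s t : ℝ} (h : |s - t| < 2 * Real.pi) (he : cis s = cis t) : s = t := by
  have h1 : Real.cos (s - t) = 1 := by
    have h2 := dist_cis s t
    rw [he, sub_self, norm_zero] at h2
    linarith only [h2]
  rw [abs_lt] at h
  have := (Real.cos_eq_one_iff_of_lt_of_lt h.1 h.2).1 h1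
  linarith only [this]

theorem ch_inj {x y : ℂ} (h : dist y x = 1) {s t : ℝ} (hs : |s - t| < 2 * Real.pi)
    (he : ch x y s = ch x y t) : s = t := by
  apply cis_inj hs
  have hne : x - y ≠ 0 := by
    rw [dist_comm, dist_eq_norm] at h
    intro h0; rw [h0] at h; norm_num at h
  unfold ch at he
  exact mul_left_cancel₀ hne (add_left_cancel he)

theorem ch_small (x y : ℂ) {r : ℝ} (hr : 0 < r) :
    ∃ ε > 0, ε ≤ 1 ∧ ∀ s, |s| < ε → dist (ch x y s) x < r := by
  have h1 := (ch_cont x y).continuousAt (x := 0)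
  rw [Metric.continuousAt_iff] at h1
  obtain ⟨ε, hε, h2⟩ := h1 r hr
  refine ⟨min ε 1, lt_min hε one_pos, min_le_right _ _, fun s hs => ?_⟩
  have := h2 (x := s) (by rw [Real.dist_eq, sub_zero]; exact hs.trans_le (min_le_left _ _))
  simpa using this

theorem ch_surj {x y : ℂ} (h : dist y x = 1) {ε : ℝ} (hε : 0 < ε) :
    ∃ δ > 0, ∀ z, dist z y = 1 → dist z x < δ → ∃ s, |s| < ε ∧ z = ch x y s := by
  have hne : x - y ≠ 0 := by
    rw [dist_comm, dist_eq_norm] at h
    intro h0; rw [h0] at h; norm_num at h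
  have hn : ‖x - y‖ = 1 := by rw [← dist_eq_norm, dist_comm]; exact h
  have h1 : ContinuousAt Complex.arg 1 := Complex.continuousAt_arg Complex.one_mem_slitPlane
  rw [Metric.continuousAt_iff] at h1
  obtain ⟨δ, hδ, h2⟩ := h1 ε hε
  refine ⟨δ, hδ, fun z hz hzx => ⟨Complex.arg ((z - y) / (x - y)), ?_, ?_⟩⟩
  · have h3 : dist ((z - y) / (x - y)) 1 < δ := by
      rw [dist_eq_norm]
      have : (z - y) / (x - y) - 1 = (z - x) / (x - y) := by field_simp; ring
      rw [this, norm_div, hn, div_one, ← dist_eq_norm]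
      exact hzx
    have := h2 h3
    simpa [Real.dist_eq] using this
  · have h4 : ‖(z - y) / (x - y)‖ = 1 := by
      rw [norm_div, hn, div_one, ← dist_eq_norm, hz]
    have h5 := Complex.norm_mul_exp_arg_mul_I ((z - y) / (x - y))
    rw [h4] at h5
    have h6 : cis (Complex.arg ((z - y) / (x - y))) = (z - y) / (x - y) := by
      rw [Complex.ofReal_one, one_mul] at h5
      exact h5
    unfold ch
    rw [h6]
    field_simp
    ring

/-- crossing lemma along a chord -/
theorem CC.crossCh (h : CC F) {i : Fin 5} {x y v : ℂ} {s0 : ℝ} (hd : dist (ch x y s0) v = 1)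
    (him : ((ch x y s0 - y) * (starRingEnd ℂ) (v - y)).im ≠ 0)
    (harc : ∀ᶠ s in 𝓝 s0, ch x y s ∈ F i) : v ∉ F i := by
  refine h.cross0 (o := y) (P := ch x y s0) hd him ?_
  have h1 : Filter.Tendsto (fun s : ℝ => s0 + s) (𝓝 0) (𝓝 s0) := by
    have : Continuous fun s : ℝ => s0 + s := by fun_prop
    simpa only [add_zero] using this.tendsto 0
  filter_upwards [h1.eventually harc] with s hs
  have : y + (ch x y s0 - y) * cis s = ch x y (s0 + s) := by
    unfold ch
    rw [cis_add]; ring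
  rw [this]; exact hs

/-- A chord through `x` in colour `i` excludes `i` from the unit circle about `x`, except at the
two points `y` and `2x-y`. -/
theorem CC.chordKill (h : CC F) {i : Fin 5} {x y u : ℂ} (hy : dist y x = 1)
    (harc : ∀ᶠ s in 𝓝 (0 : ℝ), ch x y s ∈ F i) (hu : dist u x = 1) (h1 : u ≠ y)
    (h2 : u - x ≠ -(y - x)) : u ∉ F i := by
  refine h.crossCh (x := x) (y := y) (s0 := 0) (by simpa [dist_comm] using hu) ?_ harc
  rw [ch_zero]
  refine im_ne (by rw [← dist_eq_norm, dist_comm]; exact hy) ?_ (sub_ne_zero.2 h1) ?_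
  · have : x - y - (u - y) = x - u := by ring
    rw [this, ← dist_eq_norm, dist_comm]; exact hu
  · have e1 : u - y = (u - x) - (y - x) := by ring
    have n1 : ‖u - x‖ = 1 := by rw [← dist_eq_norm]; exact hu
    have n2 : ‖y - x‖ = 1 := by rw [← dist_eq_norm]; exact hy
    have h3 : ‖(u - x) - (y - x)‖ ≤ 2 := by
      have := norm_sub_le (u - x) (y - x)
      linarith only [n1, n2, this]
    rw [e1]
    refine lt_of_le_of_ne h3 ?_
    intro h4
    apply h2
    -- parallelogram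
    have h5 := parallelogram_law_with_norm ℝ (u - x) (y - x)
    rw [h4, n1, n2] at h5
    have h6 : ‖(u - x) + (y - x)‖ = 0 := by nlinarith only [h5]
    have h7 := norm_eq_zero.1 h6
    linear_combination h7

theorem arc_symm {x : ℂ} {i j : Fin 5} (h : Arc F x i j) : Arc F x j i := by
  obtain ⟨t, ht⟩ := h
  exact ⟨t, ht.mono fun s hs => hs.symm⟩

theorem Beta.star (h : CC F) {x : ℂ} {p q a b c : Fin 5} (hx : Beta F x p q a b c) :
    Star F x p q a b c := by
  refine ⟨hx.nodup, ?_, hx.hq, hx.ha, hx.hb, hx.hc⟩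
  intro z hz
  obtain ⟨i, hxi, hzi⟩ := h.escape (x := x) (by
    intro i j hij hi hj harc
    obtain ⟨n1, n2, n3⟩ := hx.nc
    rcases all_of_nodup hx.nodup i with rfl | rfl | rfl | rfl | rfl <;>
    rcases all_of_nodup hx.nodup j with rfl | rfl | rfl | rfl | rfl <;>
    first
      | exact hx.hp hi
      | exact hx.hq hi
      | exact hx.hp hj
      | exact hx.hq hj
      | exact hij rfl
      | exact n1 harc
      | exact n2 harc
      | exact n3 harc
      | exact n1 (arc_symm harc)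
      | exact n2 (arc_symm harc)
      | exact n3 (arc_symm harc)) hz
  rcases all_of_nodup hx.nodup i with rfl | rfl | rfl | rfl | rfl
  · exact Or.inl hzi
  · exact Or.inr hzi
  · exact absurd hx.ha hxi
  · exact absurd hx.hb hxi
  · exact absurd hx.hc hxi

theorem adj_dist {x y : ℂ} (hy : dist y x = 1) : dist (x + cis (Real.pi / 3) * (y - x)) y = 1 := by
  rw [dist_eq_norm] at hy ⊢
  have e1 : x + cis (Real.pi / 3) * (y - x) - y = (cis (Real.pi / 3) - 1) * (y - x) := by ring
  have e2 := norm_cis_add_pi_div_three 0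
  rw [zero_add, cis_zero] at e2
  rw [e1, norm_mul, e2, hy, one_mul]

theorem cis_third_sub_one : cis (Real.pi / 3) - 1 = - cis (-(Real.pi / 3)) := by
  apply Complex.ext
  · simp only [Complex.sub_re, Complex.neg_re, cis_re, Real.cos_neg, Real.cos_pi_div_three,
      Complex.one_re]
    norm_num
  · simp only [Complex.sub_im, Complex.neg_im, cis_im, Real.sin_neg, Complex.one_im]
    ring

theorem adj_eq (x y : ℂ) :
    x + cis (Real.pi / 3) * (y - x) = y + cis (-(Real.pi / 3)) * (x - y) := by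
  have h1 := cis_third_sub_one
  have : x + cis (Real.pi / 3) * (y - x) - (y + cis (-(Real.pi / 3)) * (x - y))
      = (cis (Real.pi / 3) - 1 + cis (-(Real.pi / 3))) * (y - x) := by ring
  rw [h1] at this
  have h2 : x + cis (Real.pi / 3) * (y - x) - (y + cis (-(Real.pi / 3)) * (x - y)) = 0 := by
    rw [this]; ring
  exact sub_eq_zero.1 h2

/-- the image of a small open interval of a chord lying in `F p ∩ F q` is impossible. -/
theorem Star.noChord (h : CC F) {x : ℂ} {p q a b c : Fin 5} (hx : Star F x p q a b c)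
    {y v : ℂ} (hy : dist y v = 1) {s1 s2 : ℝ} (h12 : s1 < s2) (h3 : s2 - s1 < 2 * Real.pi)
    (hin : ∀ s ∈ Ioo s1 s2, ch v y s ∈ F p ∧ ch v y s ∈ F q ∧ 0 < dist (ch v y s) x ∧
      dist (ch v y s) x < 2) : False := by
  have hpre : IsPreconnected (ch v y '' Ioo s1 s2) :=
    isPreconnected_Ioo.image _ (ch_cont v y).continuousOn
  have hsub := hx.s1 h hpre (by rintro _ ⟨s, hs, rfl⟩; exact (hin s hs).1)
    (by rintro _ ⟨s, hs, rfl⟩; exact (hin s hs).2.1)
    (by rintro _ ⟨s, hs, rfl⟩; exact (hin s hs).2.2)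
  have m1 : (2 * s1 + s2) / 3 ∈ Ioo s1 s2 := ⟨by linarith, by linarith⟩
  have m2 : (s1 + 2 * s2) / 3 ∈ Ioo s1 s2 := ⟨by linarith only [h12], by linarith⟩
  have h4 := hsub (mem_image_of_mem _ m1) (mem_image_of_mem _ m2)
  have h5 := ch_inj hy (s := (2 * s1 + s2) / 3) (t := (s1 + 2 * s2) / 3)
    (by rw [abs_lt]; constructor <;> linarith only [h12, h3]) h4
  linarith only [h12, h5]

theorem Beta.perm1 {x : ℂ} {p q a b c : Fin 5} (hx : Beta F x p q a b c) : Beta F x p q b c a := by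
  obtain ⟨hn, h1, h2, h3, h4, h5, n1, n2, n3⟩ := hx
  refine ⟨?_, h1, h2, h4, h5, h3, n3, fun h => n1 (arc_symm h), fun h => n2 (arc_symm h)⟩
  have : [p, q, b, c, a].Perm [p, q, a, b, c] := by
    refine List.Perm.cons _ (List.Perm.cons _ ?_)
    exact (List.perm_append_comm (l₁ := [b, c]) (l₂ := [a]))
  exact this.nodup_iff.2 hn

theorem Beta.core (h : CC F) {x : ℂ} {p q a b c : Fin 5} (hx : Beta F x p q a b c) {y : ℂ}
    (hy : dist y x = 1) (hp : y ∈ F p) (hq : y ∈ F q) (ha : y ∉ F a) (hb : y ∉ F b) : False := by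
  have hst := hx.star h
  have hall := all_of_nodup hx.nodup
  have hyc : y ∈ F c := by
    obtain ⟨k, hk, hacc⟩ := hst.s3out h hy hp hq
    have hk2 : y ∈ F k := by
      rw [← (h.closed k).closure_eq, Metric.mem_closure_iff]
      intro ε hε
      obtain ⟨z, hz, hzd, _⟩ := hacc ε hε
      exact ⟨z, interior_subset hz, by rw [dist_comm]; exact hzd⟩
    rcases hk with rfl | rfl | rfl
    · exact absurd hk2 ha
    · exact absurd hk2 hb
    · exact hk2
  set y1 := x + cis (Real.pi / 3) * (y - x) with hy1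
  have hy1y : dist y1 y = 1 := adj_dist hy
  have hy1x : dist y1 x = 1 := by
    rw [dist_eq_norm] at hy ⊢
    rw [hy1]; simp [hy]
  have hy1pq : y1 ∈ F p ∧ y1 ∈ F q := by
    have := hst.s2rot h hy hp hq 1
    simpa [hy1] using this
  have hxy : dist x y = 1 := by rw [dist_comm]; exact hy
  have hxyc : x ∈ F c := hx.hc
  -- non-centre
  have hnc : ∀ i j l : Fin 5, i ≠ j → (∀ k, y ∈ F k → k = i ∨ k = j ∨ k = l) →
      (l = p ∨ l = q ∨ l = c) → ¬ Arc F y i j := by
    intro i j l hij hS hl harc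
    have := (h.ring hij hS harc).2
    rcases hl with rfl | rfl | rfl
    · exact this y1 hy1y hy1pq.1
    · exact this y1 hy1y hy1pq.2
    · exact this x hxy hxyc
  have hn := hx.nodup
  simp only [List.nodup_cons, List.mem_cons, List.not_mem_nil, or_false, not_or,
    not_false_eq_true, List.nodup_nil, and_true] at hn
  obtain ⟨⟨hpq, hpa, hpb, hpc⟩, ⟨hqa, hqb, hqc⟩, ⟨hab, hac⟩, hbc⟩ := hn
  have hS : ∀ k, y ∈ F k → k = p ∨ k = q ∨ k = c := by
    intro k hk
    rcases hall k with rfl | rfl | rfl | rfl | rfl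
    · exact Or.inl rfl
    · exact Or.inr (Or.inl rfl)
    · exact absurd hk ha
    · exact absurd hk hb
    · exact Or.inr (Or.inr rfl)
  have hbeta : Beta F y a b p q c := by
    refine ⟨?_, ha, hb, hp, hq, hyc, ?_, ?_, ?_⟩
    · have : [a, b, p, q, c].Perm [p, q, a, b, c] := by
        exact (List.perm_append_comm (l₁ := [a, b]) (l₂ := [p, q])).append_right [c]
      exact this.nodup_iff.2 hx.nodup
    · exact hnc p q c hpq hS (Or.inr (Or.inr rfl))
    · exact hnc p c q hpc (fun k hk => by rcases hS k hk with h1 | h1 | h1 <;> simp [h1])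
        (Or.inr (Or.inl rfl))
    · exact hnc q c p hqc (fun k hk => by rcases hS k hk with h1 | h1 | h1 <;> simp [h1])
        (Or.inl rfl)
  have hst2 := hbeta.star h
  have hy1ab : y1 ∈ F a ∧ y1 ∈ F b := by
    have := hst2.s2rot h hxy hx.ha hx.hb (-1)
    rw [hy1, adj_eq]
    simpa only [Int.reduceNeg, Int.cast_neg, Int.cast_one, neg_mul, one_mul] using this
  -- near x on the circle about y1 everything is in F c
  obtain ⟨r, hr, hnear⟩ := h.nhd_ball x
  obtain ⟨ε, hε, hε1, hch⟩ := ch_small x y1 (r := min r (1 / 2)) (lt_min hr (by norm_num))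
  have hkey : ∀ s, |s| < ε → ch x y1 s ∈ F c := by
    intro s0 hs0
    by_contra hcon
    have h1 : ∀ᶠ s in 𝓝 s0, ch x y1 s ∉ F c :=
      (ch_cont x y1).continuousAt.preimage_mem_nhds ((h.closed c).isOpen_compl.mem_nhds hcon)
    have h2 : ∀ᶠ s in 𝓝 s0, |s| < ε := by
      exact (isOpen_lt continuous_abs continuous_const).mem_nhds hs0
    obtain ⟨δ, hδ, hball⟩ := Metric.eventually_nhds_iff.1 (h1.and h2)
    refine hst2.noChord h (y := y1) (v := x) hy1x (s1 := s0) (s2 := s0 + min δ 1)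
      (by have := lt_min hδ one_pos; linarith only [this])
      (by have := min_le_right δ 1; have := Real.pi_gt_three; linarith) ?_
    intro s hs
    have hs' : dist s s0 < δ := by
      rw [Real.dist_eq, abs_of_pos (by linarith only [hs.1])]
      have := min_le_left δ 1
      linarith only [this, hs.2]
    obtain ⟨h3, h4⟩ := hball hs'
    have h5 := hch s h4
    have h6 : ∀ k, ch x y1 s ∈ F k → k = a ∨ k = b := by
      intro k hk
      have hxk := hnear _ (h5.trans_le (min_le_left _ _)) k hk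
      rcases hall k with rfl | rfl | rfl | rfl | rfl
      · exact absurd hxk hx.hp
      · exact absurd hxk hx.hq
      · exact Or.inl rfl
      · exact Or.inr rfl
      · exact absurd hk h3
    have h7 := h.both h6 hy1ab.1 hy1ab.2 (ch_dist hy1x s)
    have h8 : dist (ch x y1 s) x < 1 / 2 := h5.trans_le (min_le_right _ _)
    have h9 := dist_triangle_left x y (ch x y1 s)
    have h10 := dist_triangle (ch x y1 s) x y
    refine ⟨h7.1, h7.2, ?_, ?_⟩
    · have := dist_triangle_left x y (ch x y1 s)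
      linarith only [hxy, h8, h9]
    · linarith only [hxy, h8, h10]
  refine h.chordKill (i := c) (x := x) (y := y1) (u := y) hy1x ?_ hy ?_ ?_ hyc
  · exact Metric.eventually_nhds_iff.2 ⟨ε, hε, fun s hs => hkey s (by simpa [Real.dist_eq] using hs)⟩
  · intro h0
    rw [h0, dist_self] at hy1y
    norm_num at hy1y
  · intro h0
    have : dist y1 y = 2 := by
      rw [dist_eq_norm]
      have e1 : y1 - y = (-2 : ℂ) * (y - x) := by linear_combination h0
      rw [e1, norm_mul, ← dist_eq_norm, hy]; norm_num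
    linarith only [hy1y, this]

theorem Beta.four (h : CC F) {x : ℂ} {p q a b c : Fin 5} (hx : Beta F x p q a b c) {y : ℂ}
    (hy : dist y x = 1) (hp : y ∈ F p) (hq : y ∈ F q) :
    (y ∈ F a ∧ y ∈ F b) ∨ (y ∈ F a ∧ y ∈ F c) ∨ (y ∈ F b ∧ y ∈ F c) := by
  have h1 := hx.core h hy hp hq
  have h2 := hx.perm1.core h hy hp hq
  have h3 := hx.perm1.perm1.core h hy hp hq
  (clear * - h1 h2 h3; tauto)

end Vale.Agent.P032.B
end
end

section

section

/-! Half chords at a star point. -/

namespace Vale.Agent.P032.B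

open Set Topology

variable {F : Fin 5 → Set ℂ}

theorem Star.perm1 {x : ℂ} {p q a b c : Fin 5} (hx : Star F x p q a b c) : Star F x p q b c a := by
  obtain ⟨hn, h1, h2, h3, h4, h5⟩ := hx
  refine ⟨?_, h1, h2, h4, h5, h3⟩
  have : [p, q, b, c, a].Perm [p, q, a, b, c] := by
    refine List.Perm.cons _ (List.Perm.cons _ ?_)
    exact (List.perm_append_comm (l₁ := [b, c]) (l₂ := [a]))
  exact this.nodup_iff.2 hn

/-- three-colour points near a star point are centres. -/
theorem Star.three (h : CC F) {x : ℂ} {p q a b c : Fin 5} (hx : Star F x p q a b c) :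
    ∃ r > 0, ∀ z, dist z x < r → z ≠ x → z ∉ F p → z ∈ F a → z ∈ F b → z ∈ F c →
      (Arc F z a b ∧ ∀ w, dist w z = 1 → w ∉ F c) ∨ (Arc F z a c ∧ ∀ w, dist w z = 1 → w ∉ F b) ∨
      (Arc F z b c ∧ ∀ w, dist w z = 1 → w ∉ F a) := by
  obtain ⟨r1, hr1, hnear⟩ := h.nhd_ball x
  obtain ⟨r2, hr2, hiso⟩ := hx.s4 h
  refine ⟨min r1 r2, lt_min hr1 hr2, ?_⟩
  intro z hz hne hzp hza hzb hzc
  have hzq : z ∉ F q := fun hzq => hx.hq (hnear z (hz.trans_le (min_le_left _ _)) q hzq)
  obtain ⟨w, hw, hwp, hwq⟩ := hiso z (hz.trans_le (min_le_right _ _)) hne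
  have hS : ∀ k, z ∈ F k → k = a ∨ k = b ∨ k = c := by
    intro k hk
    rcases all_of_nodup hx.nodup k with rfl | rfl | rfl | rfl | rfl
    · exact absurd hk hzp
    · exact absurd hk hzq
    · exact Or.inl rfl
    · exact Or.inr (Or.inl rfl)
    · exact Or.inr (Or.inr rfl)
  have hn := hx.nodup
  simp only [List.nodup_cons, List.mem_cons, List.not_mem_nil, or_false, not_or,
    not_false_eq_true, List.nodup_nil, and_true] at hn
  obtain ⟨_, _, ⟨hab, hac⟩, hbc⟩ := hn
  by_cases h1 : Arc F z a b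
  · exact Or.inl ⟨h1, (h.ring hab hS h1).2⟩
  by_cases h2 : Arc F z a c
  · exact Or.inr (Or.inl ⟨h2, (h.ring hac (fun k hk => by
      rcases hS k hk with h | h | h <;> simp [h]) h2).2⟩)
  by_cases h3 : Arc F z b c
  · exact Or.inr (Or.inr ⟨h3, (h.ring hbc (fun k hk => by
      rcases hS k hk with h | h | h <;> simp [h]) h3).2⟩)
  exfalso
  have hbeta : Beta F z p q a b c := ⟨hx.nodup, hzp, hzq, hza, hzb, hzc, h1, h2, h3⟩
  rcases (hbeta.star h).cov w hw with h4 | h4
  · exact hwp h4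
  · exact hwq h4

/-- both colours on a chord point -/
theorem sign_mul {σ : ℝ} (hσ : σ = 1 ∨ σ = -1) (t : ℝ) : σ * (σ * t) = t := by
  rcases hσ with rfl | rfl <;> ring

theorem sign_abs {σ : ℝ} (hσ : σ = 1 ∨ σ = -1) (t : ℝ) : |σ * t| = |t| := by
  rcases hσ with rfl | rfl <;> simp

theorem exists_Ioo_of_nhdsGT {P : ℝ → Prop} (hP : ∀ᶠ s in 𝓝[>] (0 : ℝ), P s) :
    ∃ ε > 0, ∀ s, 0 < s → s < ε → P s := by
  obtain ⟨u, hu, hs⟩ := mem_nhdsGT_iff_exists_Ioo_subset.1 hP
  exact ⟨u, hu, fun s h1 h2 => hs ⟨h1, h2⟩⟩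

theorem nhdsGT_of_exists_Ioo {P : ℝ → Prop} {ε : ℝ} (hε : 0 < ε) (hP : ∀ s, 0 < s → s < ε → P s) :
    ∀ᶠ s in 𝓝[>] (0 : ℝ), P s :=
  mem_nhdsGT_iff_exists_Ioo_subset.2 ⟨ε, hε, fun s hs => hP s hs.1 hs.2⟩

/-- dichotomy for a half chord -/
theorem Star.u1 (h : CC F) {x : ℂ} {p q a b c : Fin 5} (hx : Star F x p q a b c) {y : ℂ}
    (hy : dist y x = 1) (hf : Free F x y p) (hya : y ∈ F a) (hyb : y ∈ F b) {σ : ℝ}
    (hσ : σ = 1 ∨ σ = -1) :
    (∀ᶠ s in 𝓝[>] (0 : ℝ), ch x y (σ * s) ∈ F c) ∨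
    (∀ᶠ s in 𝓝[>] (0 : ℝ), ch x y (σ * s) ∈ F a ∧ ch x y (σ * s) ∈ F b ∧ ch x y (σ * s) ∉ F c) := by
  obtain ⟨r1, hr1, hnear⟩ := h.nhd_ball x
  obtain ⟨r2, hr2, hthree⟩ := hx.three h
  obtain ⟨r3, hr3, hfree⟩ := hf
  obtain ⟨ε, hε, hε1, hch⟩ := ch_small x y (r := min r1 (min r2 r3))
    (lt_min hr1 (lt_min hr2 hr3))
  have hpi := Real.pi_gt_three
  -- basic facts for 0 < |t| < ε
  have hne : ∀ t, 0 < |t| → |t| < ε → ch x y t ≠ x := by
    intro t ht ht' he
    have : t = 0 := ch_inj hy (s := t) (t := 0) (by rw [sub_zero]; linarith only [hε1, hpi, ht'])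
      (by rw [ch_zero]; exact he)
    rw [this] at ht
    simp at ht
  have hnp : ∀ t, 0 < |t| → |t| < ε → ch x y t ∉ F p := by
    intro t ht ht'
    refine hfree _ (ch_dist hy t) (dist_pos.2 (hne t ht ht')) ?_
    exact (hch t ht').trans_le ((min_le_right _ _).trans (min_le_right _ _))
  have hnq : ∀ t, |t| < ε → ch x y t ∉ F q := fun t ht' hq =>
    hx.hq (hnear _ ((hch t ht').trans_le (min_le_left _ _)) q hq)
  have hab : ∀ t, 0 < |t| → |t| < ε → ch x y t ∉ F c → ch x y t ∈ F a ∧ ch x y t ∈ F b := by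
    intro t ht ht' hc
    refine h.both (i := a) (j := b) ?_ hya hyb (ch_dist hy t)
    intro k hk
    rcases all_of_nodup hx.nodup k with rfl | rfl | rfl | rfl | rfl
    · exact absurd hk (hnp t ht ht')
    · exact absurd hk (hnq t ht')
    · exact Or.inl rfl
    · exact Or.inr rfl
    · exact absurd hk hc
  by_cases hall : ∀ s, 0 < s → s < ε → ch x y (σ * s) ∈ F c
  · exact Or.inl (nhdsGT_of_exists_Ioo hε hall)
  right
  push Not at hall
  obtain ⟨s1, hs10, hs1ε, hs1c⟩ := hall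
  have habs : ∀ s, 0 < s → |σ * s| = s := fun s hs => by rw [sign_abs hσ, abs_of_pos hs]
  -- key: no point of F c on the half chord
  have hkey : ∀ s, 0 < s → s < ε → ch x y (σ * s) ∉ F c := by
    intro s2 hs20 hs2ε hs2c
    -- a point z in F c which is an endpoint of an arc avoiding F c
    obtain ⟨u, hu0, huε, huc, v, hv0, hvε, huv, hbet⟩ : ∃ u, 0 < u ∧ u < ε ∧ ch x y (σ * u) ∈ F c ∧
        ∃ v, 0 < v ∧ v < ε ∧ u ≠ v ∧ ∀ t ∈ uIcc u v, t ≠ u → ch x y (σ * t) ∉ F c := by
      have hcl : IsClosed ((fun s => ch x y (σ * s)) ⁻¹' F c) :=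
        (h.closed c).preimage ((ch_cont x y).comp (continuous_const.mul continuous_id))
      rcases lt_trichotomy s1 s2 with hlt | heq | hgt
      · -- first entrance after s1
        set A : Set ℝ := {t | s1 ≤ t ∧ ch x y (σ * t) ∈ F c} with hA
        have hAc : IsClosed A := isClosed_Ici.inter hcl
        have hAn : A.Nonempty := ⟨s2, hlt.le, hs2c⟩
        have hAb : BddBelow A := ⟨s1, fun t ht => ht.1⟩
        have hm := hAc.csInf_mem hAn hAb
        have hle : sInf A ≤ s2 := csInf_le hAb ⟨hlt.le, hs2c⟩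
        have hlt1 : s1 < sInf A := lt_of_le_of_ne hm.1 (by
          intro he; rw [← he] at hm; exact hs1c hm.2)
        refine ⟨sInf A, by linarith only [hs10, hlt1], by linarith only [hs2ε, hle], hm.2, s1, hs10, hs1ε, hlt1.ne', ?_⟩
        intro t ht htne htc
        rw [uIcc_of_ge hlt1.le] at ht
        exact htne (le_antisymm ht.2 (csInf_le hAb ⟨ht.1, htc⟩))
      · rw [heq] at hs1c; exact absurd hs2c hs1c
      · set A : Set ℝ := {t | t ≤ s1 ∧ ch x y (σ * t) ∈ F c} with hA
        have hAc : IsClosed A := isClosed_Iic.inter hcl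
        have hAn : A.Nonempty := ⟨s2, hgt.le, hs2c⟩
        have hAb : BddAbove A := ⟨s1, fun t ht => ht.1⟩
        have hm := hAc.csSup_mem hAn hAb
        have hle : s2 ≤ sSup A := le_csSup hAb ⟨hgt.le, hs2c⟩
        have hlt1 : sSup A < s1 := lt_of_le_of_ne hm.1 (by
          intro he; rw [he] at hm; exact hs1c hm.2)
        refine ⟨sSup A, by linarith only [hs20, hle], by linarith only [hs1ε, hlt1], hm.2, s1, hs10, hs1ε, hlt1.ne, ?_⟩
        intro t ht htne htc
        rw [uIcc_of_le hlt1.le] at ht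
        exact htne (le_antisymm (le_csSup hAb ⟨ht.2, htc⟩) ht.1)
    -- the closed arc lies in F a ∩ F b
    have hin : ∀ t ∈ uIcc u v, 0 < t ∧ t < ε := by
      intro t ht
      rcases le_total u v with huv' | huv'
      · rw [uIcc_of_le huv'] at ht; exact ⟨by linarith only [hu0, ht.1], by linarith [ht.2]⟩
      · rw [uIcc_of_ge huv'] at ht; exact ⟨by linarith [ht.1], by linarith [ht.2]⟩
    have hopen : ∀ t ∈ uIcc u v, t ≠ u → ch x y (σ * t) ∈ F a ∧ ch x y (σ * t) ∈ F b := by
      intro t ht htne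
      obtain ⟨h1, h2⟩ := hin t ht
      exact hab _ (by rw [habs t h1]; exact h1) (by rw [habs t h1]; exact h2) (hbet t ht htne)
    have hclos : ∀ k : Fin 5, (∀ t ∈ uIcc u v, t ≠ u → ch x y (σ * t) ∈ F k) →
        ch x y (σ * u) ∈ F k := by
      intro k hk
      have hc1 : Continuous fun w : ℝ => ch x y (σ * (u + w * (v - u))) := by
        refine (ch_cont x y).comp ?_
        fun_prop
      have hc2 : Filter.Tendsto (fun w : ℝ => ch x y (σ * (u + w * (v - u)))) (𝓝[>] 0)
          (𝓝 (ch x y (σ * u))) := by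
        have := (hc1.tendsto 0).mono_left (nhdsWithin_le_nhds (s := Ioi (0 : ℝ)))
        simpa only [zero_mul, add_zero] using this
      refine (h.closed k).mem_of_tendsto hc2 ?_
      refine nhdsGT_of_exists_Ioo one_pos ?_
      intro w hw0 hw1
      have hd : v - u ≠ 0 := sub_ne_zero.2 huv.symm
      refine hk _ ?_ ?_
      · rcases le_total u v with huv' | huv'
        · rw [uIcc_of_le huv']
          constructor <;> nlinarith only [hw0, huv', hw1]
        · rw [uIcc_of_ge huv']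
          constructor <;> nlinarith only [hw0, huv', hw1]
      · intro he
        have : w * (v - u) = 0 := by linarith only [he]
        rcases mul_eq_zero.1 this with h1 | h1
        · linarith only [hw0, h1]
        · exact hd h1
    have hua := hclos a (fun t ht htne => (hopen t ht htne).1)
    have hub := hclos b (fun t ht htne => (hopen t ht htne).2)
    have hu1 : 0 < |σ * u| := by rw [habs u hu0]; exact hu0
    have hu2 : |σ * u| < ε := by rw [habs u hu0]; exact huε
    have hdy : dist y (ch x y (σ * u)) = 1 := by rw [dist_comm]; exact ch_dist hy _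
    rcases hthree (ch x y (σ * u)) ((hch _ hu2).trans_le
      ((min_le_right _ _).trans (min_le_left _ _))) (hne _ hu1 hu2) (hnp _ hu1 hu2) hua hub huc with
      h1 | h1 | h1
    · have hab' : a ≠ b := by
        have hn := hx.nodup
        simp only [List.nodup_cons, List.mem_cons, List.not_mem_nil, or_false, not_or, not_false_eq_true, List.nodup_nil, and_true] at hn
        exact hn.2.2.1.1
      have hpre : IsPreconnected ((fun t => ch x y (σ * t)) '' uIcc u v) :=
        isPreconnected_uIcc.image _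
          ((ch_cont x y).comp (continuous_const.mul continuous_id)).continuousOn
      refine h.T1 hab' hpre ?_ ?_ (p := ch x y (σ * u)) (q := ch x y (σ * v))
        (mem_image_of_mem _ left_mem_uIcc) (mem_image_of_mem _ right_mem_uIcc) ?_ h1.1
      · rintro _ ⟨t, ht, rfl⟩
        by_cases htu : t = u
        · subst htu; exact hua
        · exact (hopen t ht htu).1
      · rintro _ ⟨t, ht, rfl⟩
        by_cases htu : t = u
        · subst htu; exact hub
        · exact (hopen t ht htu).2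
      · intro he
        have h5 := ch_inj hy (s := σ * u) (t := σ * v) (by
          rw [← mul_sub, sign_abs hσ, abs_lt]
          constructor <;> linarith only [hε1, hpi, hu0, hvε, huε, hv0]) he
        apply huv
        have := congrArg (fun w => σ * w) h5
        simpa [sign_mul hσ] using this
    · exact h1.2 y hdy hyb
    · exact h1.2 y hdy hya
  refine nhdsGT_of_exists_Ioo hε ?_
  intro s hs0 hsε
  have := hkey s hs0 hsε
  obtain ⟨h1, h2⟩ := hab (σ * s) (by rw [habs s hs0]; exact hs0) (by rw [habs s hs0]; exact hsε) this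
  exact ⟨h1, h2, this⟩

theorem two_halves {x y : ℂ} {i : Fin 5} (hxi : x ∈ F i)
    (h1 : ∀ᶠ s in 𝓝[>] (0 : ℝ), ch x y (1 * s) ∈ F i)
    (h2 : ∀ᶠ s in 𝓝[>] (0 : ℝ), ch x y (-1 * s) ∈ F i) : ∀ᶠ s in 𝓝 (0 : ℝ), ch x y s ∈ F i := by
  obtain ⟨e1, he1, h1⟩ := exists_Ioo_of_nhdsGT h1
  obtain ⟨e2, he2, h2⟩ := exists_Ioo_of_nhdsGT h2
  refine Metric.eventually_nhds_iff.2 ⟨min e1 e2, lt_min he1 he2, ?_⟩
  intro s hs
  rw [Real.dist_eq, sub_zero] at hs
  rcases lt_trichotomy s 0 with hneg | h0 | hpos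
  · rw [abs_of_neg hneg] at hs
    have := h2 (-s) (by linarith) (hs.trans_le (min_le_right _ _))
    simpa using this
  · rw [h0, ch_zero]; exact hxi
  · rw [abs_of_pos hpos] at hs
    have := h1 s hpos (hs.trans_le (min_le_left _ _))
    simpa using this

theorem ch_adj_dist {x y : ℂ} (hy : dist y x = 1) {θ : ℝ} (hθ : θ = Real.pi / 3 ∨ θ = -(Real.pi / 3))
    (s : ℝ) : dist (ch x y s) (ch x y (θ + s)) = 1 := by
  have hn : ‖x - y‖ = 1 := by rw [← dist_eq_norm, dist_comm]; exact hy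
  rw [dist_comm, dist_eq_norm]
  have e1 : ch x y (θ + s) - ch x y s = (x - y) * (cis (θ + s) - cis s) := by unfold ch; ring
  rw [e1, norm_mul, hn, one_mul]
  rcases hθ with rfl | rfl
  · rw [add_comm]; exact norm_cis_add_pi_div_three s
  · have := norm_cis_add_pi_div_three (-(Real.pi / 3) + s)
    rw [norm_sub_rev, ← this]
    congr 2
    ring_nf

/-- a half chord of type `a b` at `y` is impossible if an adjacent point misses `c`. -/
theorem Star.adjM (h : CC F) {x : ℂ} {p q a b c : Fin 5} (hx : Star F x p q a b c) {y : ℂ}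
    (hy : dist y x = 1) (hyp : y ∈ F p) (hyq : y ∈ F q) {θ : ℝ}
    (hθ : θ = Real.pi / 3 ∨ θ = -(Real.pi / 3)) (hc : ch x y θ ∉ F c) {σ : ℝ}
    (hσ : σ = 1 ∨ σ = -1)
    (hM : ∀ᶠ s in 𝓝[>] (0 : ℝ), ch x y (σ * s) ∈ F a ∧ ch x y (σ * s) ∈ F b) : False := by
  have hpi := Real.pi_gt_three
  have hdx : dist (ch x y θ) x = 1 := by
    have := ch_adj_dist hy hθ 0
    rw [add_zero, ch_zero, dist_comm] at this
    exact this
  obtain ⟨ε1, hε1, hM⟩ := exists_Ioo_of_nhdsGT hM
  have hev : ∀ᶠ t in 𝓝 θ, ch x y t ∉ F c ∧ 0 < dist (ch x y t) x ∧ dist (ch x y t) x < 2 := by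
    have c1 : ∀ᶠ t in 𝓝 θ, ch x y t ∉ F c :=
      (ch_cont x y).continuousAt.preimage_mem_nhds ((h.closed c).isOpen_compl.mem_nhds hc)
    have hcd : Continuous fun t => dist (ch x y t) x := (ch_cont x y).dist continuous_const
    have c2 : ∀ᶠ t in 𝓝 θ, 0 < dist (ch x y t) x :=
      hcd.continuousAt.eventually (lt_mem_nhds (by show 0 < dist (ch x y θ) x; rw [hdx]; norm_num))
    have c3 : ∀ᶠ t in 𝓝 θ, dist (ch x y t) x < 2 :=
      hcd.continuousAt.eventually (gt_mem_nhds (by show dist (ch x y θ) x < 2; rw [hdx]; norm_num))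
    exact c1.and (c2.and c3)
  obtain ⟨ε2, hε2, hev⟩ := Metric.eventually_nhds_iff.1 hev
  set ε := min (min ε1 ε2) 1 with hεdef
  have hε : 0 < ε := lt_min (lt_min hε1 hε2) one_pos
  have hεa : ε ≤ ε1 := (min_le_left _ _).trans (min_le_left _ _)
  have hεb : ε ≤ ε2 := (min_le_left _ _).trans (min_le_right _ _)
  have hεc : ε ≤ 1 := min_le_right _ _
  have hkey : ∀ s, 0 < s → s < ε → ch x y (θ + σ * s) ∈ F p ∧ ch x y (θ + σ * s) ∈ F q ∧
      0 < dist (ch x y (θ + σ * s)) x ∧ dist (ch x y (θ + σ * s)) x < 2 := by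
    intro s hs0 hsε
    obtain ⟨hc', hd1, hd2⟩ := hev (y := θ + σ * s) (by
      rw [Real.dist_eq, add_sub_cancel_left, sign_abs hσ, abs_of_pos hs0]; linarith only [hεb, hsε])
    have hkill : ∀ i : Fin 5, (∀ s, 0 < s → s < ε1 → ch x y (σ * s) ∈ F i) →
        ch x y (θ + σ * s) ∉ F i := by
      intro i hi
      refine h.crossCh (x := x) (y := y) (s0 := σ * s) (ch_adj_dist hy hθ _) ?_ ?_
      · have e1 : (ch x y (σ * s) - y) * (starRingEnd ℂ) (ch x y (θ + σ * s) - y) = cis (-θ) := by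
          unfold ch
          rw [add_sub_cancel_left, add_sub_cancel_left, map_mul]
          have e2 : (x - y) * cis (σ * s) * ((starRingEnd ℂ) (x - y) * (starRingEnd ℂ) (cis (θ + σ * s)))
            = ((x - y) * (starRingEnd ℂ) (x - y)) * (cis (σ * s) * (starRingEnd ℂ) (cis (θ + σ * s))) := by
            ring
          rw [e2, cis_sub_conj, Complex.mul_conj, Complex.normSq_eq_norm_sq]
          have hn : ‖x - y‖ = 1 := by rw [← dist_eq_norm, dist_comm]; exact hy
          rw [hn]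
          norm_num
        rw [e1, cis_im]
        have h3 : 0 < Real.sqrt 3 := Real.sqrt_pos.2 (by norm_num)
        rcases hθ with rfl | rfl
        · rw [Real.sin_neg, Real.sin_pi_div_three]; linarith only [h3]
        · rw [neg_neg, Real.sin_pi_div_three]; linarith only [h3]
      · have hO : IsOpen {t : ℝ | 0 < σ * t ∧ σ * t < ε1} :=
          (isOpen_lt continuous_const (continuous_const.mul continuous_id)).inter
            (isOpen_lt (continuous_const.mul continuous_id) continuous_const)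
        have hm : σ * s ∈ {t : ℝ | 0 < σ * t ∧ σ * t < ε1} := by
          simp only [mem_ofPred_eq, sign_mul hσ]
          exact ⟨hs0, by linarith⟩
        filter_upwards [hO.mem_nhds hm] with t ht
        have := hi (σ * t) ht.1 ht.2
        rwa [sign_mul hσ] at this
    have hna := hkill a (fun s h1 h2 => (hM s h1 h2).1)
    have hnb := hkill b (fun s h1 h2 => (hM s h1 h2).2)
    have hpq := h.both (i := p) (j := q) (y := ch x y (θ + σ * s)) (c := y) (by
      intro k hk
      rcases all_of_nodup hx.nodup k with rfl | rfl | rfl | rfl | rfl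
      · exact Or.inl rfl
      · exact Or.inr rfl
      · exact absurd hk hna
      · exact absurd hk hnb
      · exact absurd hk hc') hyp hyq (ch_dist hy _)
    exact ⟨hpq.1, hpq.2, hd1, hd2⟩
  rcases hσ with rfl | rfl
  · refine hx.noChord h (v := x) (y := y) hy (s1 := θ) (s2 := θ + ε) (by linarith) (by linarith only [hpi, hεc]) ?_
    intro t ht
    have := hkey (t - θ) (by linarith [ht.1]) (by linarith [ht.2])
    rw [one_mul, add_sub_cancel] at this
    exact this
  · refine hx.noChord h (v := x) (y := y) hy (s1 := θ - ε) (s2 := θ) (by linarith) (by linarith only [hpi, hεc]) ?_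
    intro t ht
    have := hkey (θ - t) (by linarith [ht.2]) (by linarith [ht.1])
    rw [show θ + -1 * (θ - t) = t by ring] at this
    exact this

theorem cis_sum_sub (t δ : ℝ) : cis (t - δ) + cis (t + δ) = ((2 * Real.cos δ : ℝ) : ℂ) * cis t := by
  apply Complex.ext
  · simp only [Complex.add_re, Complex.mul_re, cis_re, cis_im, Complex.ofReal_re,
      Complex.ofReal_im, Real.cos_add, Real.cos_sub]
    ring
  · simp only [Complex.add_im, Complex.mul_im, cis_re, cis_im, Complex.ofReal_re,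
      Complex.ofReal_im, Real.sin_add, Real.sin_sub]
    ring

/-- circles about different points do not share an arc. -/
theorem exists_ne_one {x y y' : ℂ} (hy : dist y x = 1) (hne : y' ≠ y) {σ ε : ℝ}
    (hσ : σ = 1 ∨ σ = -1) (hε : 0 < ε) : ∃ s, 0 < s ∧ s < ε ∧ dist (ch x y (σ * s)) y' ≠ 1 := by
  by_contra hcon
  push Not at hcon
  have hpi := Real.pi_gt_three
  set e := min ε 1 with he
  have he0 : 0 < e := lt_min hε one_pos
  have he1 : e ≤ ε := min_le_left _ _
  have he2 : e ≤ 1 := min_le_right _ _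
  set D := y' - y with hD
  have hD0 : 0 < ‖D‖ := norm_pos_iff.2 (sub_ne_zero.2 hne)
  have hkey : ∀ s, 0 < s → s < e → (((x - y) * cis (σ * s)) * (starRingEnd ℂ) D).re = ‖D‖ ^ 2 / 2 := by
    intro s h1 h2
    have h3 := hcon s h1 (by linarith)
    rw [dist_eq_norm] at h3
    have e1 : ch x y (σ * s) - y' = (x - y) * cis (σ * s) - D := by rw [hD]; unfold ch; ring
    rw [e1] at h3
    have h4 : ‖(x - y) * cis (σ * s) - D‖ ^ 2 = 1 := by rw [h3]; norm_num
    rw [← Complex.normSq_eq_norm_sq, Complex.normSq_sub, Complex.normSq_eq_norm_sq,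
      Complex.normSq_eq_norm_sq, norm_mul, norm_cis, ← dist_eq_norm, dist_comm, hy] at h4
    linarith only [h4]
  have k1 := hkey (e / 4) (by linarith only [he0]) (by linarith only [he0])
  have k2 := hkey (e / 2) (by linarith only [he0]) (by linarith only [he0])
  have k3 := hkey (3 * e / 4) (by linarith only [he0]) (by linarith only [he0])
  have k4 : (((x - y) * cis (σ * (e / 4))) * (starRingEnd ℂ) D).re
      + (((x - y) * cis (σ * (3 * e / 4))) * (starRingEnd ℂ) D).re
      = 2 * Real.cos (σ * (e / 4)) * (((x - y) * cis (σ * (e / 2))) * (starRingEnd ℂ) D).re := by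
    have e1 := cis_sum_sub (σ * (e / 2)) (σ * (e / 4))
    rw [show σ * (e / 2) - σ * (e / 4) = σ * (e / 4) by ring,
      show σ * (e / 2) + σ * (e / 4) = σ * (3 * e / 4) by ring] at e1
    rw [← Complex.add_re]
    have e2 : (x - y) * cis (σ * (e / 4)) * (starRingEnd ℂ) D
        + (x - y) * cis (σ * (3 * e / 4)) * (starRingEnd ℂ) D
        = ((2 * Real.cos (σ * (e / 4)) : ℝ) : ℂ) * ((x - y) * cis (σ * (e / 2)) * (starRingEnd ℂ) D) := by
      calc _ = (x - y) * (cis (σ * (e / 4)) + cis (σ * (3 * e / 4))) * (starRingEnd ℂ) D := by ring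
        _ = _ := by rw [e1]; ring
    rw [e2, Complex.re_ofReal_mul]
  rw [k1, k2, k3] at k4
  have h5 : Real.cos (σ * (e / 4)) = 1 := by
    have : ‖D‖ ^ 2 * (1 - Real.cos (σ * (e / 4))) = 0 := by linarith only [k4]
    rcases mul_eq_zero.1 this with h6 | h6
    · have := pow_pos hD0 2
      linarith only [h6, this]
    · linarith only [h6]
  have h6 : Real.cos (σ * (e / 4)) < 1 := by
    rw [← Real.cos_abs, sign_abs hσ, abs_of_pos (by linarith only [he0])]
    have := Real.cos_lt_cos_of_nonneg_of_le_pi (x := 0) (y := e / 4) le_rfl (by linarith only [hpi, he2])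
      (by linarith only [he0])
    rwa [Real.cos_zero] at this
  linarith only [h5, h6]

/-- a half chord of type `a b` at `y` is impossible if another point misses `c`. -/
theorem Star.mside (h : CC F) {x : ℂ} {p q a b c : Fin 5} (hx : Star F x p q a b c) {y : ℂ}
    (hy : dist y x = 1) {σ : ℝ} (hσ : σ = 1 ∨ σ = -1)
    (hM : ∀ᶠ s in 𝓝[>] (0 : ℝ), ch x y (σ * s) ∈ F a ∧ ch x y (σ * s) ∈ F b) {y' : ℂ}
    (hy' : dist y' x = 1) (hyp : y' ∈ F p) (hyq : y' ∈ F q) (hne : y' ≠ y) (hc : y' ∉ F c) :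
    False := by
  obtain ⟨ε, hε, hM⟩ := exists_Ioo_of_nhdsGT hM
  obtain ⟨s1, hs0, hsε, hd⟩ := exists_ne_one (x := x) hy hne hσ hε
  set z1 := ch x y (σ * s1) with hz1
  have hpre : IsPreconnected ((fun s => ch x y (σ * s)) '' Icc 0 s1) :=
    isPreconnected_Icc.image _ ((ch_cont x y).comp (continuous_const.mul continuous_id)).continuousOn
  have hKa : ((fun s => ch x y (σ * s)) '' Icc 0 s1) ⊆ F a := by
    rintro _ ⟨s, hs, rfl⟩
    rcases hs.1.eq_or_lt with h0 | h0
    · simp only [← h0, mul_zero, ch_zero]; exact hx.ha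
    · exact (hM s h0 (by linarith only [hsε, hs.2])).1
  have hKb : ((fun s => ch x y (σ * s)) '' Icc 0 s1) ⊆ F b := by
    rintro _ ⟨s, hs, rfl⟩
    rcases hs.1.eq_or_lt with h0 | h0
    · simp only [← h0, mul_zero, ch_zero]; exact hx.hb
    · exact (hM s h0 (by linarith only [hsε, hs.2])).2
  have hxK : x ∈ ((fun s => ch x y (σ * s)) '' Icc 0 s1) := ⟨0, ⟨le_rfl, hs0.le⟩, by simp⟩
  have hzK : z1 ∈ ((fun s => ch x y (σ * s)) '' Icc 0 s1) := ⟨s1, ⟨hs0.le, le_rfl⟩, rfl⟩
  obtain ⟨rc, hrc, hcball⟩ : ∃ r > 0, ∀ z, dist z y' < r → z ∉ F c := by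
    obtain ⟨r, hr, hb⟩ := Metric.isOpen_iff.1 (h.closed c).isOpen_compl y' hc
    exact ⟨r, hr, fun z hz => hb hz⟩
  rcases lt_or_gt_of_ne hd with hlt | hgt
  · obtain ⟨k, hk, hacc⟩ := hx.s3out h hy' hyp hyq
    obtain ⟨z, hzk, hzd, hzx⟩ := hacc (min rc (1 - dist z1 y')) (lt_min hrc (by linarith only [hlt]))
    have h1 : dist z1 z < 1 := by
      have := dist_triangle z1 y' z
      have h3 : dist z y' < 1 - dist z1 y' := hzd.trans_le (min_le_right _ _)
      rw [dist_comm z y'] at h3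
      linarith only [this, h3]
    have h2 : 1 < dist x z := by rw [dist_comm]; exact hzx
    have hna := h.wlemma hpre hKa hzK hxK h1 h2
    have hnb := h.wlemma hpre hKb hzK hxK h1 h2
    have hnc := hcball z (hzd.trans_le (min_le_left _ _))
    rcases hk with rfl | rfl | rfl
    · exact hna (interior_subset hzk)
    · exact hnb (interior_subset hzk)
    · exact hnc (interior_subset hzk)
  · obtain ⟨k, hk, hacc⟩ := hx.s3in h hy' hyp hyq
    obtain ⟨z, hzk, hzd, hzx⟩ := hacc (min rc (dist z1 y' - 1)) (lt_min hrc (by linarith))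
    have h1 : 1 < dist z1 z := by
      have := dist_triangle z1 z y'
      have h3 : dist z y' < dist z1 y' - 1 := hzd.trans_le (min_le_right _ _)
      linarith
    have h2 : dist x z < 1 := by rw [dist_comm]; exact hzx
    have hna := h.wlemma hpre hKa hxK hzK h2 h1
    have hnb := h.wlemma hpre hKb hxK hzK h2 h1
    have hnc := hcball z (hzd.trans_le (min_le_left _ _))
    rcases hk with rfl | rfl | rfl
    · exact hna (interior_subset hzk)
    · exact hnb (interior_subset hzk)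
    · exact hnc (interior_subset hzk)

end Vale.Agent.P032.B
end
end

section

section

/-! The structure theorem at a star point. -/

namespace Vale.Agent.P032.B

open Set Topology

variable {F : Fin 5 → Set ℂ}

/-- `Y`-points of a star point -/
def YP (F : Fin 5 → Set ℂ) (x : ℂ) (p q : Fin 5) (y : ℂ) : Prop :=
  dist y x = 1 ∧ y ∈ F p ∧ y ∈ F q

theorem Star.yrot (h : CC F) {x : ℂ} {p q a b c : Fin 5} (hx : Star F x p q a b c) {y : ℂ}
    (hy : YP F x p q y) (k : ℤ) : YP F x p q (x + cis (k * (Real.pi / 3)) * (y - x)) := by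
  obtain ⟨h1, h2, h3⟩ := hy
  refine ⟨?_, hx.s2rot h h1 h2 h3 k⟩
  rw [dist_eq_norm] at h1 ⊢
  simp [h1]

theorem rot_ne {x y : ℂ} (hy : dist y x = 1) {k l : ℤ} (hkl : k ≠ l) (h6 : |k - l| < 6) :
    x + cis (k * (Real.pi / 3)) * (y - x) ≠ x + cis (l * (Real.pi / 3)) * (y - x) := by
  intro he
  have hpi := Real.pi_pos
  have hne : y - x ≠ 0 := by
    rw [dist_eq_norm] at hy
    intro h0; rw [h0] at hy; norm_num at hy
  have h1 := mul_right_cancel₀ hne (add_left_cancel he)
  have h2 : (k : ℝ) * (Real.pi / 3) = l * (Real.pi / 3) := by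
    apply cis_inj _ h1
    have h3 : (k : ℝ) * (Real.pi / 3) - l * (Real.pi / 3) = ((k - l : ℤ) : ℝ) * (Real.pi / 3) := by
      push_cast; ring
    rw [h3, abs_mul, abs_of_pos (show (0 : ℝ) < Real.pi / 3 by positivity)]
    have h4 : |((k - l : ℤ) : ℝ)| < 6 := by exact_mod_cast h6
    nlinarith only [hpi, h4]
  have h3 : (k : ℝ) = l := mul_right_cancel₀ (by positivity) h2
  exact hkl (by exact_mod_cast h3)

theorem neg_rot (x y : ℂ) (k : ℤ) : -(x + cis (k * (Real.pi / 3)) * (y - x) - x)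
    = x + cis ((k + 3 : ℤ) * (Real.pi / 3)) * (y - x) - x := by
  have : cis (((k + 3 : ℤ) : ℝ) * (Real.pi / 3)) = - cis (k * (Real.pi / 3)) := by
    rw [show ((k + 3 : ℤ) : ℝ) * (Real.pi / 3) = k * (Real.pi / 3) + Real.pi by push_cast; ring,
      cis_add, cis_pi]
    ring
  rw [this]; ring

theorem rot_adj (x y : ℂ) (k : ℤ) : x + cis ((k + 1 : ℤ) * (Real.pi / 3)) * (y - x)
    = ch x (x + cis (k * (Real.pi / 3)) * (y - x)) (-(Real.pi / 3)) := by
  have h1 := adj_eq x (x + cis (k * (Real.pi / 3)) * (y - x))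
  unfold ch
  rw [mul_comm (x - _), ← h1]
  rw [show ((k + 1 : ℤ) : ℝ) * (Real.pi / 3) = Real.pi / 3 + k * (Real.pi / 3) by push_cast; ring,
    cis_add]
  ring

theorem adj_eq' (x y : ℂ) :
    x + cis (-(Real.pi / 3)) * (y - x) = y + cis (Real.pi / 3) * (x - y) := by
  have h1 := adj_eq y x
  linear_combination -h1

theorem rot_adj' (x y : ℂ) (k : ℤ) : x + cis (k * (Real.pi / 3)) * (y - x)
    = ch x (x + cis ((k + 1 : ℤ) * (Real.pi / 3)) * (y - x)) (Real.pi / 3) := by
  have h1 := adj_eq' x (x + cis ((k + 1 : ℤ) * (Real.pi / 3)) * (y - x))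
  unfold ch
  rw [mul_comm (x - _), ← h1]
  have e : cis (k * (Real.pi / 3)) = cis (-(Real.pi / 3)) * cis ((k + 1 : ℤ) * (Real.pi / 3)) := by
    rw [← cis_add]; congr 1; push_cast; ring
  rw [e]; ring

/-- a free point `y` missing `c` next to an adjacent point missing `c`, or with some other
point missing `c`: the chord at `x` lies in `F c`. -/
theorem Star.ftype (h : CC F) {x : ℂ} {p q a b c : Fin 5} (hx : Star F x p q a b c) {y : ℂ}
    (hy : YP F x p q y) (hf : Free F x y p) (hya : y ∈ F a) (hyb : y ∈ F b) {y' : ℂ}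
    (hy' : YP F x p q y') (hne : y' ≠ y) (hc : y' ∉ F c) :
    ∀ᶠ s in 𝓝 (0 : ℝ), ch x y s ∈ F c := by
  have key : ∀ σ : ℝ, σ = 1 ∨ σ = -1 → ∀ᶠ s in 𝓝[>] (0 : ℝ), ch x y (σ * s) ∈ F c := by
    intro σ hσ
    rcases hx.u1 h hy.1 hf hya hyb hσ with h1 | h1
    · exact h1
    · exact (hx.mside h hy.1 hσ (h1.mono fun s hs => ⟨hs.1, hs.2.1⟩) hy'.1 hy'.2.1 hy'.2.2 hne
        hc).elim
  exact two_halves hx.hc (key 1 (Or.inl rfl)) (key (-1) (Or.inr rfl))

theorem Star.absent (h : CC F) {x : ℂ} {p q a b c : Fin 5} (hx : Star F x p q a b c)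
    (h4 : ∀ y, YP F x p q y → y ∉ F c → y ∈ F a ∧ y ∈ F b) {y y' : ℂ}
    (hy : YP F x p q y) (hf : Free F x y p) (hy' : YP F x p q y') (hf' : Free F x y' p)
    (hne : y' ≠ y) (hc : y ∉ F c) (hc' : y' ∉ F c) : ∀ u, dist u x = 1 → u ∉ F c := by
  have h1 := hx.ftype h hy hf (h4 y hy hc).1 (h4 y hy hc).2 hy' hne hc'
  have h2 := hx.ftype h hy' hf' (h4 y' hy' hc').1 (h4 y' hy' hc').2 hy hne.symm hc
  intro u hu
  by_cases e1 : u = y
  · rw [e1]; exact hc
  by_cases e2 : u - x = -(y - x)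
  · by_cases e3 : u = y'
    · rw [e3]; exact hc'
    · refine h.chordKill hy'.1 h2 hu e3 ?_
      intro e4
      apply hne
      linear_combination e4 - e2
  · exact h.chordKill hy.1 h1 hu e1 e2

theorem Star.concl (h : CC F) {x : ℂ} {p q a b c : Fin 5} (hx : Star F x p q a b c)
    (h4 : ∀ y, YP F x p q y → y ∉ F c → y ∈ F a ∧ y ∈ F b) {y y' : ℂ}
    (hy : YP F x p q y) (hf : Free F x y p) (hy' : YP F x p q y') (hf' : Free F x y' p)
    (hne : y' ≠ y) (hc : y ∉ F c) (hc' : y' ∉ F c) :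
    (∀ u, dist u x = 1 → u ∉ F c) ∧
      ∀ y, dist y x = 1 → y ∈ F p → y ∈ F q → Free F x y p →
        ∃ r > 0, ∀ z, dist z y = 1 → dist z x < r → z ∈ F c := by
  have habs := hx.absent h h4 hy hf hy' hf' hne hc hc'
  refine ⟨habs, ?_⟩
  intro u hu hup huq huf
  have huY : YP F x p q u := ⟨hu, hup, huq⟩
  have huc := habs u hu
  have hrot := hx.yrot h huY 1
  have hne' : x + cis ((1 : ℤ) * (Real.pi / 3)) * (u - x) ≠ u := by
    have := rot_ne (x := x) hu (k := 1) (l := 0) (by norm_num) (by norm_num)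
    simpa only [Int.cast_one, one_mul, ne_eq, Int.cast_zero, zero_mul, cis_zero, add_sub_cancel] using this
  have h1 := hx.ftype h huY huf (h4 u huY huc).1 (h4 u huY huc).2 hrot hne' (habs _ hrot.1)
  obtain ⟨ε, hε, hball⟩ := Metric.eventually_nhds_iff.1 h1
  obtain ⟨δ, hδ, hs⟩ := ch_surj hu hε
  refine ⟨δ, hδ, fun z hz hzx => ?_⟩
  obtain ⟨s, hs1, rfl⟩ := hs z hz hzx
  exact hball (by simpa [Real.dist_eq] using hs1)

/-- a chord in colour `c` at a `Y`-point carrying `c` is impossible. -/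
theorem Star.commonKill (h : CC F) {x : ℂ} {p q a b c : Fin 5} (hx : Star F x p q a b c)
    (h4 : ∀ y, YP F x p q y → y ∉ F c → y ∈ F a ∧ y ∈ F b)
    (hfree : ∀ y y', YP F x p q y → YP F x p q y' →
      y' ≠ y → y' - x ≠ -(y - x) → Free F x y p ∨ Free F x y' p) {y : ℂ}
    (hy : YP F x p q y) (hyc : y ∈ F c) (harc : ∀ᶠ s in 𝓝 (0 : ℝ), ch x y s ∈ F c) : False := by
  have e0 : x + cis ((0 : ℤ) * (Real.pi / 3)) * (y - x) = y := by simp
  have hpt : ∀ k l : ℤ, k ≠ l → |k - l| < 6 →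
      x + cis (k * (Real.pi / 3)) * (y - x) ≠ x + cis (l * (Real.pi / 3)) * (y - x) :=
    fun k l h1 h2 => rot_ne hy.1 h1 h2
  have hant : ∀ k l : ℤ, k ≠ l + 3 → |k - (l + 3)| < 6 →
      x + cis (k * (Real.pi / 3)) * (y - x) - x ≠ -(x + cis (l * (Real.pi / 3)) * (y - x) - x) := by
    intro k l h1 h2 he
    rw [neg_rot] at he
    exact hpt k (l + 3) h1 h2 (sub_left_injective he)
  have hY1 := hx.yrot h hy 1
  have hY2 := hx.yrot h hy 2
  have n1 : x + cis ((1 : ℤ) * (Real.pi / 3)) * (y - x) ∉ F c := by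
    refine h.chordKill hy.1 harc hY1.1 ?_ ?_
    · have := hpt 1 0 (by norm_num) (by norm_num); rwa [e0] at this
    · have := hant 1 0 (by norm_num) (by norm_num); rwa [e0] at this
  have n2 : x + cis ((2 : ℤ) * (Real.pi / 3)) * (y - x) ∉ F c := by
    refine h.chordKill hy.1 harc hY2.1 ?_ ?_
    · have := hpt 2 0 (by norm_num) (by norm_num); rwa [e0] at this
    · have := hant 2 0 (by norm_num) (by norm_num); rwa [e0] at this
  have hd := hfree _ _ hY1 hY2 (hpt 2 1 (by norm_num) (by norm_num))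
    (hant 2 1 (by norm_num) (by norm_num))
  have main : ∀ u u' : ℂ, YP F x p q u → u ∉ F c → u' ∉ F c → Free F x u p → y ≠ u →
      y - x ≠ -(u - x) → ∀ θ : ℝ, (θ = Real.pi / 3 ∨ θ = -(Real.pi / 3)) → u' = ch x u θ →
      False := by
    intro u u' hu huc hu'c huf hyu hyu' θ hθ hu'
    have h5 := h4 u hu huc
    have key : ∀ σ : ℝ, σ = 1 ∨ σ = -1 → ∀ᶠ s in 𝓝[>] (0 : ℝ), ch x u (σ * s) ∈ F c := by
      intro σ hσ
      rcases hx.u1 h hu.1 huf h5.1 h5.2 hσ with h1 | h1
      · exact h1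
      · exact (hx.adjM h hu.1 hu.2.1 hu.2.2 hθ (by rw [← hu']; exact hu'c) hσ
          (h1.mono fun s hs => ⟨hs.1, hs.2.1⟩)).elim
    have h6 := two_halves hx.hc (key 1 (Or.inl rfl)) (key (-1) (Or.inr rfl))
    exact h.chordKill hu.1 h6 hy.1 hyu hyu' hyc
  rcases hd with hd | hd
  · refine main _ _ hY1 n1 n2 hd ?_ ?_ (-(Real.pi / 3)) (Or.inr rfl) (rot_adj x y 1)
    · have := hpt 0 1 (by norm_num) (by norm_num); rwa [e0] at this
    · have := hant 0 1 (by norm_num) (by norm_num); rwa [e0] at this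
  · refine main _ _ hY2 n2 n1 hd ?_ ?_ (Real.pi / 3) (Or.inl rfl) (rot_adj' x y 1)
    · have := hpt 0 2 (by norm_num) (by norm_num); rwa [e0] at this
    · have := hant 0 2 (by norm_num) (by norm_num); rwa [e0] at this

/-- no free five-colour point -/
theorem Star.nofive (h : CC F) {x : ℂ} {p q a b c : Fin 5} (hx : Star F x p q a b c)
    (h4a : ∀ y, YP F x p q y → y ∉ F a → y ∈ F b ∧ y ∈ F c)
    (h4b : ∀ y, YP F x p q y → y ∉ F b → y ∈ F c ∧ y ∈ F a)
    (h4c : ∀ y, YP F x p q y → y ∉ F c → y ∈ F a ∧ y ∈ F b)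
    (hfree : ∀ y y', YP F x p q y → YP F x p q y' →
      y' ≠ y → y' - x ≠ -(y - x) → Free F x y p ∨ Free F x y' p) {y : ℂ}
    (hy : YP F x p q y) (hf : Free F x y p) (hya : y ∈ F a) (hyb : y ∈ F b) (hyc : y ∈ F c) :
    False := by
  have hn := hx.nodup
  simp only [List.nodup_cons, List.mem_cons, List.not_mem_nil, or_false, not_or,
    not_false_eq_true, List.nodup_nil, and_true] at hn
  obtain ⟨_, _, ⟨hab, hac⟩, hbc⟩ := hn
  have hxy : x - y ≠ 0 := by
    have := hy.1
    rw [dist_comm, dist_eq_norm] at this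
    intro h0; rw [h0] at this; norm_num at this
  -- each half chord has exactly two colours
  have half : ∀ σ : ℝ, σ = 1 ∨ σ = -1 →
      (∀ᶠ s in 𝓝[>] (0 : ℝ), ch x y (σ * s) ∈ F a ∧ ch x y (σ * s) ∈ F b) ∨
      (∀ᶠ s in 𝓝[>] (0 : ℝ), ch x y (σ * s) ∈ F b ∧ ch x y (σ * s) ∈ F c) ∨
      (∀ᶠ s in 𝓝[>] (0 : ℝ), ch x y (σ * s) ∈ F c ∧ ch x y (σ * s) ∈ F a) := by
    intro σ hσ
    rcases hx.u1 h hy.1 hf hya hyb hσ with h1 | h1
    · rcases hx.perm1.u1 h hy.1 hf hyb hyc hσ with h2 | h2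
      · rcases hx.perm1.perm1.u1 h hy.1 hf hyc hya hσ with h3 | h3
        · exfalso
          obtain ⟨ε, hε, hall⟩ := exists_Ioo_of_nhdsGT (h1.and (h2.and h3))
          have hpre : IsPreconnected ((fun s => ch x y (σ * s)) '' Ioo 0 (min ε 1)) :=
            isPreconnected_Ioo.image _
              ((ch_cont x y).comp (continuous_const.mul continuous_id)).continuousOn
          have hm : 0 < min ε 1 := lt_min hε one_pos
          have hmε : min ε 1 ≤ ε := min_le_left _ _
          have hm1 : min ε 1 ≤ 1 := min_le_right _ _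
          have hsub := h.tri (i := a) (j := b) (k := c) hab hac hbc hpre
            (by rintro _ ⟨s, hs, rfl⟩; exact (hall s hs.1 (by linarith [hs.2])).2.1)
            (by rintro _ ⟨s, hs, rfl⟩; exact (hall s hs.1 (by linarith [hs.2])).2.2)
            (by rintro _ ⟨s, hs, rfl⟩; exact (hall s hs.1 (by linarith [hs.2])).1)
          have h5 := hsub (mem_image_of_mem _ (⟨by linarith only [hm], by linarith⟩ :
            min ε 1 / 3 ∈ Ioo 0 (min ε 1))) (mem_image_of_mem _ (⟨by linarith, by linarith⟩ :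
            min ε 1 / 2 ∈ Ioo 0 (min ε 1)))
          have h6 := ch_inj hy.1 (s := σ * (min ε 1 / 3)) (t := σ * (min ε 1 / 2)) (by
            rw [← mul_sub, sign_abs hσ, abs_lt]
            have := Real.pi_gt_three
            constructor <;> linarith only [hm, this, hm1]) h5
          have h7 := congrArg (fun w => σ * w) h6
          simp only [sign_mul hσ] at h7
          linarith only [hm, h7]
        · exact Or.inr (Or.inr (h3.mono fun s hs => ⟨hs.1, hs.2.1⟩))
      · exact Or.inr (Or.inl (h2.mono fun s hs => ⟨hs.1, hs.2.1⟩))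
    · exact Or.inl (h1.mono fun s hs => ⟨hs.1, hs.2.1⟩)
  -- same pair on both sides: lemma Q
  have same : ∀ i j l : Fin 5, i ≠ j → l ≠ i → l ≠ j → x ∈ F i → x ∈ F j → x ∈ F l →
      (∀ᶠ s in 𝓝[>] (0 : ℝ), ch x y (1 * s) ∈ F i ∧ ch x y (1 * s) ∈ F j) →
      (∀ᶠ s in 𝓝[>] (0 : ℝ), ch x y (-1 * s) ∈ F i ∧ ch x y (-1 * s) ∈ F j) → False := by
    intro i j l hij hli hlj hxi hxj hxl h1 h2
    have e1 := two_halves hxi (h1.mono fun s hs => hs.1) (h2.mono fun s hs => hs.1)
    have e2 := two_halves hxj (h1.mono fun s hs => hs.2) (h2.mono fun s hs => hs.2)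
    have := h.lemQ hij (x := y) (w := x - y) hxy (t := 0) (e1.and e2) (l := l) (by simpa using hxl)
    rcases this with h3 | h3
    · exact hli h3
    · exact hlj h3
  have ka := fun hh => hx.perm1.commonKill h h4a hfree hy hya hh
  have kb := fun hh => hx.perm1.perm1.commonKill h h4b hfree hy hyb hh
  have kc := fun hh => hx.commonKill h h4c hfree hy hyc hh
  rcases half 1 (Or.inl rfl) with h1 | h1 | h1 <;>
  rcases half (-1) (Or.inr rfl) with h2 | h2 | h2
  · exact same a b c hab (Ne.symm hac) (Ne.symm hbc) hx.ha hx.hb hx.hc h1 h2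
  · exact kb (two_halves hx.hb (h1.mono fun s hs => hs.2) (h2.mono fun s hs => hs.1))
  · exact ka (two_halves hx.ha (h1.mono fun s hs => hs.1) (h2.mono fun s hs => hs.2))
  · exact kb (two_halves hx.hb (h1.mono fun s hs => hs.1) (h2.mono fun s hs => hs.2))
  · exact same b c a hbc hab hac hx.hb hx.hc hx.ha h1 h2
  · exact kc (two_halves hx.hc (h1.mono fun s hs => hs.2) (h2.mono fun s hs => hs.1))
  · exact ka (two_halves hx.ha (h1.mono fun s hs => hs.2) (h2.mono fun s hs => hs.1))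
  · exact kc (two_halves hx.hc (h1.mono fun s hs => hs.1) (h2.mono fun s hs => hs.2))
  · exact same c a b (Ne.symm hac) hbc (Ne.symm hab) hx.hc hx.ha hx.hb h1 h2

/-- The main structure theorem U7 (valid for BETA points and for class II points). -/
theorem Star.u7 (h : CC F) {x : ℂ} {p q a b c : Fin 5} (hx : Star F x p q a b c)
    (h4 : ∀ y, dist y x = 1 → y ∈ F p → y ∈ F q →
      (y ∈ F a ∧ y ∈ F b) ∨ (y ∈ F a ∧ y ∈ F c) ∨ (y ∈ F b ∧ y ∈ F c))
    (hfree : ∀ y y', dist y x = 1 → y ∈ F p → y ∈ F q → dist y' x = 1 → y' ∈ F p → y' ∈ F q →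
      y' ≠ y → y' - x ≠ -(y - x) → Free F x y p ∨ Free F x y' p) :
    ∃ d, (d = a ∨ d = b ∨ d = c) ∧ (∀ z, dist z x = 1 → z ∉ F d) ∧
      ∀ y, dist y x = 1 → y ∈ F p → y ∈ F q → Free F x y p →
        ∃ r > 0, ∀ z, dist z y = 1 → dist z x < r → z ∈ F d := by
  have h4a : ∀ y, YP F x p q y → y ∉ F a → y ∈ F b ∧ y ∈ F c := by
    intro y hy hn
    have := h4 y hy.1 hy.2.1 hy.2.2
    (clear * - this hn; tauto)
  have h4b : ∀ y, YP F x p q y → y ∉ F b → y ∈ F c ∧ y ∈ F a := by
    intro y hy hn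
    have := h4 y hy.1 hy.2.1 hy.2.2
    (clear * - this hn; tauto)
  have h4c : ∀ y, YP F x p q y → y ∉ F c → y ∈ F a ∧ y ∈ F b := by
    intro y hy hn
    have := h4 y hy.1 hy.2.1 hy.2.2
    (clear * - this hn; tauto)
  have hfree' : ∀ y y', YP F x p q y → YP F x p q y' →
      y' ≠ y → y' - x ≠ -(y - x) → Free F x y p ∨ Free F x y' p :=
    fun y y' hy hy' => hfree y y' hy.1 hy.2.1 hy.2.2 hy'.1 hy'.2.1 hy'.2.2
  obtain ⟨y, hy1, hyp, hyq⟩ := hx.s2 h
  have hy : YP F x p q y := ⟨hy1, hyp, hyq⟩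
  set P : ℤ → ℂ := fun k => x + cis (k * (Real.pi / 3)) * (y - x) with hP
  have hPY : ∀ k, YP F x p q (P k) := fun k => hx.yrot h hy k
  have hPne : ∀ k l : ℤ, k ≠ l → |k - l| < 6 → P k ≠ P l := fun k l h1 h2 => rot_ne hy1 h1 h2
  have hPfree : ∀ k l : ℤ, k ≠ l → |k - l| < 6 → k ≠ l + 3 → |k - (l + 3)| < 6 →
      Free F x (P l) p ∨ Free F x (P k) p := by
    intro k l h1 h2 h3 h4
    refine hfree' _ _ (hPY l) (hPY k) (hPne k l h1 h2) ?_
    intro he
    have := neg_rot x y l
    rw [hP] at he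
    simp only at he
    rw [this] at he
    exact rot_ne hy1 h3 h4 (sub_left_injective he)
  -- four free points
  obtain ⟨Q, hQinj, hQ⟩ : ∃ Q : Fin 4 → ℤ, (∀ i j, i ≠ j → Q i ≠ Q j ∧ |Q i - Q j| < 6) ∧
      ∀ i, Free F x (P (Q i)) p := by
    by_cases c0 : Free F x (P 0) p ∧ Free F x (P 3) p
    · by_cases c1 : Free F x (P 1) p ∧ Free F x (P 4) p
      · refine ⟨![0, 3, 1, 4], by (clear * -; decide), ?_⟩
        intro i
        fin_cases i
        · exact c0.1
        · exact c0.2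
        · exact c1.1
        · exact c1.2
      · have f2 : Free F x (P 2) p := by
          by_contra hcon
          exact c1 ⟨(hPfree 1 2 (by norm_num) (by norm_num) (by norm_num) (by norm_num)).resolve_left
            hcon, (hPfree 4 2 (by norm_num) (by norm_num) (by norm_num) (by norm_num)).resolve_left
            hcon⟩
        have f5 : Free F x (P 5) p := by
          by_contra hcon
          exact c1 ⟨(hPfree 5 1 (by norm_num) (by norm_num) (by norm_num) (by norm_num)).resolve_right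
            hcon, (hPfree 5 4 (by norm_num) (by norm_num) (by norm_num) (by norm_num)).resolve_right
            hcon⟩
        refine ⟨![0, 3, 2, 5], by decide, ?_⟩
        intro i
        fin_cases i
        · exact c0.1
        · exact c0.2
        · exact f2
        · exact f5
    · have f : ∀ k : ℤ, (k = 1 ∨ k = 2 ∨ k = 4 ∨ k = 5) → Free F x (P k) p := by
        intro k hk
        by_contra hcon
        apply c0
        rcases hk with rfl | rfl | rfl | rfl
        · exact ⟨(hPfree 1 0 (by norm_num) (by norm_num) (by norm_num) (by norm_num)).resolve_right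
            hcon, (hPfree 3 1 (by norm_num) (by norm_num) (by norm_num) (by norm_num)).resolve_left
            hcon⟩
        · exact ⟨(hPfree 2 0 (by norm_num) (by norm_num) (by norm_num) (by norm_num)).resolve_right
            hcon, (hPfree 3 2 (by norm_num) (by norm_num) (by norm_num) (by norm_num)).resolve_left
            hcon⟩
        · exact ⟨(hPfree 4 0 (by norm_num) (by norm_num) (by norm_num) (by norm_num)).resolve_right
            hcon, (hPfree 4 3 (by norm_num) (by norm_num) (by norm_num) (by norm_num)).resolve_right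
            hcon⟩
        · exact ⟨(hPfree 5 0 (by norm_num) (by norm_num) (by norm_num) (by norm_num)).resolve_right
            hcon, (hPfree 5 3 (by norm_num) (by norm_num) (by norm_num) (by norm_num)).resolve_right
            hcon⟩
      refine ⟨![1, 4, 2, 5], by decide, ?_⟩
      intro i
      fin_cases i
      · exact f 1 (by norm_num)
      · exact f 4 (by norm_num)
      · exact f 2 (by norm_num)
      · exact f 5 (by norm_num)
  -- missing colours
  have hmiss : ∀ i : Fin 4, ∃ m : Fin 5, m ∈ ({a, b, c} : Finset (Fin 5)) ∧ P (Q i) ∉ F m := by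
    intro i
    by_contra hcon
    push Not at hcon
    exact hx.nofive h h4a h4b h4c hfree' (hPY (Q i)) (hQ i) (hcon a (by simp)) (hcon b (by simp))
      (hcon c (by simp))
  choose m hm hmF using hmiss
  obtain ⟨i, -, j, -, hij, hmij⟩ := Finset.exists_ne_map_eq_of_card_lt_of_maps_to
    (s := (Finset.univ : Finset (Fin 4))) (t := ({a, b, c} : Finset (Fin 5))) (f := m)
    (lt_of_le_of_lt Finset.card_le_three (by simp)) (fun i _ => hm i)
  have hneij : P (Q j) ≠ P (Q i) :=
    hPne _ _ (hQinj j i hij.symm).1 (hQinj j i hij.symm).2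
  have hj' : P (Q j) ∉ F (m i) := by rw [hmij]; exact hmF j
  have hmi := hm i
  simp only [Finset.mem_insert, Finset.mem_singleton] at hmi
  refine ⟨m i, hmi, ?_⟩
  rcases hmi with e | e | e
  · have := hx.perm1.concl h h4a (hPY (Q i)) (hQ i) (hPY (Q j)) (hQ j) hneij
      (by rw [← e]; exact hmF i) (by rw [← e]; exact hj')
    rw [e]; exact this
  · have := hx.perm1.perm1.concl h h4b (hPY (Q i)) (hQ i) (hPY (Q j)) (hQ j) hneij
      (by rw [← e]; exact hmF i) (by rw [← e]; exact hj')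
    rw [e]; exact this
  · have := hx.concl h h4c (hPY (Q i)) (hQ i) (hPY (Q j)) (hQ j) hneij
      (by rw [← e]; exact hmF i) (by rw [← e]; exact hj')
    rw [e]; exact this

/-- conclusion for BETA points -/
theorem Beta.main (h : CC F) {x : ℂ} {p q a b c : Fin 5} (hx : Beta F x p q a b c) :
    ∃ d, (d = a ∨ d = b ∨ d = c) ∧ (∀ z, dist z x = 1 → z ∉ F d) ∧
      ∀ y, dist y x = 1 → y ∈ F p → y ∈ F q →
        ∃ r > 0, ∀ z, dist z y = 1 → dist z x < r → z ∈ F d := by
  have hst := hx.star h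
  have hfree : ∀ y, Free F x y p := by
    intro y
    obtain ⟨r, hr, hnear⟩ := h.nhd_ball x
    exact ⟨r, hr, fun z _ _ hz hp => hx.hp (hnear z hz p hp)⟩
  obtain ⟨d, hd, h1, h2⟩ := hst.u7 h (fun y hy hp hq => hx.four h hy hp hq)
    (fun y y' _ _ _ _ _ _ _ _ => Or.inl (hfree y))
  exact ⟨d, hd, h1, fun y hy hp hq => h2 y hy hp hq (hfree y)⟩

end Vale.Agent.P032.B
end
end

section

section

/-! Points with exactly three colours are inessential. -/

namespace Vale.Agent.P032.B

open Set Topology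

variable {F : Fin 5 → Set ℂ}

theorem exact_star {Gr : Fin 5 → Fin 5 → Prop} (c : Fin 5) (hGr : ∀ i j, Gr i j → i = c ∨ j = c)
    {θ : Fin 5 → Fin 5 → ℤ} (hθ : ∀ i j, θ i j = -θ j i) :
    ∃ f : Fin 5 → ℤ, ∀ i j, Gr i j → θ i j = f j - f i := by
  refine ⟨fun i => θ c i, fun i j hij => ?_⟩
  have h0 := hθ c c
  show θ i j = θ c j - θ c i
  rcases hGr i j hij with rfl | rfl
  · omega
  · have := hθ i j; omega

theorem exact_path {Gr : Fin 5 → Fin 5 → Prop} {u v w z : Fin 5} (hnd : [u, v, w, z].Nodup)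
    (hGr : ∀ i j, Gr i j → (i = u ∧ j = v) ∨ (i = v ∧ j = u) ∨ (i = v ∧ j = w) ∨ (i = w ∧ j = v) ∨
      (i = w ∧ j = z) ∨ (i = z ∧ j = w)) {θ : Fin 5 → Fin 5 → ℤ} (hθ : ∀ i j, θ i j = -θ j i) :
    ∃ f : Fin 5 → ℤ, ∀ i j, Gr i j → θ i j = f j - f i := by
  refine ⟨fun i => if i = u then 0 else if i = v then θ u v else if i = w then θ u v + θ v w else
    θ u v + θ v w + θ w z, fun i j hij => ?_⟩
  simp only [List.nodup_cons, List.mem_cons, List.not_mem_nil, or_false, not_or, not_false_eq_true,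
    List.nodup_nil, and_true] at hnd
  obtain ⟨⟨h1, h2, h3⟩, ⟨h4, h5⟩, h6⟩ := hnd
  have a1 := hθ u v
  have a2 := hθ v w
  have a3 := hθ w z
  rcases hGr i j hij with ⟨rfl, rfl⟩ | ⟨rfl, rfl⟩ | ⟨rfl, rfl⟩ | ⟨rfl, rfl⟩ | ⟨rfl, rfl⟩ | ⟨rfl, rfl⟩
  · simp [Ne.symm h1]
  · simp [Ne.symm h1, a1]
  · simp [Ne.symm h1, Ne.symm h2, Ne.symm h4]
  · simp [Ne.symm h1, Ne.symm h2, Ne.symm h4, a2]
  · simp [Ne.symm h2, Ne.symm h3, Ne.symm h4, Ne.symm h5, Ne.symm h6]
  · simp [Ne.symm h2, Ne.symm h3, Ne.symm h4, Ne.symm h5, Ne.symm h6, a3]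

theorem Arc.symm {x : ℂ} {i j : Fin 5} (h : Arc F x i j) : Arc F x j i := by
  obtain ⟨t, ht⟩ := h
  exact ⟨t, ht.mono fun s hs => ⟨hs.2, hs.1⟩⟩

/-- A pair occurring on an arc about `x` does not occur exactly near `x`. -/
theorem CC.notExact (h : CC F) {i j : Fin 5} (hij : i ≠ j) {x : ℂ}
    (harc : Arc F x i j) : ∀ᶠ z in 𝓝 x,
      ¬ (z ∈ F i ∧ z ∈ F j ∧ ∀ k, z ∈ F k → k = i ∨ k = j) := by
  filter_upwards [h.broken' hij harc] with z hz hcon
  obtain ⟨-, k, hki, hkj, hk⟩ := hz hcon.1 hcon.2.1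
  rcases hcon.2.2 k hk with e | e
  · exact hki e
  · exact hkj e

theorem iness_centre (h : CC F) {x : ℂ} {a b c : Fin 5} (hab : a ≠ b)
    (hS : ∀ k, x ∈ F k → k = a ∨ k = b ∨ k = c) (ha : x ∈ F a) (hb : x ∈ F b)
    (harc : Arc F x a b) : Iness F x := by
  refine iness_of_graph h (fun i j => i = c ∨ j = c) ?_ fun θ hθ => exact_star c (fun i j => id) hθ
  filter_upwards [h.notExact hab harc, h.nhd x] with z hz hz' i j hij hi hj hk
  by_contra hcon
  push Not at hcon
  have hi' := hS i (hz' i hi)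
  have hj' := hS j (hz' j hj)
  refine hz ?_
  rcases hi' with rfl | rfl | rfl
  · rcases hj' with rfl | rfl | rfl
    · exact absurd rfl hij
    · exact ⟨hi, hj, hk⟩
    · exact absurd rfl hcon.2
  · rcases hj' with rfl | rfl | rfl
    · exact ⟨hj, hi, fun k hk' => (hk k hk').symm⟩
    · exact absurd rfl hij
    · exact absurd rfl hcon.2
  · exact absurd rfl hcon.1

theorem Beta.swap1 {x : ℂ} {p q a b c : Fin 5} (hx : Beta F x p q a b c) : Beta F x p q b a c := by
  obtain ⟨hnd, hp, hq, ha, hb, hc, h1, h2, h3⟩ := hx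
  refine ⟨?_, hp, hq, hb, ha, hc, fun h => h1 h.symm, h3, h2⟩
  have : [p, q, b, a, c].Perm [p, q, a, b, c] := by
    exact ((List.Perm.swap a b [c]).cons q).cons p
  exact this.nodup_iff.2 hnd

theorem Beta.swap2 {x : ℂ} {p q a b c : Fin 5} (hx : Beta F x p q a b c) : Beta F x p q a c b := by
  obtain ⟨hnd, hp, hq, ha, hb, hc, h1, h2, h3⟩ := hx
  refine ⟨?_, hp, hq, ha, hc, hb, h2, h1, fun h => h3 h.symm⟩
  have : [p, q, a, c, b].Perm [p, q, a, b, c] := by
    exact (((List.Perm.swap b c []).cons a).cons q).cons p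
  exact this.nodup_iff.2 hnd

/-- if `v` is in the interior of `F k` then `k` is absent on the unit circle about `v` -/
theorem CC.leaf (h : CC F) {k : Fin 5} {v z : ℂ} (hv : v ∈ interior (F k)) (hz : dist z v = 1) :
    z ∉ F k := fun hzk => h.unit k v hv z hzk (by rw [dist_comm]; exact hz)

/-- the final rectangle argument -/
theorem Star.iness (h : CC F) (htri : TriFree F) {x : ℂ} {p q a b c : Fin 5}
    (hx : Star F x p q a b c) {r : ℝ} (hr : 0 < r) (Gr : Fin 5 → Fin 5 → Prop)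
    (hGr : ∀ z ∈ Metric.ball x r, ∀ i j, i ≠ j → z ∈ F i → z ∈ F j →
      (∀ k, z ∈ F k → k = i ∨ k = j) → Gr i j)
    (hac : ∀ i j, Gr i j → ¬ (i = a ∧ j = b) → ¬ (i = b ∧ j = a) → i = c ∨ j = c)
    (hiso : ∀ z ∈ Metric.ball x r, z ≠ x → Iness F z)
    (habs : ∀ z, dist z x = 1 → z ∉ F c) {y : ℂ} (hy : dist y x = 1) (hyp : y ∈ F p)
    (hyq : y ∈ F q) (hch : ∃ r > 0, ∀ z, dist z y = 1 → dist z x < r → z ∈ F c) :
    Iness F x := by
  have hnd := hx.nodup
  simp only [List.nodup_cons, List.mem_cons, List.not_mem_nil, or_false, not_or, not_false_eq_true,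
    List.nodup_nil, and_true] at hnd
  obtain ⟨-, -, ⟨hab, hac'⟩, hbc⟩ := hnd
  refine iness_of_iso h htri hr Gr hGr (a := a) (b := b) ?_ hiso ?_
  · intro θ hθ
    obtain ⟨f, hf⟩ := exact_star (Gr := fun i j => Gr i j ∧ ¬ (i = a ∧ j = b) ∧ ¬ (i = b ∧ j = a)) c
      (fun i j hij => hac i j hij.1 hij.2.1 hij.2.2) hθ
    exact ⟨f, fun i j h1 h2 h3 => hf i j ⟨h1, h2, h3⟩⟩
  · refine h.rect (w := y) ?_ ?_ (ends_chord h htri hab hac' hbc hy hch)
    · obtain ⟨k, hk, hk'⟩ := hx.s3out h hy hyp hyq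
      have hyk : y ∈ F k := by
        rw [← (h.closed k).closure_eq, Metric.mem_closure_iff]
        intro ε hε
        obtain ⟨z, hz, hz1, -⟩ := hk' ε hε
        exact ⟨z, interior_subset hz, by rw [dist_comm]; exact hz1⟩
      intro ε hε
      obtain ⟨v, hv, hv1, hv2⟩ := hk' ε hε
      refine ⟨v, hv1, hv2, fun z hz => ?_⟩
      rcases hk with rfl | rfl | rfl
      · exact Or.inl (h.leaf hv hz)
      · exact Or.inr (h.leaf hv hz)
      · exact absurd hyk (habs y hy)
    · obtain ⟨k, hk, hk'⟩ := hx.s3in h hy hyp hyq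
      have hyk : y ∈ F k := by
        rw [← (h.closed k).closure_eq, Metric.mem_closure_iff]
        intro ε hε
        obtain ⟨z, hz, hz1, -⟩ := hk' ε hε
        exact ⟨z, interior_subset hz, by rw [dist_comm]; exact hz1⟩
      intro ε hε
      obtain ⟨v, hv, hv1, hv2⟩ := hk' ε hε
      refine ⟨v, hv1, hv2, fun z hz => ?_⟩
      rcases hk with rfl | rfl | rfl
      · exact Or.inl (h.leaf hv hz)
      · exact Or.inr (h.leaf hv hz)
      · exact absurd hyk (habs y hy)

theorem iness_beta' (h : CC F) (htri : TriFree F) {x : ℂ} {p q a b c : Fin 5}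
    (hx : Beta F x p q a b c) (habs : ∀ z, dist z x = 1 → z ∉ F c)
    (hch : ∀ y, dist y x = 1 → y ∈ F p → y ∈ F q →
        ∃ r > 0, ∀ z, dist z y = 1 → dist z x < r → z ∈ F c) : Iness F x := by
  have hst := hx.star h
  obtain ⟨y, hy, hyp, hyq⟩ := hst.s2 h
  obtain ⟨r1, hr1, hs4⟩ := hst.s4 h
  obtain ⟨r2, hr2, hn⟩ := h.nhd_ball x
  have hnd := hx.nodup
  have hex := exhaust hnd
  have hS : ∀ z ∈ Metric.ball x (min r1 r2), ∀ k, z ∈ F k → k = a ∨ k = b ∨ k = c := by
    intro z hz k hk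
    have hxk := hn z (Metric.ball_subset_ball (min_le_right _ _) hz) k hk
    rcases hex k with rfl | rfl | h3
    · exact absurd hxk hx.hp
    · exact absurd hxk hx.hq
    · exact h3
  refine hst.iness h htri (lt_min hr1 hr2) (fun i j => (i = a ∨ i = b ∨ i = c) ∧
    (j = a ∨ j = b ∨ j = c) ∧ i ≠ j) ?_ ?_ ?_ habs hy hyp hyq (hch y hy hyp hyq)
  · intro z hz i j hij hi hj _
    exact ⟨hS z hz i hi, hS z hz j hj, hij⟩
  · rintro i j ⟨hi, hj, hij⟩ h1 h2
    rcases hi with rfl | rfl | rfl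
    · rcases hj with rfl | rfl | rfl
      · exact absurd rfl hij
      · exact absurd ⟨rfl, rfl⟩ h1
      · exact Or.inr rfl
    · rcases hj with rfl | rfl | rfl
      · exact absurd ⟨rfl, rfl⟩ h2
      · exact absurd rfl hij
      · exact Or.inr rfl
    · exact Or.inl rfl
  · intro z hz hzx
    have hSz := hS z hz
    have hnd' := hnd
    simp only [List.nodup_cons, List.mem_cons, List.not_mem_nil, or_false, not_or,
      not_false_eq_true, List.nodup_nil, and_true] at hnd'
    obtain ⟨-, -, ⟨hab, hac⟩, hbc⟩ := hnd'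
    by_cases hza : z ∈ F a
    swap
    · exact iness_of_two h (i := b) (j := c) fun k hk => by
        rcases hSz k hk with rfl | h'
        · exact absurd hk hza
        · exact h'
    by_cases hzb : z ∈ F b
    swap
    · exact iness_of_two h (i := a) (j := c) fun k hk => by
        rcases hSz k hk with h' | rfl | h'
        · exact Or.inl h'
        · exact absurd hk hzb
        · exact Or.inr h'
    by_cases hzc : z ∈ F c
    swap
    · exact iness_of_two h (i := a) (j := b) fun k hk => by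
        rcases hSz k hk with h' | h' | rfl
        · exact Or.inl h'
        · exact Or.inr h'
        · exact absurd hk hzc
    by_cases h1 : Arc F z a b
    · exact iness_centre h hab hSz hza hzb h1
    by_cases h2 : Arc F z a c
    · exact iness_centre h (c := b) hac (fun k hk => by have := hSz k hk; (clear * - this; tauto)) hza hzc h2
    by_cases h3 : Arc F z b c
    · exact iness_centre h (c := a) hbc (fun k hk => by have := hSz k hk; (clear * - this; tauto)) hzb hzc h3
    have hzn := hn z (Metric.ball_subset_ball (min_le_right _ _) hz)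
    have hzB : Beta F z p q a b c := ⟨hnd, fun hp => hx.hp (hzn p hp), fun hq => hx.hq (hzn q hq),
      hza, hzb, hzc, h1, h2, h3⟩
    have hcov := (hzB.star h).cov
    obtain ⟨g, hg, hgp, hgq⟩ := hs4 z (Metric.ball_subset_ball (min_le_left _ _) hz) hzx
    rcases hcov g hg with h' | h'
    · exact absurd h' hgp
    · exact absurd h' hgq

/-- Points with exactly three colours are inessential. -/
theorem iness_three (h : CC F) (htri : TriFree F) {x : ℂ} {p q a b c : Fin 5}
    (hnd : [p, q, a, b, c].Nodup) (hp : x ∉ F p) (hq : x ∉ F q) (ha : x ∈ F a) (hb : x ∈ F b)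
    (hc : x ∈ F c) : Iness F x := by
  have hex := exhaust hnd
  have hS : ∀ k, x ∈ F k → k = a ∨ k = b ∨ k = c := by
    intro k hk
    rcases hex k with rfl | rfl | h3
    · exact absurd hk hp
    · exact absurd hk hq
    · exact h3
  have hnd' := hnd
  simp only [List.nodup_cons, List.mem_cons, List.not_mem_nil, or_false, not_or,
    not_false_eq_true, List.nodup_nil, and_true] at hnd'
  obtain ⟨-, -, ⟨hab, hac⟩, hbc⟩ := hnd'
  by_cases h1 : Arc F x a b
  · exact iness_centre h hab hS ha hb h1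
  by_cases h2 : Arc F x a c
  · exact iness_centre h (c := b) hac (fun k hk => by have := hS k hk; (clear * - this; tauto)) ha hc h2
  by_cases h3 : Arc F x b c
  · exact iness_centre h (c := a) hbc (fun k hk => by have := hS k hk; (clear * - this; tauto)) hb hc h3
  have hB : Beta F x p q a b c := ⟨hnd, hp, hq, ha, hb, hc, h1, h2, h3⟩
  obtain ⟨d, hd, habs, hch⟩ := hB.main h
  rcases hd with rfl | rfl | rfl
  · exact iness_beta' h htri (hB.swap1.swap2) habs hch
  · exact iness_beta' h htri (hB.swap2) habs hch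
  · exact iness_beta' h htri hB habs hch

end Vale.Agent.P032.B
end
end

section

section

/-! Irrational rotations. -/

namespace Vale.Agent.P032.B

open Set Topology

variable {F : Fin 5 → Set ℂ}

theorem cis_two_pi : cis (2 * Real.pi) = 1 := by
  apply Complex.ext <;> simp [cis_re, cis_im]

theorem cis_add_two_pi (t : ℝ) : cis (t + 2 * Real.pi) = cis t := by
  rw [cis_add, cis_two_pi, mul_one]

/-- crossing on one circle. -/
theorem CC.cross_circ (h : CC F) {i : Fin 5} {x : ℂ} {ρ θ t : ℝ} (hρ : 0 < ρ)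
    (hθ : ρ ^ 2 * (2 - 2 * Real.cos θ) = 1) (hsin : Real.sin θ ≠ 0)
    (harc : ∀ᶠ s in 𝓝 t, x + ρ * cis s ∈ F i) : x + ρ * cis (t + θ) ∉ F i := by
  have h1 := h.cross (i := i) (x := x) (w := (ρ : ℂ)) (w' := ρ * cis θ) (t := t) ?_ ?_ harc
  · rwa [mul_assoc, ← cis_add, add_comm θ t] at h1
  · have h2 : dist (ρ : ℂ) (ρ * cis θ) ^ 2 = 1 := by
      rw [dist_sq]
      simp only [Complex.mul_re, Complex.mul_im, cis_re, cis_im, Complex.ofReal_re,
        Complex.ofReal_im]
      have := Real.sin_sq_add_cos_sq θ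
      linear_combination hθ + ρ ^ 2 * this
    have := dist_nonneg (x := (ρ : ℂ)) (y := ρ * cis θ)
    nlinarith only [h2, this]
  · simp only [Complex.mul_re, Complex.mul_im, cis_re, cis_im, Complex.ofReal_re,
        Complex.ofReal_im, Complex.conj_re, Complex.conj_im]
    have : ρ * -(ρ * Real.sin θ + 0 * Real.cos θ) + 0 * (ρ * Real.cos θ - 0 * Real.sin θ)
      = - (ρ ^ 2 * Real.sin θ) := by ring
    rw [this]
    exact neg_ne_zero.2 (mul_ne_zero (by positivity) hsin)

/-- IRR: the circle of radius `ρ` whose unit chord has an irrational angle is never covered by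
two colours. -/
theorem CC.irr (h : CC F) {k m : Fin 5} {x : ℂ} {ρ θ : ℝ} (hρ : 0 < ρ)
    (hθ : ρ ^ 2 * (2 - 2 * Real.cos θ) = 1) (hirr : Irrational (θ / (2 * Real.pi)))
    (hcov : ∀ z, dist z x = ρ → z ∈ F k ∨ z ∈ F m) : False := by
  have hpi := Real.pi_pos
  have hsin : Real.sin θ ≠ 0 := by
    intro h0
    obtain ⟨n, hn⟩ := Real.sin_eq_zero_iff.1 h0
    apply hirr
    refine ⟨(n : ℚ) / 2, ?_⟩
    rw [← hn]
    push_cast
    field_simp
  have hθ' : ρ ^ 2 * (2 - 2 * Real.cos (-θ)) = 1 := by rw [Real.cos_neg]; exact hθ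
  have hsin' : Real.sin (-θ) ≠ 0 := by rw [Real.sin_neg]; exact neg_ne_zero.2 hsin
  have hc : ∀ t : ℝ, x + ρ * cis t ∈ F k ∨ x + ρ * cis t ∈ F m := by
    intro t
    refine hcov _ ?_
    rw [dist_eq_norm]
    simp only [add_sub_cancel_left, norm_mul, norm_cis, mul_one, Complex.norm_real]
    exact Real.norm_of_nonneg hρ.le
  -- A' and B'
  set A : Set ℝ := {t | x + ρ * cis t ∉ F m} with hA
  set B : Set ℝ := {t | x + ρ * cis t ∉ F k} with hB
  have hAo : IsOpen A := (h.closed m).isOpen_compl.preimage (continuous_circ x ρ)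
  have hBo : IsOpen B := (h.closed k).isOpen_compl.preimage (continuous_circ x ρ)
  have hAB : ∀ t, t ∈ A → t ∈ B → False := by
    intro t h1 h2
    rcases hc t with h3 | h3
    · exact h2 h3
    · exact h1 h3
  have hAk : ∀ t ∈ A, ∀ᶠ s in 𝓝 t, x + ρ * cis s ∈ F k := by
    intro t ht
    filter_upwards [hAo.mem_nhds ht] with s hs
    exact (hc s).resolve_right hs
  have hBm : ∀ t ∈ B, ∀ᶠ s in 𝓝 t, x + ρ * cis s ∈ F m := by
    intro t ht
    filter_upwards [hBo.mem_nhds ht] with s hs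
    exact (hc s).resolve_left hs
  have hA1 : ∀ t ∈ A, t + θ ∈ B := fun t ht => h.cross_circ hρ hθ hsin (hAk t ht)
  have hA2 : ∀ t ∈ A, t + (-θ) ∈ B := fun t ht => h.cross_circ hρ hθ' hsin' (hAk t ht)
  have hB1 : ∀ t ∈ B, t + θ ∈ A := fun t ht => h.cross_circ hρ hθ hsin (hBm t ht)
  have hB2 : ∀ t ∈ B, t + (-θ) ∈ A := fun t ht => h.cross_circ hρ hθ' hsin' (hBm t ht)
  -- nonempty
  have hne : A.Nonempty := by
    by_contra hAe
    rw [not_nonempty_iff_eq_empty] at hAe
    have hmem : ∀ t : ℝ, x + ρ * cis t ∈ F m := by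
      intro t
      by_contra hcon
      have : t ∈ A := hcon
      rw [hAe] at this
      exact this
    exact h.cross_circ (t := 0) hρ hθ hsin (Filter.Eventually.of_forall hmem) (hmem _)
  obtain ⟨a, ha⟩ := hne
  have hb : a + θ ∈ B := hA1 a ha
  -- the invariance group
  let H : AddSubgroup ℝ :=
    { carrier := {g | ∀ t, t ∈ A ↔ t + g ∈ A}
      zero_mem' := by intro t; simp
      add_mem' := by
        intro g g' hg hg' t
        rw [hg t, hg' (t + g), add_assoc]
      neg_mem' := by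
        intro g hg t
        rw [hg (t + -g)]
        simp }
  have hH1 : 2 * θ ∈ H := by
    intro t
    constructor
    · intro ht
      have := hB1 _ (hA1 t ht)
      rwa [add_assoc, ← two_mul] at this
    · intro ht
      have := hB2 _ (hA2 _ ht)
      have e : t + 2 * θ + -θ + -θ = t := by ring
      rwa [e] at this
  have hH2 : 2 * Real.pi ∈ H := by
    intro t
    show x + ρ * cis t ∉ F m ↔ x + ρ * cis (t + 2 * Real.pi) ∉ F m
    rw [cis_add_two_pi]
  have hdense : Dense (AddSubgroup.closure {2 * θ, 2 * Real.pi} : Set ℝ) := by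
    rw [dense_addSubgroupClosure_pair_iff]
    have : 2 * θ / (2 * Real.pi) = (2 : ℕ) * (θ / (2 * Real.pi)) := by push_cast; ring
    rw [this]
    exact hirr.natCast_mul (by norm_num)
  have hle : AddSubgroup.closure {2 * θ, 2 * Real.pi} ≤ H := by
    rw [AddSubgroup.closure_le]
    rintro g (rfl | rfl)
    · exact hH1
    · exact hH2
  -- find a group element moving a into B
  have hO : IsOpen ((fun g : ℝ => a + g) ⁻¹' B) := hBo.preimage (continuous_const.add continuous_id)
  obtain ⟨g, hg1, hg2⟩ := hdense.inter_open_nonempty _ hO ⟨θ, hb⟩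
  exact hAB (a + g) ((hle hg2 a).1 ha) hg1

theorem irr_of_cos {q : ℚ} {θ : ℝ} (hc : Real.cos θ = q) (h1 : q ≠ -1) (h2 : q ≠ -1 / 2)
    (h3 : q ≠ 0) (h4 : q ≠ 1 / 2) (h5 : q ≠ 1) : Irrational (θ / (2 * Real.pi)) := by
  rintro ⟨r, hr⟩
  have hpi := Real.pi_pos
  have hθ : θ = ((2 * r : ℚ) : ℝ) * Real.pi := by
    push_cast
    rw [hr]
    (clear * -; field_simp)
  have := niven ⟨_, hθ⟩ ⟨_, hc⟩
  rw [hc] at this
  simp only [mem_insert_iff, mem_singleton_iff] at this
  rcases this with h | h | h | h | h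
  · exact h1 (by exact_mod_cast h)
  · exact h2 (by
      have : (q : ℝ) = ((-1 / 2 : ℚ) : ℝ) := by push_cast; exact h
      exact_mod_cast this)
  · exact h3 (by exact_mod_cast h)
  · exact h4 (by
      have : (q : ℝ) = ((1 / 2 : ℚ) : ℝ) := by push_cast; exact h
      exact_mod_cast this)
  · exact h5 (by exact_mod_cast h)

/-- the circle of radius `√3` is not covered by two colours. -/
theorem CC.irr_sqrt_three (h : CC F) {k m : Fin 5} {x : ℂ}
    (hcov : ∀ z, dist z x = √3 → z ∈ F k ∨ z ∈ F m) : False := by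
  refine h.irr (ρ := √3) (θ := Real.arccos (5 / 6)) (by positivity) ?_ ?_ hcov
  · rw [Real.cos_arccos (by norm_num) (by norm_num), Real.sq_sqrt (by norm_num)]
    norm_num
  · refine irr_of_cos (q := 5 / 6) ?_ (by norm_num) (by norm_num) (by norm_num) (by norm_num)
      (by norm_num)
    rw [Real.cos_arccos (by norm_num) (by norm_num)]
    norm_num

/-- the circle of radius `2` is not covered by two colours. -/
theorem CC.irr_two (h : CC F) {k m : Fin 5} {x : ℂ}
    (hcov : ∀ z, dist z x = 2 → z ∈ F k ∨ z ∈ F m) : False := by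
  refine h.irr (ρ := 2) (θ := Real.arccos (7 / 8)) (by positivity) ?_ ?_ hcov
  · rw [Real.cos_arccos (by norm_num) (by norm_num)]
    norm_num
  · refine irr_of_cos (q := 7 / 8) ?_ (by norm_num) (by norm_num) (by norm_num) (by norm_num)
      (by norm_num)
    rw [Real.cos_arccos (by norm_num) (by norm_num)]
    norm_num

end Vale.Agent.P032.B
end
end

section

section

/-! Generic rotations; the case of four colours with a single pair on arcs. -/

namespace Vale.Agent.P032.B

open Set Topology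

variable {F : Fin 5 → Set ℂ}

/-- an angle is generic for the points `x + w cis t`, `w ∈ V`. -/
def Gen (F : Fin 5 → Set ℂ) (x : ℂ) (V : Finset ℂ) (t : ℝ) : Prop :=
  ∀ w ∈ V, ∀ i, x + w * cis t ∈ F i → ∀ᶠ s in 𝓝 t, x + w * cis s ∈ F i

theorem CC.gen_dense (h : CC F) (x : ℂ) (V : Finset ℂ) : Dense {t | Gen F x V t} :=
  (h.gen V x).2

theorem CC.gen_open (h : CC F) (x : ℂ) (V : Finset ℂ) : IsOpen {t | Gen F x V t} :=
  (h.gen V x).1

/-- a closed set which contains the generic points of a circle contains the circle. -/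
theorem CC.gen_circle (h : CC F) {x w : ℂ} (hw : w ≠ 0) (V : Finset ℂ) {C : Set ℂ}
    (hC : IsClosed C) (hg : ∀ t, Gen F x V t → x + w * cis t ∈ C) {z : ℂ}
    (hz : dist z x = ‖w‖) : z ∈ C := by
  have hall : ∀ t : ℝ, x + w * cis t ∈ C := by
    intro t
    have : (univ : Set ℝ) ⊆ (fun s : ℝ => x + w * cis s) ⁻¹' C := by
      rw [← (h.gen_dense x V).closure_eq]
      exact closure_minimal (fun t ht => hg t ht) (hC.preimage (continuous_circ x w))
    exact this (mem_univ t)
  obtain ⟨t, ht⟩ := exists_cis (v := (z - x) / w) (by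
    rw [norm_div, ← dist_eq_norm, hz, div_self (norm_ne_zero_iff.2 hw)])
  have := hall t
  rw [← ht, mul_div_cancel₀ _ hw] at this
  simpa using this

/-- at most two colours at a generic point. -/
theorem CC.gen_two (h : CC F) {x w : ℂ} {V : Finset ℂ} {t : ℝ} (hg : Gen F x V t) (hw : w ∈ V)
    (hw0 : w ≠ 0) {i j l : Fin 5} (hij : i ≠ j) (hi : x + w * cis t ∈ F i)
    (hj : x + w * cis t ∈ F j) (hl : x + w * cis t ∈ F l) : l = i ∨ l = j :=
  h.lemQ hij hw0 ((hg w hw i hi).and (hg w hw j hj)) hl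

/-- two colours at a generic point of the unit circle form an arc pair. -/
theorem CC.gen_arc (_h : CC F) {x : ℂ} {V : Finset ℂ} {t u : ℝ} (hg : Gen F x V t)
    (hw : cis u ∈ V) {i j : Fin 5} (hi : x + cis u * cis t ∈ F i)
    (hj : x + cis u * cis t ∈ F j) : ∀ᶠ s in 𝓝 (u + t), x + cis s ∈ F i ∧ x + cis s ∈ F j := by
  have h1 := (hg _ hw i hi).and (hg _ hw j hj)
  have h2 : Filter.Tendsto (fun s : ℝ => s - u) (𝓝 (u + t)) (𝓝 t) := by
    have : Continuous (fun s : ℝ => s - u) := by fun_prop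
    have h3 := this.tendsto (u + t)
    simpa using h3
  filter_upwards [h2.eventually h1] with s hs
  rw [← cis_add, show u + (s - u) = s by ring] at hs
  exact hs

/-- a generic point of the unit circle whose colours are all colours of `x` carries a pair. -/
theorem CC.gen_pair (h : CC F) {x : ℂ} {V : Finset ℂ} {t u : ℝ} (hg : Gen F x V t)
    (hw : cis u ∈ V) (hS : ∀ i, x + cis u * cis t ∈ F i → x ∈ F i) :
    ∃ i j, i ≠ j ∧ x + cis u * cis t ∈ F i ∧ x + cis u * cis t ∈ F j ∧ x ∈ F i ∧ x ∈ F j ∧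
      Arc F x i j := by
  obtain ⟨i, hi⟩ := h.cover (x + cis u * cis t)
  by_cases hj : ∃ j, j ≠ i ∧ x + cis u * cis t ∈ F j
  · obtain ⟨j, hji, hj⟩ := hj
    exact ⟨i, j, hji.symm, hi, hj, hS i hi, hS j hj, _, h.gen_arc hg hw hi hj⟩
  · push Not at hj
    exfalso
    refine h.single (i := i) (z := x + cis u * cis t) ?_ (y := x) ?_ (hS i hi)
    · intro k hk
      by_contra hki
      exact hj k hki hk
    · rw [dist_eq_norm, ← cis_add]; simp

/-- a generic point misses the colours of its neighbours. -/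
theorem CC.gen_cross (h : CC F) {x w w' : ℂ} {V : Finset ℂ} {t : ℝ} (hg : Gen F x V t)
    (hw : w ∈ V) (hd : dist w w' = 1) (him : (w * (starRingEnd ℂ) w').im ≠ 0) {i : Fin 5}
    (hi : x + w * cis t ∈ F i) : x + w' * cis t ∉ F i :=
  h.cross hd him (hg w hw i hi)

theorem cis_im_pos_third : 0 < (cis (Real.pi / 3)).im := by
  rw [cis_im, Real.sin_pi_div_three]; positivity

theorem one_add_cis_third : (1 + cis (Real.pi / 3)) ≠ 0 := by
  intro h0
  have := congrArg Complex.im h0
  simp only [Complex.add_im, Complex.one_im, zero_add, Complex.zero_im] at this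
  exact cis_im_pos_third.ne' this

theorem norm_one_add_cis_third : ‖1 + cis (Real.pi / 3)‖ = √3 := by
  rw [Complex.norm_eq_sqrt_sq_add_sq]
  congr 1
  simp only [Complex.add_re, Complex.one_re, cis_re, Complex.add_im, Complex.one_im, cis_im,
    Real.cos_pi_div_three, Real.sin_pi_div_three]
  have : (√3) ^ 2 = 3 := Real.sq_sqrt (by norm_num)
  linear_combination (1 / 4) * this

theorem five_list : ∀ q a b c d : Fin 5, [q, a, b, c, d].Nodup → ∀ i : Fin 5,
    i = q ∨ i = a ∨ i = b ∨ i = c ∨ i = d := by decide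

/-- the case M = {ab}: the only pair of colours of `x` occurring on arcs about `x` -/
theorem CC.fourSingle (h : CC F) {x : ℂ} {q a b c d : Fin 5} (hnd : [q, a, b, c, d].Nodup)
    (hq : x ∉ F q) (_ha : x ∈ F a) (_hb : x ∈ F b) (_hc : x ∈ F c) (_hd : x ∈ F d)
    (hac : ¬ Arc F x a c) (had : ¬ Arc F x a d) (hbc : ¬ Arc F x b c) (hbd : ¬ Arc F x b d)
    (hcd : ¬ Arc F x c d) : False := by
  have hsym : ∀ {i j : Fin 5}, Arc F x i j → Arc F x j i := by
    rintro i j ⟨t, ht⟩
    exact ⟨t, ht.mono fun _ hs => hs.symm⟩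
  set ω := cis (Real.pi / 3) with hω
  have key : ∀ t u, (u = 0 ∨ u = Real.pi / 3) → Gen F x {1, ω} t →
      x + cis u * cis t ∈ F q ∨ (x + cis u * cis t ∈ F a ∧ x + cis u * cis t ∈ F b) := by
    intro t u hu hg
    have hmem : cis u ∈ ({1, ω} : Finset ℂ) := by
      rcases hu with rfl | rfl
      · simp
      · simp [hω]
    by_cases hq' : x + cis u * cis t ∈ F q
    · exact Or.inl hq'
    · right
      have hS : ∀ i, x + cis u * cis t ∈ F i → x ∈ F i := by
        intro i hi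
        rcases five_list q a b c d hnd i with rfl | rfl | rfl | rfl | rfl
        · exact absurd hi hq'
        all_goals assumption
      obtain ⟨i, j, hij, hi, hj, hxi, hxj, harc⟩ := h.gen_pair hg hmem hS
      have hiq : i ≠ q := by rintro rfl; exact hq hxi
      have hjq : j ≠ q := by rintro rfl; exact hq hxj
      rcases five_list q a b c d hnd i with e | e | e | e | e <;>
      rcases five_list q a b c d hnd j with e' | e' | e' | e' | e' <;>
      rw [e] at hij hi hxi harc hiq <;> rw [e'] at hij hj hxj harc hjq <;>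
      first
        | exact absurd rfl hij
        | exact absurd rfl hiq
        | exact absurd rfl hjq
        | exact ⟨hi, hj⟩
        | exact ⟨hj, hi⟩
        | exact absurd harc ‹_›
        | exact absurd (hsym harc) ‹_›
  have hz : ∀ t, Gen F x {1, ω} t → x + (1 + ω) * cis t ∈ F c ∪ F d := by
    intro t hg
    have h0 := key t 0 (Or.inl rfl) hg
    have h1 := key t (Real.pi / 3) (Or.inr rfl) hg
    rw [← hω] at h1
    rw [cis_zero] at h0
    have hωim : 0 < ω.im := cis_im_pos_third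
    have hω1 : ‖ω‖ = 1 := norm_cis _
    -- crossing facts
    have d01 : dist (1 : ℂ) ω = 1 := by
      rw [dist_comm, dist_eq_norm, hω, ← cis_zero]
      have := norm_cis_add_pi_div_three 0
      rwa [zero_add] at this
    have i01 : ((1 : ℂ) * (starRingEnd ℂ) ω).im ≠ 0 := by
      simp only [one_mul, Complex.conj_im]; linarith only [hωim]
    have d0z : dist (1 : ℂ) (1 + ω) = 1 := by rw [dist_eq_norm]; simpa using hω1
    have i0z : ((1 : ℂ) * (starRingEnd ℂ) (1 + ω)).im ≠ 0 := by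
      simp only [one_mul, Complex.conj_im, Complex.add_im, Complex.one_im]; linarith only [hωim]
    have d1z : dist ω (1 + ω) = 1 := by rw [dist_eq_norm]; simp
    have i1z : (ω * (starRingEnd ℂ) (1 + ω)).im ≠ 0 := by
      have : (ω * (starRingEnd ℂ) (1 + ω)).im = ω.im := by
        simp only [Complex.mul_im, Complex.conj_re, Complex.conj_im, Complex.add_re,
          Complex.add_im, Complex.one_re, Complex.one_im]
        ring
      rw [this]; exact hωim.ne'
    have c01 : ∀ i, x + 1 * cis t ∈ F i → x + ω * cis t ∉ F i := fun i hi =>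
      h.gen_cross hg (by simp) d01 i01 hi
    have c0z : ∀ i, x + 1 * cis t ∈ F i → x + (1 + ω) * cis t ∉ F i := fun i hi =>
      h.gen_cross hg (by simp) d0z i0z hi
    have c1z : ∀ i, x + ω * cis t ∈ F i → x + (1 + ω) * cis t ∉ F i := fun i hi =>
      h.gen_cross hg (by simp) d1z i1z hi
    have hmiss : x + (1 + ω) * cis t ∉ F q ∧ x + (1 + ω) * cis t ∉ F a ∧
        x + (1 + ω) * cis t ∉ F b := by
      rcases h0 with h0 | ⟨h0a, h0b⟩
      · rcases h1 with h1 | ⟨h1a, h1b⟩
        · exact absurd h1 (c01 q h0)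
        · exact ⟨c0z q h0, c1z a h1a, c1z b h1b⟩
      · rcases h1 with h1 | ⟨h1a, h1b⟩
        · exact ⟨c1z q h1, c0z a h0a, c0z b h0b⟩
        · exact absurd h1a (c01 a h0a)
    obtain ⟨i, hi⟩ := h.cover (x + (1 + ω) * cis t)
    rcases five_list q a b c d hnd i with rfl | rfl | rfl | rfl | rfl
    · exact absurd hi hmiss.1
    · exact absurd hi hmiss.2.1
    · exact absurd hi hmiss.2.2
    · exact Or.inl hi
    · exact Or.inr hi
  refine h.irr_sqrt_three (k := c) (m := d) (x := x) ?_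
  intro z hz'
  have := h.gen_circle one_add_cis_third {1, ω} ((h.closed c).union (h.closed d)) hz
    (z := z) (by rw [hz', norm_one_add_cis_third])
  exact this

end Vale.Agent.P032.B
end
end

section

section

/-! Class II points: four colours, all arc pairs share a common colour `p`. -/

namespace Vale.Agent.P032.B

open Set Topology

variable {F : Fin 5 → Set ℂ}

/-- Class II points. -/
structure Two (F : Fin 5 → Set ℂ) (x : ℂ) (p q a b c : Fin 5) : Prop where
  nodup : [p, q, a, b, c].Nodup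
  hp : x ∈ F p
  hq : x ∉ F q
  ha : x ∈ F a
  hb : x ∈ F b
  hc : x ∈ F c
  pa : Arc F x p a
  pb : Arc F x p b
  ab : ¬ Arc F x a b
  ac : ¬ Arc F x a c
  bc : ¬ Arc F x b c

theorem star_cov (h : CC F) {x : ℂ} {p q a b c : Fin 5} (hnd : [p, q, a, b, c].Nodup)
    (hq : x ∉ F q) (ha : x ∈ F a) (hb : x ∈ F b) (hc : x ∈ F c) (hab : ¬ Arc F x a b)
    (hac : ¬ Arc F x a c) (hbc : ¬ Arc F x b c) : Star F x p q a b c := by
  refine ⟨hnd, fun z hz => ?_, hq, ha, hb, hc⟩
  refine h.gen_circle (w := 1) (V := {cis 0}) one_ne_zero (C := F p ∪ F q)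
    ((h.closed p).union (h.closed q)) ?_ (by rw [hz, norm_one])
  intro t hg
  by_contra hcon
  rw [mem_union, not_or] at hcon
  have e : x + 1 * cis t = x + cis 0 * cis t := by rw [cis_zero]
  rw [e] at hcon
  have hex := exhaust hnd
  have hS : ∀ i, x + cis 0 * cis t ∈ F i → i = a ∨ i = b ∨ i = c := by
    intro i hi
    rcases hex i with rfl | rfl | h3
    · exact absurd hi hcon.1
    · exact absurd hi hcon.2
    · exact h3
  obtain ⟨i, j, hij, hi, hj, -, -, harc⟩ := h.gen_pair (u := 0) hg (by simp) (fun i hi => by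
    rcases hS i hi with rfl | rfl | rfl
    · exact ha
    · exact hb
    · exact hc)
  rcases hS i hi with rfl | rfl | rfl <;> rcases hS j hj with rfl | rfl | rfl
  · exact hij rfl
  · exact hab harc
  · exact hac harc
  · exact hab harc.symm
  · exact hij rfl
  · exact hbc harc
  · exact hac harc.symm
  · exact hbc harc.symm
  · exact hij rfl

theorem iness_tri4 (h : CC F) {x : ℂ} {u v w t : Fin 5}
    (hS : ∀ k, x ∈ F k → k = u ∨ k = v ∨ k = w ∨ k = t) (huv : u ≠ v) (huw : u ≠ w) (hvw : v ≠ w)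
    (h1 : Arc F x u v) (h2 : Arc F x u w) (h3 : Arc F x v w) : Iness F x := by
  refine iness_of_graph h (fun i j => i = t ∨ j = t) ?_ fun θ hθ => exact_star t (fun i j => id) hθ
  filter_upwards [h.notExact huv h1, h.notExact huw h2, h.notExact hvw h3, h.nhd x]
    with z hz1 hz2 hz3 hz' i j hij hi hj hk
  by_contra hcon
  push Not at hcon
  have hk' : ∀ k, z ∈ F k → k = j ∨ k = i := fun k hk' => (hk k hk').symm
  have key : ∀ i' j' : Fin 5, i = i' → j = j' → z ∈ F i' ∧ z ∈ F j' ∧ ∀ k, z ∈ F k → k = i' ∨ k = j' := by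
    rintro i' j' rfl rfl; exact ⟨hi, hj, hk⟩
  have key' : ∀ i' j' : Fin 5, i = i' → j = j' → z ∈ F j' ∧ z ∈ F i' ∧ ∀ k, z ∈ F k → k = j' ∨ k = i' := by
    rintro i' j' rfl rfl; exact ⟨hj, hi, hk'⟩
  rcases hS i (hz' i hi) with e | e | e | e
  · rcases hS j (hz' j hj) with e' | e' | e' | e'
    · exact hij (e.trans e'.symm)
    · exact hz1 (key _ _ e e')
    · exact hz2 (key _ _ e e')
    · exact hcon.2 e'
  · rcases hS j (hz' j hj) with e' | e' | e' | e'
    · exact hz1 (key' _ _ e e')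
    · exact hij (e.trans e'.symm)
    · exact hz3 (key _ _ e e')
    · exact hcon.2 e'
  · rcases hS j (hz' j hj) with e' | e' | e' | e'
    · exact hz2 (key' _ _ e e')
    · exact hz3 (key' _ _ e e')
    · exact hij (e.trans e'.symm)
    · exact hcon.2 e'
  · exact hcon.1 e

theorem iness_path4 (h : CC F) {x : ℂ} {u v w t : Fin 5} (hnd : [w, u, t, v].Nodup)
    (hS : ∀ k, x ∈ F k → k = u ∨ k = v ∨ k = w ∨ k = t)
    (h1 : Arc F x u v) (h2 : Arc F x v w) (h3 : Arc F x w t) : Iness F x := by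
  have hnd' := hnd
  simp only [List.nodup_cons, List.mem_cons, List.not_mem_nil, or_false, not_or,
    not_false_eq_true, List.nodup_nil, and_true] at hnd'
  obtain ⟨⟨hwu, hwt, hwv⟩, ⟨hut, huv⟩, htv⟩ := hnd'
  refine iness_of_graph h (fun i j => (i = w ∧ j = u) ∨ (i = u ∧ j = w) ∨ (i = u ∧ j = t) ∨
    (i = t ∧ j = u) ∨ (i = t ∧ j = v) ∨ (i = v ∧ j = t)) ?_
    fun θ hθ => exact_path hnd (fun i j => id) hθ
  filter_upwards [h.notExact huv h1, h.notExact (Ne.symm hwv) h2, h.notExact hwt h3, h.nhd x]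
    with z hz1 hz2 hz3 hz' i j hij hi hj hk
  have hk' : ∀ k, z ∈ F k → k = j ∨ k = i := fun k hk' => (hk k hk').symm
  have key : ∀ i' j' : Fin 5, i = i' → j = j' → z ∈ F i' ∧ z ∈ F j' ∧ ∀ k, z ∈ F k → k = i' ∨ k = j' := by
    rintro i' j' rfl rfl; exact ⟨hi, hj, hk⟩
  have key' : ∀ i' j' : Fin 5, i = i' → j = j' → z ∈ F j' ∧ z ∈ F i' ∧ ∀ k, z ∈ F k → k = j' ∨ k = i' := by
    rintro i' j' rfl rfl; exact ⟨hj, hi, hk'⟩
  rcases hS i (hz' i hi) with e | e | e | e
  · rcases hS j (hz' j hj) with e' | e' | e' | e'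
    · exact absurd (e.trans e'.symm) hij
    · exact absurd (key _ _ e e') hz1
    · exact Or.inr (Or.inl ⟨e, e'⟩)
    · exact Or.inr (Or.inr (Or.inl ⟨e, e'⟩))
  · rcases hS j (hz' j hj) with e' | e' | e' | e'
    · exact absurd (key' _ _ e e') hz1
    · exact absurd (e.trans e'.symm) hij
    · exact absurd (key _ _ e e') hz2
    · exact Or.inr (Or.inr (Or.inr (Or.inr (Or.inr ⟨e, e'⟩))))
  · rcases hS j (hz' j hj) with e' | e' | e' | e'
    · exact Or.inl ⟨e, e'⟩
    · exact absurd (key' _ _ e e') hz2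
    · exact absurd (e.trans e'.symm) hij
    · exact absurd (key _ _ e e') hz3
  · rcases hS j (hz' j hj) with e' | e' | e' | e'
    · exact Or.inr (Or.inr (Or.inr (Or.inl ⟨e, e'⟩)))
    · exact Or.inr (Or.inr (Or.inr (Or.inr (Or.inl ⟨e, e'⟩))))
    · exact absurd (key' _ _ e e') hz3
    · exact absurd (e.trans e'.symm) hij

/-- points near a class II point -/
theorem Two.iso (h : CC F) (htri : TriFree F) {x : ℂ} {p q a b c : Fin 5}
    (hx : Two F x p q a b c) : ∀ᶠ z in 𝓝 x, z ≠ x → Iness F z := by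
  have hst := star_cov h hx.nodup hx.hq hx.ha hx.hb hx.hc hx.ab hx.ac hx.bc
  obtain ⟨r1, hr1, hs4⟩ := hst.s4 h
  have hnd := hx.nodup
  have hex := exhaust hnd
  simp only [List.nodup_cons, List.mem_cons, List.not_mem_nil, or_false, not_or,
    not_false_eq_true, List.nodup_nil, and_true] at hnd
  obtain ⟨⟨hpq, hpa, hpb, hpc⟩, ⟨hqa, hqb, hqc⟩, ⟨hab, hac⟩, hbc⟩ := hnd
  filter_upwards [h.broken' hpa hx.pa, h.broken' hpb hx.pb, h.nhd x, Metric.ball_mem_nhds x hr1]
    with z hz1 hz2 hzn hzr hzx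
  have hS : ∀ k, z ∈ F k → k = p ∨ k = a ∨ k = b ∨ k = c := by
    intro k hk
    rcases hex k with rfl | rfl | h3
    · exact Or.inl rfl
    · exact absurd (hzn _ hk) hx.hq
    · exact Or.inr h3
  have hzq : z ∉ F q := fun hk => hx.hq (hzn q hk)
  by_cases hzp : z ∈ F p
  swap
  · by_cases hza : z ∈ F a
    swap
    · exact iness_of_two h (i := b) (j := c) fun k hk => by
        rcases hS k hk with rfl | rfl | h'
        · exact absurd hk hzp
        · exact absurd hk hza
        · exact h'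
    by_cases hzb : z ∈ F b
    swap
    · exact iness_of_two h (i := a) (j := c) fun k hk => by
        rcases hS k hk with rfl | rfl | rfl | rfl
        · exact absurd hk hzp
        · exact Or.inl rfl
        · exact absurd hk hzb
        · exact Or.inr rfl
    by_cases hzc : z ∈ F c
    swap
    · exact iness_of_two h (i := a) (j := b) fun k hk => by
        rcases hS k hk with rfl | rfl | rfl | rfl
        · exact absurd hk hzp
        · exact Or.inl rfl
        · exact Or.inr rfl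
        · exact absurd hk hzc
    exact iness_three h htri hx.nodup hzp hzq hza hzb hzc
  by_cases hza : z ∈ F a
  swap
  · by_cases hzb : z ∈ F b
    swap
    · exact iness_of_two h (i := p) (j := c) fun k hk => by
        rcases hS k hk with rfl | rfl | rfl | rfl
        · exact Or.inl rfl
        · exact absurd hk hza
        · exact absurd hk hzb
        · exact Or.inr rfl
    by_cases hzc : z ∈ F c
    swap
    · exact iness_of_two h (i := p) (j := b) fun k hk => by
        rcases hS k hk with rfl | rfl | rfl | rfl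
        · exact Or.inl rfl
        · exact absurd hk hza
        · exact Or.inr rfl
        · exact absurd hk hzc
    refine iness_three h htri (p := a) (q := q) (a := p) (b := b) (c := c) ?_ hza hzq hzp hzb hzc
    simp only [List.nodup_cons, List.mem_cons, List.not_mem_nil, or_false, not_or,
      not_false_eq_true, List.nodup_nil, and_true]
    exact ⟨⟨Ne.symm hqa, Ne.symm hpa, hab, hac⟩, ⟨Ne.symm hpq, hqb, hqc⟩, ⟨hpb, hpc⟩, hbc⟩
  by_cases hzb : z ∈ F b
  swap
  · by_cases hzc : z ∈ F c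
    swap
    · exact iness_of_two h (i := p) (j := a) fun k hk => by
        rcases hS k hk with rfl | rfl | rfl | rfl
        · exact Or.inl rfl
        · exact Or.inr rfl
        · exact absurd hk hzb
        · exact absurd hk hzc
    refine iness_three h htri (p := b) (q := q) (a := p) (b := a) (c := c) ?_ hzb hzq hzp hza hzc
    simp only [List.nodup_cons, List.mem_cons, List.not_mem_nil, or_false, not_or,
      not_false_eq_true, List.nodup_nil, and_true]
    exact ⟨⟨Ne.symm hqb, Ne.symm hpb, Ne.symm hab, hbc⟩, ⟨Ne.symm hpq, hqa, hqc⟩, ⟨hpa, hpc⟩, hac⟩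
  by_cases hzc : z ∈ F c
  swap
  · refine iness_three h htri (p := c) (q := q) (a := p) (b := a) (c := b) ?_ hzc hzq hzp hza hzb
    simp only [List.nodup_cons, List.mem_cons, List.not_mem_nil, or_false, not_or,
      not_false_eq_true, List.nodup_nil, and_true]
    exact ⟨⟨Ne.symm hqc, Ne.symm hpc, Ne.symm hac, Ne.symm hbc⟩, ⟨Ne.symm hpq, hqa, hqb⟩,
      ⟨hpa, hpb⟩, hab⟩
  obtain ⟨hApa, -⟩ := hz1 hzp hza
  obtain ⟨hApb, -⟩ := hz2 hzp hzb
  by_cases hAab : Arc F z a b
  · exact iness_tri4 h hS hpa hpb hab hApa hApb hAab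
  by_cases hAac : Arc F z a c
  · -- path b - p - a - c
    refine iness_path4 h (u := b) (v := p) (w := a) (t := c) ?_ (fun k hk => ?_) hApb.symm hApa hAac
    · simp only [List.nodup_cons, List.mem_cons, List.not_mem_nil, or_false, not_or,
        not_false_eq_true, List.nodup_nil, and_true]
      exact ⟨⟨hab, hac, Ne.symm hpa⟩, ⟨hbc, Ne.symm hpb⟩, Ne.symm hpc⟩
    · have := hS k hk; (clear * - hz1 hz2 this hzp hza hzb; tauto)
  by_cases hAbc : Arc F z b c
  · -- path a - p - b - c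
    refine iness_path4 h (u := a) (v := p) (w := b) (t := c) ?_ (fun k hk => ?_) hApa.symm hApb hAbc
    · simp only [List.nodup_cons, List.mem_cons, List.not_mem_nil, or_false, not_or,
        not_false_eq_true, List.nodup_nil, and_true]
      exact ⟨⟨Ne.symm hab, hbc, Ne.symm hpb⟩, ⟨hac, Ne.symm hpa⟩, Ne.symm hpc⟩
    · have := hS k hk; (clear * - hz1 hz2 this hzp hza hzb; tauto)
  have hcov := (star_cov h hx.nodup hzq hza hzb hzc hAab hAac hAbc).cov
  obtain ⟨g, hg, hgp, hgq⟩ := hs4 z hzr hzx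
  rcases hcov g hg with h' | h'
  · exact absurd h' hgp
  · exact absurd h' hgq

theorem rectJ (h : CC F) {x w : ℂ} {j e : Fin 5} (hw : dist w x = 1)
    (harc : ∀ᶠ s in 𝓝 (0 : ℝ), x + (w - x) * cis s ∈ F j)
    (hout : ∀ ε > 0, ∃ v ∈ F j, dist v w < ε ∧ 1 < dist v x)
    (hin : ∀ ε > 0, ∃ v ∈ F j, dist v w < ε ∧ dist v x < 1) :
    ∀ ρ > 0, ∃ R, IsCompact R ∧ R ⊆ Metric.ball x ρ ∧ x ∈ interior R ∧
      ∀ v ∈ frontier R, v ∉ F j ∨ v ∉ F e := by
  refine h.rect (w := w) ?_ ?_ ?_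
  · intro ε hε
    obtain ⟨v, hv, hv1, hv2⟩ := hout ε hε
    obtain ⟨v', hv', hd⟩ := Metric.mem_closure_iff.1 (h.reg j hv) (min (ε - dist v w) (dist v x - 1))
      (lt_min (by linarith only [hv1]) (by linarith))
    have h1 := (hd.trans_le (min_le_left _ _))
    have h2 := (hd.trans_le (min_le_right _ _))
    refine ⟨v', ?_, ?_, fun z hz => Or.inl (h.leaf hv' hz)⟩
    · have := dist_triangle v' v w
      rw [dist_comm v' v] at this
      linarith
    · have := dist_triangle v v' x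
      linarith
  · intro ε hε
    obtain ⟨v, hv, hv1, hv2⟩ := hin ε hε
    obtain ⟨v', hv', hd⟩ := Metric.mem_closure_iff.1 (h.reg j hv) (min (ε - dist v w) (1 - dist v x))
      (lt_min (by linarith) (by linarith))
    have h1 := (hd.trans_le (min_le_left _ _))
    have h2 := (hd.trans_le (min_le_right _ _))
    refine ⟨v', ?_, ?_, fun z hz => Or.inl (h.leaf hv' hz)⟩
    · have := dist_triangle v' v w
      rw [dist_comm v' v] at this
      linarith
    · have := dist_triangle v' v x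
      rw [dist_comm v' v] at this
      linarith
  · intro ρ0 hρ0
    obtain ⟨ρ, h1, h2, h3⟩ := ends_arc' h hw harc ρ0 hρ0
    exact ⟨ρ, h1, h2, fun g hg hgx => Or.inl (h3 g hg hgx)⟩

theorem Two.oneSide (h : CC F) (htri : TriFree F) {x : ℂ} {p q a b c : Fin 5}
    (hx : Two F x p q a b c) (hI : ¬ Iness F x) {w : ℂ} (hw : dist w x = 1) {j : Fin 5}
    (hj : j = a ∨ j = b ∨ j = c)
    (harc : ∀ᶠ s in 𝓝 (0 : ℝ), x + (w - x) * cis s ∈ F p ∧ x + (w - x) * cis s ∈ F j) :
    (∃ ε > 0, ∀ v ∈ F j, dist v w < ε → dist v x ≤ 1) ∨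
      (∃ ε > 0, ∀ v ∈ F j, dist v w < ε → 1 ≤ dist v x) := by
  by_contra hcon
  push Not at hcon
  obtain ⟨hout, hin⟩ := hcon
  apply hI
  have hrect : ∀ e : Fin 5, _ := fun e =>
    rectJ h (e := e) hw (harc.mono fun s hs => hs.2) hout hin
  have hnd := hx.nodup
  have hex := exhaust hnd
  simp only [List.nodup_cons, List.mem_cons, List.not_mem_nil, or_false, not_or,
    not_false_eq_true, List.nodup_nil, and_true] at hnd
  obtain ⟨⟨hpq, hpa, hpb, hpc⟩, ⟨hqa, hqb, hqc⟩, ⟨hab, hac⟩, hbc⟩ := hnd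
  -- the arc at `x`
  have harcx : Arc F x p j := by
    obtain ⟨α, hα⟩ := exists_cis (v := w - x) (by rw [← dist_eq_norm, hw])
    refine ⟨α, ?_⟩
    rw [hα] at harc
    have h2 : Filter.Tendsto (fun s : ℝ => s - α) (𝓝 α) (𝓝 0) := by
      have : Continuous (fun s : ℝ => s - α) := by fun_prop
      have h3 := this.tendsto α
      simpa using h3
    filter_upwards [h2.eventually harc] with s hs
    rw [← cis_add, show α + (s - α) = s by ring] at hs
    exact hs
  have hev : ∀ᶠ z in 𝓝 x, (z ≠ x → Iness F z) ∧ (z ∈ F p → z ∈ F a → ∃ k, k ≠ p ∧ k ≠ a ∧ z ∈ F k) ∧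
      (z ∈ F p → z ∈ F b → ∃ k, k ≠ p ∧ k ≠ b ∧ z ∈ F k) ∧
      (j = c → z ∈ F p → z ∈ F c → ∃ k, k ≠ p ∧ k ≠ c ∧ z ∈ F k) ∧
      (∀ k, z ∈ F k → x ∈ F k) := by
    have hpc' : ∀ᶠ z in 𝓝 x, (j = c → z ∈ F p → z ∈ F c → ∃ k, k ≠ p ∧ k ≠ c ∧ z ∈ F k) := by
      by_cases hjc : j = c
      · subst hjc
        filter_upwards [h.broken' hpc harcx] with z hz _ h1 h2 using (hz h1 h2).2
      · exact Filter.Eventually.of_forall fun z h1 => absurd h1 hjc
    filter_upwards [hx.iso h htri, h.broken' hpa hx.pa, h.broken' hpb hx.pb, hpc', h.nhd x]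
      with z h1 h2 h3 h4 h5
    exact ⟨h1, fun u v => (h2 u v).2, fun u v => (h3 u v).2, h4, h5⟩
  obtain ⟨r, hr, hball⟩ := Metric.eventually_nhds_iff_ball.1 hev
  have hS : ∀ z ∈ Metric.ball x r, ∀ k, z ∈ F k → k = p ∨ k = a ∨ k = b ∨ k = c := by
    intro z hz k hk
    have hxk := (hball z hz).2.2.2.2 k hk
    rcases hex k with rfl | rfl | h3
    · exact Or.inl rfl
    · exact absurd hxk hx.hq
    · exact Or.inr h3
  by_cases hjc : j = c
  · -- all pairs with `p` are broken
    refine iness_of_iso h htri hr (fun i j => i ≠ j ∧ (i = a ∨ i = b ∨ i = c) ∧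
      (j = a ∨ j = b ∨ j = c)) ?_ (a := c) (b := a) ?_ (fun z hz => (hball z hz).1)
      (by rw [← hjc]; exact hrect a)
    · intro z hz i k hik hi hk hik'
      obtain ⟨-, b1, b2, b3, -⟩ := hball z hz
      have hip : ∀ u v, z ∈ F u → z ∈ F v → (∀ k, z ∈ F k → k = u ∨ k = v) → u ≠ v → u ≠ p := by
        rintro u v hu hv huv hne rfl
        rcases hS z hz v hv with rfl | rfl | rfl | rfl
        · exact hne rfl
        · obtain ⟨k, k1, k2, k3⟩ := b1 hu hv
          rcases huv k k3 with e | e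
          · exact k1 e
          · exact k2 e
        · obtain ⟨k, k1, k2, k3⟩ := b2 hu hv
          rcases huv k k3 with e | e
          · exact k1 e
          · exact k2 e
        · obtain ⟨k, k1, k2, k3⟩ := b3 hjc hu hv
          rcases huv k k3 with e | e
          · exact k1 e
          · exact k2 e
      have h1 := hip i k hi hk hik' hik
      have h2 := hip k i hk hi (fun l hl => (hik' l hl).symm) hik.symm
      refine ⟨hik, ?_, ?_⟩
      · exact (hS z hz i hi).resolve_left h1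
      · exact (hS z hz k hk).resolve_left h2
    · intro θ hθ
      obtain ⟨f, hf⟩ := exact_star (Gr := fun i j => (i ≠ j ∧ (i = a ∨ i = b ∨ i = c) ∧
        (j = a ∨ j = b ∨ j = c)) ∧ ¬ (i = c ∧ j = a) ∧ ¬ (i = a ∧ j = c)) b
        (fun i j hij => by
          obtain ⟨⟨h1, h2, h3⟩, h4, h5⟩ := hij
          rcases h2 with e | e | e
          · rcases h3 with e' | e' | e'
            · exact absurd (e.trans e'.symm) h1
            · exact Or.inr e'
            · exact absurd ⟨e, e'⟩ h5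
          · exact Or.inl e
          · rcases h3 with e' | e' | e'
            · exact absurd ⟨e, e'⟩ h4
            · exact Or.inr e'
            · exact absurd (e.trans e'.symm) h1) hθ
      exact ⟨f, fun i j h1 h2 h3 => hf i j ⟨h1, h2, h3⟩⟩
  · have hRab : ∀ ρ > 0, ∃ R, IsCompact R ∧ R ⊆ Metric.ball x ρ ∧ x ∈ interior R ∧
      ∀ v ∈ frontier R, v ∉ F a ∨ v ∉ F b := by
      rcases hj with rfl | rfl | rfl
      · exact hrect b
      · intro ρ hρ
        obtain ⟨R, h1, h2, h3, h4⟩ := hrect a ρ hρ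
        exact ⟨R, h1, h2, h3, fun v hv => (h4 v hv).symm⟩
      · exact absurd rfl hjc
    refine iness_of_iso h htri hr (fun i j => i ≠ j ∧ ((i = a ∧ j = b) ∨ (i = b ∧ j = a) ∨ i = c ∨ j = c))
      ?_ (a := a) (b := b) ?_ (fun z hz => (hball z hz).1) hRab
    · intro z hz i k hik hi hk hik'
      obtain ⟨-, b1, b2, b3, -⟩ := hball z hz
      have hip : ∀ u v, z ∈ F u → z ∈ F v → (∀ k, z ∈ F k → k = u ∨ k = v) → u ≠ v → u = p → v = c := by
        rintro u v hu hv huv hne rfl
        rcases hS z hz v hv with rfl | rfl | rfl | rfl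
        · exact absurd rfl hne
        · obtain ⟨k, k1, k2, k3⟩ := b1 hu hv
          rcases huv k k3 with e | e
          · exact absurd e k1
          · exact absurd e k2
        · obtain ⟨k, k1, k2, k3⟩ := b2 hu hv
          rcases huv k k3 with e | e
          · exact absurd e k1
          · exact absurd e k2
        · rfl
      have h1 := hip i k hi hk hik' hik
      have h2 := hip k i hk hi (fun l hl => (hik' l hl).symm) hik.symm
      refine ⟨hik, ?_⟩
      rcases hS z hz i hi with e | e | e | e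
      · exact Or.inr (Or.inr (Or.inr (h1 e)))
      · rcases hS z hz k hk with e' | e' | e' | e'
        · exact Or.inr (Or.inr (Or.inl (h2 e')))
        · exact absurd (e.trans e'.symm) hik
        · exact Or.inl ⟨e, e'⟩
        · exact Or.inr (Or.inr (Or.inr e'))
      · rcases hS z hz k hk with e' | e' | e' | e'
        · exact Or.inr (Or.inr (Or.inl (h2 e')))
        · exact Or.inr (Or.inl ⟨e, e'⟩)
        · exact absurd (e.trans e'.symm) hik
        · exact Or.inr (Or.inr (Or.inr e'))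
      · exact Or.inr (Or.inr (Or.inl e))
    · intro θ hθ
      obtain ⟨f, hf⟩ := exact_star (Gr := fun i j => (i ≠ j ∧ ((i = a ∧ j = b) ∨ (i = b ∧ j = a) ∨
        i = c ∨ j = c)) ∧ ¬ (i = a ∧ j = b) ∧ ¬ (i = b ∧ j = a)) c
        (fun i j hij => by
          obtain ⟨⟨h1, h2⟩, h4, h5⟩ := hij
          rcases h2 with e | e | e | e
          · exact absurd e h4
          · exact absurd e h5
          · exact Or.inl e
          · exact Or.inr e) hθ
      exact ⟨f, fun i j h1 h2 h3 => hf i j ⟨h1, h2, h3⟩⟩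

end Vale.Agent.P032.B
end
end

section

section

/-! Class II points: the common colour lies on one side of generic lines. -/

namespace Vale.Agent.P032.B

open Set Topology

variable {F : Fin 5 → Set ℂ}

theorem half_formula (α θ u : ℝ) :
    ‖cis θ + cis α * (cis u - 1)‖ ^ 2 - 1 =
      4 * Real.sin (u / 2) * (Real.sin (u / 2) + Real.sin (θ - α - u / 2)) := by
  have e1 : cis θ + cis α * (cis u - 1) = cis α * (cis (θ - α) + (cis u - 1)) := by
    have : cis θ = cis α * cis (θ - α) := by rw [← cis_add]; congr 1; ring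
    rw [this]; ring
  rw [e1, norm_mul, norm_cis, one_mul]
  obtain ⟨v, rfl⟩ : ∃ v, u = 2 * v := ⟨u / 2, by ring⟩
  rw [show 2 * v / 2 = v by ring, Real.sin_sub]
  rw [← Complex.normSq_eq_norm_sq, Complex.normSq_apply]
  simp only [Complex.add_re, Complex.add_im, Complex.sub_re, Complex.sub_im, cis_re, cis_im,
    Complex.one_re, Complex.one_im, Real.cos_two_mul, Real.sin_two_mul]
  have h1 := Real.sin_sq_add_cos_sq (θ - α)
  have h2 := Real.sin_sq_add_cos_sq v
  have h3 : Real.cos v ^ 2 = 1 - Real.sin v ^ 2 := by linarith only [h2]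
  rw [h3]
  linear_combination h1 + 4 * Real.sin v ^ 2 * h2

theorem nonfree {x y : ℂ} {p : Fin 5} (hy : dist y x = 1) (h : ¬ Free F x y p) :
    ∃ σ : ℝ, (σ = 1 ∨ σ = -1) ∧ ∀ ε > 0, ∃ u, 0 < u ∧ u < ε ∧ ch x y (σ * u) ∈ F p := by
  by_contra hcon
  push Not at hcon
  obtain ⟨ε1, hε1, h1⟩ := hcon 1 (Or.inl rfl)
  obtain ⟨ε2, hε2, h2⟩ := hcon (-1) (Or.inr rfl)
  apply h
  obtain ⟨δ, hδ, hs⟩ := ch_surj hy (lt_min hε1 hε2)
  refine ⟨δ, hδ, fun z hz hz0 hzδ => ?_⟩
  obtain ⟨s, hs, rfl⟩ := hs z hz hzδ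
  have hs0 : s ≠ 0 := by
    rintro rfl
    rw [ch_zero, dist_self] at hz0
    exact lt_irrefl _ hz0
  rcases lt_or_gt_of_ne hs0 with h0 | h0
  · have := h2 (-s) (by linarith only [h0]) (by
      have := hs.trans_le (min_le_right _ _)
      rwa [abs_of_neg h0] at this)
    simpa using this
  · have := h1 s h0 (by
      have := hs.trans_le (min_le_left _ _)
      rwa [abs_of_pos h0] at this)
    simpa using this

theorem half_ch {x y : ℂ} {α : ℝ} (hα : x - y = cis α) (θ u : ℝ) :
    ‖cis θ + (ch x y u - x)‖ ^ 2 - 1 =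
      4 * Real.sin (u / 2) * (Real.sin (u / 2) + Real.sin (θ - α - u / 2)) := by
  rw [← half_formula, ch, hα]
  have : y + cis α * cis u - x = cis α * (cis u - 1) := by
    rw [mul_sub, ← hα]; ring
  rw [this]

theorem half_cont (A : ℝ) : Filter.Tendsto (fun u : ℝ => Real.sin (u / 2) + Real.sin (A - u / 2))
    (𝓝 0) (𝓝 (Real.sin A)) := by
  have : Continuous fun u : ℝ => Real.sin (u / 2) + Real.sin (A - u / 2) := by fun_prop
  have h2 := this.tendsto 0
  simpa only [zero_div, Real.sin_zero, sub_zero, zero_add] using h2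

/-- points of `F p` on the positive side -/
theorem hside_pos {x y : ℂ} {p : Fin 5} {α σ θ : ℝ} (hα : x - y = cis α) (hσ : σ = 1 ∨ σ = -1)
    (hu : ∀ ε > 0, ∃ u, 0 < u ∧ u < ε ∧ ch x y (σ * u) ∈ F p) (hs : 0 < σ * Real.sin (θ - α)) :
    ¬ ∀ᶠ z in 𝓝 x, z ∈ F p → ‖cis θ + (z - x)‖ ≤ 1 := by
  intro hev
  have h1 : ∀ᶠ u in 𝓝 (0 : ℝ), 0 < σ * (Real.sin (u / 2) + Real.sin (θ - α - u / 2)) :=
    ((half_cont (θ - α)).const_mul σ).eventually (lt_mem_nhds hs)
  have h2 : Filter.Tendsto (ch x y) (𝓝 0) (𝓝 x) := by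
    have := (ch_cont x y).tendsto 0
    rwa [ch_zero] at this
  obtain ⟨ε, hε, hb⟩ := Metric.eventually_nhds_iff.1 (h1.and (h2.eventually hev))
  obtain ⟨u, hu0, hu1, hup⟩ := hu (min ε 1) (lt_min hε one_pos)
  have hu2 := hu1.trans_le (min_le_right _ _)
  have hpi := Real.pi_gt_three
  obtain ⟨h3, h4⟩ := hb (y := σ * u) (by
    rw [dist_zero_right, Real.norm_eq_abs, abs_mul]
    have : |σ| = 1 := by rcases hσ with rfl | rfl <;> simp
    rw [this, one_mul, abs_of_pos hu0]
    exact hu1.trans_le (min_le_left _ _))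
  have h5 := h4 hup
  have h6 := half_ch hα θ (σ * u)
  have h7 : 0 < Real.sin (u / 2) := Real.sin_pos_of_pos_of_lt_pi (by linarith only [hu0]) (by linarith only [hu2, hpi])
  have h8 : Real.sin (σ * u / 2) = σ * Real.sin (u / 2) := by
    rcases hσ with rfl | rfl
    · rw [one_mul, one_mul]
    · rw [neg_one_mul, neg_one_mul, neg_div, Real.sin_neg]
  have h9 : 0 < 4 * Real.sin (σ * u / 2) * (Real.sin (σ * u / 2) + Real.sin (θ - α - σ * u / 2)) := by
    have : ∀ g : ℝ, 4 * Real.sin (σ * u / 2) * g = 4 * Real.sin (u / 2) * (σ * g) := by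
      intro g; rw [h8]; ring
    rw [this]
    (clear * - h7 h3; positivity)
  rw [← h6] at h9
  have := norm_nonneg (cis θ + (ch x y (σ * u) - x))
  nlinarith only [h5, h9, this]

/-- points of `F p` on the negative side -/
theorem hside_neg {x y : ℂ} {p : Fin 5} {α σ θ : ℝ} (hα : x - y = cis α) (hσ : σ = 1 ∨ σ = -1)
    (hu : ∀ ε > 0, ∃ u, 0 < u ∧ u < ε ∧ ch x y (σ * u) ∈ F p) (hs : σ * Real.sin (θ - α) < 0) :
    ¬ ∀ᶠ z in 𝓝 x, z ∈ F p → 1 ≤ ‖cis θ + (z - x)‖ := by
  intro hev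
  have h1 : ∀ᶠ u in 𝓝 (0 : ℝ), σ * (Real.sin (u / 2) + Real.sin (θ - α - u / 2)) < 0 :=
    ((half_cont (θ - α)).const_mul σ).eventually (gt_mem_nhds hs)
  have h2 : Filter.Tendsto (ch x y) (𝓝 0) (𝓝 x) := by
    have := (ch_cont x y).tendsto 0
    rwa [ch_zero] at this
  obtain ⟨ε, hε, hb⟩ := Metric.eventually_nhds_iff.1 (h1.and (h2.eventually hev))
  obtain ⟨u, hu0, hu1, hup⟩ := hu (min ε 1) (lt_min hε one_pos)
  have hu2 := hu1.trans_le (min_le_right _ _)
  have hpi := Real.pi_gt_three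
  obtain ⟨h3, h4⟩ := hb (y := σ * u) (by
    rw [dist_zero_right, Real.norm_eq_abs, abs_mul]
    have : |σ| = 1 := by rcases hσ with rfl | rfl <;> simp
    rw [this, one_mul, abs_of_pos hu0]
    exact hu1.trans_le (min_le_left _ _))
  have h5 := h4 hup
  have h6 := half_ch hα θ (σ * u)
  have h7 : 0 < Real.sin (u / 2) := Real.sin_pos_of_pos_of_lt_pi (by linarith only [hu0]) (by linarith only [hu2, hpi])
  have h8 : Real.sin (σ * u / 2) = σ * Real.sin (u / 2) := by
    rcases hσ with rfl | rfl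
    · rw [one_mul, one_mul]
    · rw [neg_one_mul, neg_one_mul, neg_div, Real.sin_neg]
  have h9 : 4 * Real.sin (σ * u / 2) * (Real.sin (σ * u / 2) + Real.sin (θ - α - σ * u / 2)) < 0 := by
    have : ∀ g : ℝ, 4 * Real.sin (σ * u / 2) * g = 4 * Real.sin (u / 2) * (σ * g) := by
      intro g; rw [h8]; ring
    rw [this]
    exact mul_neg_of_pos_of_neg (by (clear * - h7; positivity)) h3
  rw [← h6] at h9
  nlinarith only [h5, h9]

/-- if colour `j` is absent outside near `w`, then `F p` is on one side near `x`. -/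
theorem half_out (h : CC F) {x : ℂ} {p j : Fin 5} (hpj : p ≠ j) {θ : ℝ}
    (harc : ∀ᶠ s in 𝓝 θ, x + cis s ∈ F p ∧ x + cis s ∈ F j)
    (hside : ∃ ε > 0, ∀ v ∈ F j, dist v (x + cis θ) < ε → dist v x ≤ 1) :
    ∀ᶠ z in 𝓝 x, z ∈ F p → ‖cis θ + (z - x)‖ ≤ 1 := by
  obtain ⟨ε, hε, hs⟩ := hside
  have h1 : Filter.Tendsto (fun z : ℂ => z + cis θ) (𝓝 x) (𝓝 (x + cis θ)) := by
    have : Continuous (fun z : ℂ => z + cis θ) := by fun_prop
    exact this.tendsto x
  filter_upwards [h1.eventually (h.arcQ hpj harc), h1.eventually (Metric.ball_mem_nhds _ hε)]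
    with z hz1 hz2 hzp
  by_contra hcon
  push Not at hcon
  have e : z + cis θ - x = cis θ + (z - x) := by ring
  refine h.single (i := p) (z := z + cis θ) ?_ (y := z) ?_ hzp
  · intro k hk
    rcases hz1 k hk with rfl | rfl
    · rfl
    · exfalso
      have := hs _ hk hz2
      rw [dist_eq_norm, e] at this
      linarith
  · rw [dist_eq_norm]; simp

theorem half_in (h : CC F) {x : ℂ} {p j : Fin 5} (hpj : p ≠ j) {θ : ℝ}
    (harc : ∀ᶠ s in 𝓝 θ, x + cis s ∈ F p ∧ x + cis s ∈ F j)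
    (hside : ∃ ε > 0, ∀ v ∈ F j, dist v (x + cis θ) < ε → 1 ≤ dist v x) :
    ∀ᶠ z in 𝓝 x, z ∈ F p → 1 ≤ ‖cis θ + (z - x)‖ := by
  obtain ⟨ε, hε, hs⟩ := hside
  have h1 : Filter.Tendsto (fun z : ℂ => z + cis θ) (𝓝 x) (𝓝 (x + cis θ)) := by
    have : Continuous (fun z : ℂ => z + cis θ) := by fun_prop
    exact this.tendsto x
  filter_upwards [h1.eventually (h.arcQ hpj harc), h1.eventually (Metric.ball_mem_nhds _ hε)]
    with z hz1 hz2 hzp
  by_contra hcon
  push Not at hcon
  have e : z + cis θ - x = cis θ + (z - x) := by ring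
  refine h.single (i := p) (z := z + cis θ) ?_ (y := z) ?_ hzp
  · intro k hk
    rcases hz1 k hk with rfl | rfl
    · rfl
    · exfalso
      have := hs _ hk hz2
      rw [dist_eq_norm, e] at this
      linarith
  · rw [dist_eq_norm]; simp

/-- a generic rotation has a `p j` arc in direction `t` or `t + π`. -/
theorem Two.genArc (h : CC F) {x : ℂ} {p q a b c : Fin 5} (hx : Two F x p q a b c) {t : ℝ}
    (hg : Gen F x {cis 0, cis (Real.pi / 3), cis (2 * (Real.pi / 3)), cis Real.pi} t) :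
    ∃ u, (u = 0 ∨ u = Real.pi) ∧ ∃ j, (j = a ∨ j = b ∨ j = c) ∧
      ∀ᶠ s in 𝓝 (u + t), x + cis s ∈ F p ∧ x + cis s ∈ F j := by
  have hst := star_cov h hx.nodup hx.hq hx.ha hx.hb hx.hc hx.ab hx.ac hx.bc
  have hnd := hx.nodup
  have hex := exhaust hnd
  -- a vertex without `q` has a pair with `p`
  have hpair : ∀ u, cis u ∈ ({cis 0, cis (Real.pi / 3), cis (2 * (Real.pi / 3)), cis Real.pi} :
      Finset ℂ) → x + cis u * cis t ∉ F q → x + cis u * cis t ∈ F p ∧ ∃ j, (j = a ∨ j = b ∨ j = c) ∧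
      ∀ᶠ s in 𝓝 (u + t), x + cis s ∈ F p ∧ x + cis s ∈ F j := by
    intro u hu hq
    have hS : ∀ i, x + cis u * cis t ∈ F i → i = p ∨ i = a ∨ i = b ∨ i = c := by
      intro i hi
      rcases hex i with rfl | rfl | h3
      · exact Or.inl rfl
      · exact absurd hi hq
      · exact Or.inr h3
    obtain ⟨i, j, hij, hi, hj, -, -, harc⟩ := h.gen_pair hg hu (fun i hi => by
      rcases hS i hi with rfl | rfl | rfl | rfl
      · exact hx.hp
      · exact hx.ha
      · exact hx.hb
      · exact hx.hc)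
    have hev := h.gen_arc hg hu hi hj
    have key : i = p ∨ j = p := by
      by_contra hcon
      push Not at hcon
      rcases (hS i hi).resolve_left hcon.1 with rfl | rfl | rfl <;>
        rcases (hS j hj).resolve_left hcon.2 with rfl | rfl | rfl
      · exact hij rfl
      · exact hx.ab harc
      · exact hx.ac harc
      · exact hx.ab harc.symm
      · exact hij rfl
      · exact hx.bc harc
      · exact hx.ac harc.symm
      · exact hx.bc harc.symm
      · exact hij rfl
    rcases key with rfl | rfl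
    · exact ⟨hi, j, (hS j hj).resolve_left (Ne.symm hij), hev⟩
    · exact ⟨hj, i, (hS i hi).resolve_left hij, hev.mono fun s hs => hs.symm⟩
  -- neighbours share no colour
  have hcross : ∀ u, cis u ∈ ({cis 0, cis (Real.pi / 3), cis (2 * (Real.pi / 3)), cis Real.pi} :
      Finset ℂ) → ∀ i, x + cis u * cis t ∈ F i → x + cis (u + Real.pi / 3) * cis t ∉ F i := by
    intro u hu i hi
    refine h.gen_cross hg hu ?_ ?_ hi
    · rw [dist_comm, dist_eq_norm]; exact norm_cis_add_pi_div_three u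
    · have e : cis u * (starRingEnd ℂ) (cis (u + Real.pi / 3)) = cis (-(Real.pi / 3)) := by
        rw [cis_sub_conj]; congr 1; ring
      rw [e, cis_im, Real.sin_neg, Real.sin_pi_div_three]
      have : (0 : ℝ) < √3 := by positivity
      intro h0; linarith only [this, h0]
  have hcov : ∀ u, x + cis u * cis t ∈ F p ∨ x + cis u * cis t ∈ F q := by
    intro u
    refine hst.cov _ ?_
    rw [dist_eq_norm, ← cis_add]; simp
  by_cases h0 : x + cis 0 * cis t ∉ F q
  · exact ⟨0, Or.inl rfl, (hpair 0 (by simp only [cis_zero, cis_pi, Finset.mem_insert, Finset.mem_singleton, true_or]) h0).2⟩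
  push Not at h0
  have h1 := hcross 0 (by simp only [cis_zero, cis_pi, Finset.mem_insert, Finset.mem_singleton, true_or]) q h0
  rw [zero_add] at h1
  have h1p := (hpair (Real.pi / 3) (by simp only [cis_zero, cis_pi, Finset.mem_insert, Finset.mem_singleton, true_or, or_true]) h1).1
  have h2 := hcross (Real.pi / 3) (by simp only [cis_zero, cis_pi, Finset.mem_insert, Finset.mem_singleton, true_or, or_true]) p h1p
  rw [show Real.pi / 3 + Real.pi / 3 = 2 * (Real.pi / 3) by ring] at h2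
  have h2q := (hcov _).resolve_left h2
  have h3 := hcross (2 * (Real.pi / 3)) (by simp only [cis_zero, cis_pi, Finset.mem_insert, Finset.mem_singleton, true_or, or_true]) q h2q
  rw [show 2 * (Real.pi / 3) + Real.pi / 3 = Real.pi by ring] at h3
  exact ⟨Real.pi, Or.inr rfl, (hpair Real.pi (by simp only [cis_zero, cis_pi, Finset.mem_insert, Finset.mem_singleton, or_true]) h3).2⟩

theorem Two.hfree (h : CC F) (htri : TriFree F) {x : ℂ} {p q a b c : Fin 5}
    (hx : Two F x p q a b c) (hI : ¬ Iness F x) {y y' : ℂ} (hy : dist y x = 1) (hy' : dist y' x = 1)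
    (hne : y' ≠ y) (hna : y' - x ≠ -(y - x)) : Free F x y p ∨ Free F x y' p := by
  by_contra hcon
  push Not at hcon
  obtain ⟨hn1, hn2⟩ := hcon
  obtain ⟨σ, hσ, hu⟩ := nonfree hy hn1
  obtain ⟨σ', hσ', hu'⟩ := nonfree hy' hn2
  obtain ⟨α, hα⟩ := exists_cis (v := x - y) (by rw [← dist_eq_norm, dist_comm, hy])
  obtain ⟨α', hα'⟩ := exists_cis (v := x - y') (by rw [← dist_eq_norm, dist_comm, hy'])
  have hnd := hx.nodup
  simp only [List.nodup_cons, List.mem_cons, List.not_mem_nil, or_false, not_or,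
    not_false_eq_true, List.nodup_nil, and_true] at hnd
  obtain ⟨⟨hpq, hpa, hpb, hpc⟩, ⟨hqa, hqb, hqc⟩, ⟨hab, hac⟩, hbc⟩ := hnd
  -- absorb the signs in the angles
  have habs : ∀ (σ α : ℝ), (σ = 1 ∨ σ = -1) → ∃ β : ℝ, (∀ θ, σ * Real.sin (θ - α) = Real.sin (θ - β)) ∧
      cis β = σ * cis α := by
    intro σ α hσ
    rcases hσ with rfl | rfl
    · exact ⟨α, fun θ => by rw [one_mul], by simp⟩
    · refine ⟨α + Real.pi, fun θ => ?_, ?_⟩
      · rw [show θ - (α + Real.pi) = (θ - α) - Real.pi by ring, Real.sin_sub_pi]; ring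
      · rw [cis_add, cis_pi]; push_cast; ring
  obtain ⟨β, hβ, hβc⟩ := habs σ α hσ
  obtain ⟨β', hβ', hβc'⟩ := habs σ' α' hσ'
  have hββ : cis β ≠ cis β' := by
    rw [hβc, hβc']
    intro he
    have hcase : cis α = cis α' ∨ cis α = - cis α' := by
      rcases hσ with rfl | rfl <;> rcases hσ' with rfl | rfl <;> push_cast at he
      · left; linear_combination he
      · right; linear_combination he
      · right; linear_combination -he
      · left; linear_combination -he
    rcases hcase with e | e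
    · apply hne
      rw [← hα, ← hα'] at e
      linear_combination e
    · apply hna
      rw [← hα, ← hα'] at e
      linear_combination -e
  -- the open set of directions
  obtain ⟨t, ht, ht1, ht2⟩ : ∃ t, Gen F x {cis 0, cis (Real.pi / 3), cis (2 * (Real.pi / 3)),
      cis Real.pi} t ∧ 0 < Real.sin (t - β) ∧ Real.sin (t - β') < 0 := by
    set O : Set ℝ := {t | 0 < Real.sin (t - β) ∧ Real.sin (t - β') < 0} with hO
    have hOo : IsOpen O := by
      have c1 : Continuous fun t : ℝ => Real.sin (t - β) := by fun_prop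
      have c2 : Continuous fun t : ℝ => Real.sin (t - β') := by fun_prop
      exact (isOpen_lt continuous_const c1).inter (isOpen_lt c2 continuous_const)
    have hne : O.Nonempty := by
      have hs : Real.sin ((β' - β) / 2) ≠ 0 := by
        intro h0
        apply hββ
        obtain ⟨v, hv⟩ : ∃ v, β' = β + 2 * v := ⟨(β' - β) / 2, by ring⟩
        rw [hv, show (β + 2 * v - β) / 2 = v by ring] at h0
        rw [hv, cis_add]
        have : cis (2 * v) = 1 := by
          apply Complex.ext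
          · rw [cis_re, Real.cos_two_mul, Real.cos_sq', h0]; norm_num
          · rw [cis_im, Real.sin_two_mul, h0]; simp
        rw [this, mul_one]
      rcases lt_or_gt_of_ne hs with h0 | h0
      · refine ⟨(β + β') / 2 + Real.pi, ?_, ?_⟩
        · rw [show (β + β') / 2 + Real.pi - β = (β' - β) / 2 + Real.pi by ring, Real.sin_add_pi]
          linarith only [h0]
        · rw [show (β + β') / 2 + Real.pi - β' = -((β' - β) / 2) + Real.pi by ring,
            Real.sin_add_pi, Real.sin_neg]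
          linarith only [h0]
      · refine ⟨(β + β') / 2, ?_, ?_⟩
        · rw [show (β + β') / 2 - β = (β' - β) / 2 by ring]
          exact h0
        · rw [show (β + β') / 2 - β' = -((β' - β) / 2) by ring, Real.sin_neg]
          linarith only [h0]
    obtain ⟨t, h1, h2⟩ := (h.gen_dense x _).inter_open_nonempty O hOo hne
    exact ⟨t, h2, h1.1, h1.2⟩
  obtain ⟨u, hu0, j, hj, harc⟩ := hx.genArc h ht
  have hpj : p ≠ j := by
    rcases hj with rfl | rfl | rfl <;> assumption
  -- one side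
  have hside := hx.oneSide h htri hI (w := x + cis (u + t)) (by rw [dist_eq_norm]; simp) hj (by
    rw [add_sub_cancel_left]
    have h2 : Filter.Tendsto (fun s : ℝ => u + t + s) (𝓝 0) (𝓝 (u + t)) := by
      have : Continuous (fun s : ℝ => u + t + s) := by fun_prop
      have h3 := this.tendsto 0
      simpa using h3
    filter_upwards [h2.eventually harc] with s hs
    rw [← cis_add]; exact hs)
  rw [← hβ] at ht1
  rw [← hβ'] at ht2
  rcases hu0 with rfl | rfl
  · rw [zero_add] at harc hside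
    rcases hside with hs | hs
    · exact hside_pos hα hσ hu ht1 (half_out h hpj harc hs)
    · exact hside_neg hα' hσ' hu' ht2 (half_in h hpj harc hs)
  · have e1 : ∀ γ : ℝ, Real.sin (Real.pi + t - γ) = - Real.sin (t - γ) := by
      intro γ
      rw [show Real.pi + t - γ = (t - γ) + Real.pi by ring, Real.sin_add_pi]
    rcases hside with hs | hs
    · refine hside_pos hα' hσ' hu' ?_ (half_out h hpj harc hs)
      rw [e1]; linarith
    · refine hside_neg hα hσ hu ?_ (half_in h hpj harc hs)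
      rw [e1]; linarith

end Vale.Agent.P032.B
end
end

section

section

/-! Class II points are inessential. -/

namespace Vale.Agent.P032.B

open Set Topology

variable {F : Fin 5 → Set ℂ}

theorem Two.h4aux (h : CC F) {x : ℂ} {p q a b c k l m : Fin 5}
    (hst : Star F x p q a b c) (hp : x ∈ F p) (hk : x ∈ F k)
    (hnd : [l, m, p, q, k].Nodup) {y : ℂ} (hy : dist y x = 1)
    (hyp : y ∈ F p) (hyq : y ∈ F q) (hyk : y ∈ F k) (hyl : y ∉ F l) (hym : y ∉ F m) : False := by
  have hy1 := hst.s2rot h hy hyp hyq 1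
  have hy1d : dist (x + cis ((1 : ℤ) * (Real.pi / 3)) * (y - x)) y = 1 := by
    have := adj_dist hy
    push_cast
    rwa [one_mul]
  have hxd : dist x y = 1 := by rw [dist_comm]; exact hy
  have hex := exhaust hnd
  have hnd' := hnd
  simp only [List.nodup_cons, List.mem_cons, List.not_mem_nil, or_false, not_or,
    not_false_eq_true, List.nodup_nil, and_true] at hnd'
  obtain ⟨-, -, ⟨hpq, hpk⟩, hqk⟩ := hnd'
  have hS : ∀ i, y ∈ F i → i = p ∨ i = q ∨ i = k := by
    intro i hi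
    rcases hex i with rfl | rfl | h3
    · exact absurd hi hyl
    · exact absurd hi hym
    · exact h3
  by_cases h1 : Arc F y p q
  · exact (h.ring hpq hS h1).2 x hxd hk
  by_cases h2 : Arc F y p k
  · exact (h.ring hpk (l := q) (fun i hi => by have := hS i hi; (clear * - hy1 this; tauto)) h2).2 _ hy1d hy1.2
  by_cases h3 : Arc F y q k
  · exact (h.ring hqk (l := p) (fun i hi => by have := hS i hi; (clear * - hy1 this; tauto)) h3).2 x hxd hp
  have hB : Beta F y l m p q k := ⟨hnd, hyl, hym, hyp, hyq, hyk, h1, h2, h3⟩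
  obtain ⟨d, hd, habs, -⟩ := hB.main h
  rcases hd with rfl | rfl | rfl
  · exact habs x hxd hp
  · exact habs _ hy1d hy1.2
  · exact habs x hxd hk

theorem Two.h4 (h : CC F) {x : ℂ} {p q a b c : Fin 5} (hx : Two F x p q a b c)
    (hst : Star F x p q a b c) {y : ℂ} (hy : dist y x = 1)
    (hyp : y ∈ F p) (hyq : y ∈ F q) :
    (y ∈ F a ∧ y ∈ F b) ∨ (y ∈ F a ∧ y ∈ F c) ∨ (y ∈ F b ∧ y ∈ F c) := by
  by_contra hcon
  have hnd := hx.nodup
  simp only [List.nodup_cons, List.mem_cons, List.not_mem_nil, or_false, not_or,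
    not_false_eq_true, List.nodup_nil, and_true] at hnd
  obtain ⟨⟨hpq, hpa, hpb, hpc⟩, ⟨hqa, hqb, hqc⟩, ⟨hab, hac⟩, hbc⟩ := hnd
  obtain ⟨k, hk, hk'⟩ := hst.s3out h hy hyp hyq
  have hyk : y ∈ F k := by
    rw [← (h.closed k).closure_eq, Metric.mem_closure_iff]
    intro ε hε
    obtain ⟨z, hz, hz1, -⟩ := hk' ε hε
    exact ⟨z, interior_subset hz, by rw [dist_comm]; exact hz1⟩
  rcases hk with rfl | rfl | rfl
  · refine Two.h4aux h hst hx.hp hx.ha (l := b) (m := c) ?_ hy hyp hyq hyk (by (clear * - hcon hyk; tauto)) (by (clear * - hcon hyk; tauto))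
    simp only [List.nodup_cons, List.mem_cons, List.not_mem_nil, or_false, not_or,
      not_false_eq_true, List.nodup_nil, and_true]
    exact ⟨⟨hbc, Ne.symm hpb, Ne.symm hqb, Ne.symm hab⟩, ⟨Ne.symm hpc, Ne.symm hqc, Ne.symm hac⟩,
      ⟨hpq, hpa⟩, hqa⟩
  · refine Two.h4aux h hst hx.hp hx.hb (l := a) (m := c) ?_ hy hyp hyq hyk (by (clear * - hcon hyk; tauto)) (by (clear * - hcon hyk; tauto))
    simp only [List.nodup_cons, List.mem_cons, List.not_mem_nil, or_false, not_or,
      not_false_eq_true, List.nodup_nil, and_true]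
    exact ⟨⟨hac, Ne.symm hpa, Ne.symm hqa, hab⟩, ⟨Ne.symm hpc, Ne.symm hqc, Ne.symm hbc⟩,
      ⟨hpq, hpb⟩, hqb⟩
  · refine Two.h4aux h hst hx.hp hx.hc (l := a) (m := b) ?_ hy hyp hyq hyk (by (clear * - hcon hyk; tauto)) (by (clear * - hcon hyk; tauto))
    simp only [List.nodup_cons, List.mem_cons, List.not_mem_nil, or_false, not_or,
      not_false_eq_true, List.nodup_nil, and_true]
    exact ⟨⟨hab, Ne.symm hpa, Ne.symm hqa, hac⟩, ⟨Ne.symm hpb, Ne.symm hqb, hbc⟩,
      ⟨hpq, hpc⟩, hqc⟩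

theorem arc_point {x : ℂ} {i j : Fin 5} (h : Arc F x i j) : ∃ z, dist z x = 1 ∧ z ∈ F i ∧ z ∈ F j := by
  obtain ⟨t, ht⟩ := h
  exact ⟨x + cis t, by rw [dist_eq_norm]; simp, ht.self_of_nhds⟩

/-- Class II points are inessential. -/
theorem Two.iness (h : CC F) (htri : TriFree F) {x : ℂ} {p q a b c : Fin 5}
    (hx : Two F x p q a b c) : Iness F x := by
  by_contra hI
  have hst := star_cov h hx.nodup hx.hq hx.ha hx.hb hx.hc hx.ab hx.ac hx.bc
  have hfr := fun (y y' : ℂ) (hy : dist y x = 1) (_ : y ∈ F p) (_ : y ∈ F q)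
    (hy' : dist y' x = 1) (_ : y' ∈ F p) (_ : y' ∈ F q) => hx.hfree h htri hI hy hy'
  obtain ⟨d, hd, habs, hch⟩ := hst.u7 h (fun y hy hyp hyq => hx.h4 h hst hy hyp hyq) hfr
  have hdc : d = c := by
    rcases hd with rfl | rfl | rfl
    · obtain ⟨z, hz, -, hz2⟩ := arc_point hx.pa
      exact absurd hz2 (habs z hz)
    · obtain ⟨z, hz, -, hz2⟩ := arc_point hx.pb
      exact absurd hz2 (habs z hz)
    · rfl
  subst hdc
  -- a free point
  obtain ⟨y, hy, hyp, hyq, hyf⟩ : ∃ y, dist y x = 1 ∧ y ∈ F p ∧ y ∈ F q ∧ Free F x y p := by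
    obtain ⟨y0, hy0, hp0, hq0⟩ := hst.s2 h
    have hy1 := hst.s2rot h hy0 hp0 hq0 1
    have hn : ‖y0 - x‖ = 1 := by rw [← dist_eq_norm]; exact hy0
    have hne0 : y0 - x ≠ 0 := by intro h0; rw [h0] at hn; norm_num at hn
    have hy1x : dist (x + cis ((1 : ℤ) * (Real.pi / 3)) * (y0 - x)) x = 1 := by
      rw [dist_eq_norm, add_sub_cancel_left, norm_mul, norm_cis, hn, one_mul]
    have him : 0 < (cis ((1 : ℤ) * (Real.pi / 3))).im := by
      have := cis_im_pos_third
      push_cast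
      rwa [one_mul]
    rcases hfr y0 _ hy0 hp0 hq0 hy1x hy1.1 hy1.2 (by
      intro he
      have : (cis ((1 : ℤ) * (Real.pi / 3)) - 1) * (y0 - x) = 0 := by linear_combination he
      rcases mul_eq_zero.1 this with h0 | h0
      · have : cis ((1 : ℤ) * (Real.pi / 3)) = 1 := by linear_combination h0
        rw [this] at him
        simp at him
      · exact hne0 h0) (by
      intro he
      have : (cis ((1 : ℤ) * (Real.pi / 3)) + 1) * (y0 - x) = 0 := by linear_combination he
      rcases mul_eq_zero.1 this with h0 | h0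
      · have : cis ((1 : ℤ) * (Real.pi / 3)) = -1 := by linear_combination h0
        rw [this] at him
        simp at him
      · exact hne0 h0) with hf | hf
    · exact ⟨y0, hy0, hp0, hq0, hf⟩
    · exact ⟨_, hy1x, hy1.1, hy1.2, hf⟩
  apply hI
  have hnd := hx.nodup
  have hex := exhaust hnd
  simp only [List.nodup_cons, List.mem_cons, List.not_mem_nil, or_false, not_or,
    not_false_eq_true, List.nodup_nil, and_true] at hnd
  obtain ⟨⟨hpq, hpa, hpb, hpc⟩, ⟨hqa, hqb, hqc⟩, ⟨hab, hac⟩, hbc⟩ := hnd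
  have hev : ∀ᶠ z in 𝓝 x, (z ≠ x → Iness F z) ∧ (z ∈ F p → z ∈ F a → ∃ k, k ≠ p ∧ k ≠ a ∧ z ∈ F k) ∧
      (z ∈ F p → z ∈ F b → ∃ k, k ≠ p ∧ k ≠ b ∧ z ∈ F k) ∧
      (∀ k, z ∈ F k → x ∈ F k) := by
    filter_upwards [hx.iso h htri, h.broken' hpa hx.pa, h.broken' hpb hx.pb, h.nhd x]
      with z h1 h2 h3 h5
    exact ⟨h1, fun u v => (h2 u v).2, fun u v => (h3 u v).2, h5⟩
  obtain ⟨r, hr, hball⟩ := Metric.eventually_nhds_iff_ball.1 hev
  refine hst.iness h htri hr (fun i j => i ≠ j ∧ ((i = a ∧ j = b) ∨ (i = b ∧ j = a) ∨ i = d ∨ j = d))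
    ?_ ?_ (fun z hz => (hball z hz).1) habs hy hyp hyq (hch y hy hyp hyq hyf)
  · intro z hz i k hik hi hk hik'
    obtain ⟨-, b1, b2, b3⟩ := hball z hz
    have hS : ∀ k, z ∈ F k → k = p ∨ k = a ∨ k = b ∨ k = d := by
      intro k hk
      have hxk := b3 k hk
      rcases hex k with rfl | rfl | h3
      · exact Or.inl rfl
      · exact absurd hxk hx.hq
      · exact Or.inr h3
    have hip : ∀ u v, z ∈ F u → z ∈ F v → (∀ k, z ∈ F k → k = u ∨ k = v) → u ≠ v → u = p → v = d := by
      rintro u v hu hv huv hne rfl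
      rcases hS v hv with rfl | rfl | rfl | rfl
      · exact absurd rfl hne
      · obtain ⟨k, k1, k2, k3⟩ := b1 hu hv
        rcases huv k k3 with e | e
        · exact absurd e k1
        · exact absurd e k2
      · obtain ⟨k, k1, k2, k3⟩ := b2 hu hv
        rcases huv k k3 with e | e
        · exact absurd e k1
        · exact absurd e k2
      · rfl
    have h1 := hip i k hi hk hik' hik
    have h2 := hip k i hk hi (fun l hl => (hik' l hl).symm) hik.symm
    refine ⟨hik, ?_⟩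
    rcases hS i hi with e | e | e | e
    · exact Or.inr (Or.inr (Or.inr (h1 e)))
    · rcases hS k hk with e' | e' | e' | e'
      · exact Or.inr (Or.inr (Or.inl (h2 e')))
      · exact absurd (e.trans e'.symm) hik
      · exact Or.inl ⟨e, e'⟩
      · exact Or.inr (Or.inr (Or.inr e'))
    · rcases hS k hk with e' | e' | e' | e'
      · exact Or.inr (Or.inr (Or.inl (h2 e')))
      · exact Or.inr (Or.inl ⟨e, e'⟩)
      · exact absurd (e.trans e'.symm) hik
      · exact Or.inr (Or.inr (Or.inr e'))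
    · exact Or.inr (Or.inr (Or.inl e))
  · rintro i j ⟨h1, h2⟩ h4 h5
    rcases h2 with e | e | e | e
    · exact absurd e h4
    · exact absurd e h5
    · exact Or.inl e
    · exact Or.inr e

end Vale.Agent.P032.B
end
end

section

section

/-! The case of two disjoint pairs on arcs, part 1: normals. -/

namespace Vale.Agent.P032.B

open Set Topology

variable {F : Fin 5 → Set ℂ}

theorem not_eventually_cos_const (β C t : ℝ) : ¬ ∀ᶠ s in 𝓝 t, Real.cos (s - β) = C := by
  intro hcos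
  have hsin : ∀ᶠ s in 𝓝 t, Real.sin (s - β) = 0 := by
    filter_upwards [hcos.eventually_nhds] with s hs
    have h1 : HasDerivAt (fun s => Real.cos (s - β)) (-Real.sin (s - β)) s :=
      (Real.hasDerivAt_cos (s - β)).comp_sub_const s β
    have h2 : HasDerivAt (fun s => Real.cos (s - β)) 0 s :=
      (hasDerivAt_const s C).congr_of_eventuallyEq hs
    have := h1.unique h2
    linarith
  have h1 : HasDerivAt (fun s => Real.sin (s - β)) (Real.cos (t - β)) t :=
    (Real.hasDerivAt_sin (t - β)).comp_sub_const t β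
  have h2 : HasDerivAt (fun s => Real.sin (s - β)) 0 t :=
    (hasDerivAt_const t (0 : ℝ)).congr_of_eventuallyEq hsin
  have h3 := h1.unique h2
  have h4 := hsin.self_of_nhds
  have h5 := Real.sin_sq_add_cos_sq (t - β)
  rw [h3, h4] at h5
  norm_num at h5

/-- two rays of colour `i` at `x` kill `i` at the points of the circle between them. -/
theorem CC.vee (h : CC F) {i : Fin 5} {x : ℂ} {β β' φ ρ : ℝ} (hρ : 0 < ρ) (hx : x ∈ F i)
    (h1 : ∀ s : ℝ, 0 < s → s < ρ → x + s * cis β ∈ F i)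
    (h2 : ∀ s : ℝ, 0 < s → s < ρ → x + s * cis β' ∈ F i)
    (hc1 : 0 < Real.cos (φ - β)) (hc2 : Real.cos (φ - β') < 0) : x + cis φ ∉ F i := by
  obtain ⟨s, hs0, hsρ, hsc⟩ : ∃ s : ℝ, 0 < s ∧ s < ρ ∧ s < 2 * Real.cos (φ - β) :=
    ⟨min (ρ / 2) (Real.cos (φ - β)), lt_min (by linarith) hc1,
      (min_le_left _ _).trans_lt (by linarith only [hρ]),
      (min_le_right _ _).trans_lt (by linarith)⟩
  have hpre : ∀ γ : ℝ, IsPreconnected ((fun u : ℝ => x + (u : ℂ) * cis γ) '' Icc 0 s) := by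
    intro γ
    refine isPreconnected_Icc.image _ ?_
    have hc' : Continuous (fun u : ℝ => x + (u : ℂ) * cis γ) := by fun_prop
    exact hc'.continuousOn
  have hx0 : ∀ γ : ℝ, x ∈ ((fun u : ℝ => x + (u : ℂ) * cis γ) '' Icc 0 s) := by
    intro γ
    exact ⟨0, ⟨le_rfl, hs0.le⟩, by simp⟩
  have hK := (hpre β).union x (hx0 β) (hx0 β') (hpre β')
  have hsub : ((fun u : ℝ => x + (u : ℂ) * cis β) '' Icc 0 s) ∪
      ((fun u : ℝ => x + (u : ℂ) * cis β') '' Icc 0 s) ⊆ F i := by
    rintro _ (⟨u, hu, rfl⟩ | ⟨u, hu, rfl⟩)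
    · rcases hu.1.eq_or_lt with h0 | h0
      · simpa [← h0] using hx
      · exact h1 u h0 (hu.2.trans_lt hsρ)
    · rcases hu.1.eq_or_lt with h0 | h0
      · simpa [← h0] using hx
      · exact h2 u h0 (hu.2.trans_lt hsρ)
  refine h.wlemma hK hsub (a := x + (s : ℂ) * cis β) (b := x + (s : ℂ) * cis β')
    (Or.inl (mem_image_of_mem _ ⟨hs0.le, le_rfl⟩)) (Or.inr (mem_image_of_mem _ ⟨hs0.le, le_rfl⟩))
    ?_ ?_
  · apply dist_lt_one
    rw [circ_sq]
    nlinarith only [hs0, hsc]
  · apply one_lt_dist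
    rw [circ_sq]
    nlinarith only [hc2, hs0]

/-- `x + cis s` runs through an arc of type `i j` near `t`. -/
def ArcAt (F : Fin 5 → Set ℂ) (x : ℂ) (i j : Fin 5) (t : ℝ) : Prop :=
  ∀ᶠ s in 𝓝 t, x + cis s ∈ F i ∧ x + cis s ∈ F j

theorem ArcAt.add_two_pi {x : ℂ} {i j : Fin 5} {t : ℝ} (h : ArcAt F x i j t) :
    ArcAt F x i j (t + 2 * Real.pi) := by
  have h2 : Filter.Tendsto (fun s : ℝ => s - 2 * Real.pi) (𝓝 (t + 2 * Real.pi)) (𝓝 t) := by
    have : Continuous (fun s : ℝ => s - 2 * Real.pi) := by fun_prop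
    have h3 := this.tendsto (t + 2 * Real.pi)
    simpa using h3
  filter_upwards [h2.eventually h] with s hs
  have e : cis (s - 2 * Real.pi) = cis s := by
    rw [← cis_add_two_pi (s - 2 * Real.pi), sub_add_cancel]
  rwa [e] at hs

theorem ArcAt.sub_two_pi {x : ℂ} {i j : Fin 5} {t : ℝ} (h : ArcAt F x i j t) :
    ArcAt F x i j (t - 2 * Real.pi) := by
  have h2 : Filter.Tendsto (fun s : ℝ => s + 2 * Real.pi) (𝓝 (t - 2 * Real.pi)) (𝓝 t) := by
    have : Continuous (fun s : ℝ => s + 2 * Real.pi) := by fun_prop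
    have h3 := this.tendsto (t - 2 * Real.pi)
    simpa using h3
  filter_upwards [h2.eventually h] with s hs
  rwa [cis_add_two_pi] at hs

/-- `n` is a normal: colour `c` on the ray `n + 90°`, colour `d` on the ray `n - 90°`. -/
def Nrm (F : Fin 5 → Set ℂ) (x : ℂ) (c d : Fin 5) (n : ℝ) : Prop :=
  ∃ r > 0, ∀ s : ℝ, 0 < s → s < r → x + s * cis (n + Real.pi / 2) ∈ F c ∧
    x + s * cis (n - Real.pi / 2) ∈ F d

/-- the standing assumptions: four colours, arcs of the two types `a b` and `c d` only. -/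
structure Dj (F : Fin 5 → Set ℂ) (x : ℂ) (q a b c d : Fin 5) : Prop where
  nodup : [q, a, b, c, d].Nodup
  hq : x ∉ F q
  ha : x ∈ F a
  hb : x ∈ F b
  hc : x ∈ F c
  hd : x ∈ F d
  hab : Arc F x a b
  hcd : Arc F x c d
  hac : ¬ Arc F x a c
  had : ¬ Arc F x a d
  hbc : ¬ Arc F x b c
  hbd : ¬ Arc F x b d

theorem arc_comm {x : ℂ} {i j : Fin 5} (h : Arc F x i j) : Arc F x j i := by
  obtain ⟨t, ht⟩ := h
  exact ⟨t, ht.mono fun _ hs => hs.symm⟩

theorem Dj.swap {x : ℂ} {q a b c d : Fin 5} (h : Dj F x q a b c d) : Dj F x q c d a b where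
  nodup := by
    have := h.nodup
    simp only [List.nodup_cons, List.mem_cons, not_or, List.not_mem_nil, not_false_eq_true,
      List.nodup_nil, and_true] at this ⊢
    obtain ⟨⟨h1, h2, h3, h4⟩, ⟨h5, h6, h7⟩, ⟨h8, h9⟩, h10⟩ := this
    exact ⟨⟨h3, h4, h1, h2⟩, ⟨h10, Ne.symm h6, Ne.symm h8⟩, ⟨Ne.symm h7, Ne.symm h9⟩, h5⟩
  hq := h.hq
  ha := h.hc
  hb := h.hd
  hc := h.ha
  hd := h.hb
  hab := h.hcd
  hcd := h.hab
  hac := fun h1 => h.hac (arc_comm h1)
  had := fun h1 => h.hbc (arc_comm h1)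
  hbc := fun h1 => h.had (arc_comm h1)
  hbd := fun h1 => h.hbd (arc_comm h1)

/-- a ray whose points have only the colours `c d`, where `c d` is broken, is pure. -/
theorem CC.ray_pure (h : CC F) {x : ℂ} {c d : Fin 5} {β ρ : ℝ}
    (h1 : ∀ s : ℝ, 0 < s → s < ρ → ∀ i, x + s * cis β ∈ F i → i = c ∨ i = d)
    (h2 : ∀ s : ℝ, 0 < s → s < ρ → ¬ (x + s * cis β ∈ F c ∧ x + s * cis β ∈ F d)) :
    (∀ s : ℝ, 0 < s → s < ρ → x + s * cis β ∈ F c) ∨
    (∀ s : ℝ, 0 < s → s < ρ → x + s * cis β ∈ F d) := by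
  have hc' : Continuous (fun u : ℝ => x + (u : ℂ) * cis β) := by fun_prop
  have hcov : Ioo 0 ρ ⊆ ((fun u : ℝ => x + (u : ℂ) * cis β) ⁻¹' F c) ∪
      ((fun u : ℝ => x + (u : ℂ) * cis β) ⁻¹' F d) := by
    intro s hs
    obtain ⟨i, hi⟩ := h.cover (x + s * cis β)
    rcases h1 s hs.1 hs.2 i hi with rfl | rfl
    · exact Or.inl hi
    · exact Or.inr hi
  have hcl := isPreconnected_closed_iff.1 (isPreconnected_Ioo (a := (0 : ℝ)) (b := ρ))
    _ _ ((h.closed c).preimage hc') ((h.closed d).preimage hc') hcov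
  by_cases hc : (Ioo 0 ρ ∩ (fun u : ℝ => x + (u : ℂ) * cis β) ⁻¹' F c).Nonempty
  · by_cases hd : (Ioo 0 ρ ∩ (fun u : ℝ => x + (u : ℂ) * cis β) ⁻¹' F d).Nonempty
    · obtain ⟨s, hs, hs1, hs2⟩ := hcl hc hd
      exact absurd ⟨hs1, hs2⟩ (h2 s hs.1 hs.2)
    · left
      intro s hs0 hsρ
      rcases hcov ⟨hs0, hsρ⟩ with h3 | h3
      · exact h3
      · exact absurd ⟨s, ⟨hs0, hsρ⟩, h3⟩ hd
  · right
    intro s hs0 hsρ
    rcases hcov ⟨hs0, hsρ⟩ with h3 | h3
    · exact absurd ⟨s, ⟨hs0, hsρ⟩, h3⟩ hc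
    · exact h3

/-- an arc of type `a b` gives a normal. -/
theorem Dj.nrm (h : CC F) {x : ℂ} {q a b c d : Fin 5} (hx : Dj F x q a b c d) {t : ℝ}
    (ht : ArcAt F x a b t) : Nrm F x c d t ∨ Nrm F x c d (t + Real.pi) := by
  have hnd := hx.nodup
  have hcd : c ≠ d := by rintro rfl; simp only [List.nodup_cons, List.mem_cons, List.not_mem_nil, or_false, or_self, not_or, not_true_eq_false, not_false_eq_true, List.nodup_nil, and_self, and_true, and_false] at hnd
  obtain ⟨r, hr, hw⟩ := h.wedge' (p := x) (t := t) (P := fun k => k = a ∨ k = b) (by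
    filter_upwards [ht] with s hs
    rintro k (rfl | rfl)
    · exact hs.1
    · exact hs.2)
  obtain ⟨r1, hr1, hn⟩ := h.nhd_ball x
  obtain ⟨r2, hr2, hbr⟩ := Metric.eventually_nhds_iff_ball.1 (h.broken hcd hx.hc hx.hd hx.hcd)
  set ρ := min r (min r1 r2) with hρ
  have hρ0 : 0 < ρ := lt_min hr (lt_min hr1 hr2)
  have hdist : ∀ (s β : ℝ), 0 < s → dist (x + s * cis β) x = s := by
    intro s β hs
    rw [dist_eq_norm]
    simp only [add_sub_cancel_left, norm_mul, norm_cis, mul_one, Complex.norm_real]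
    exact Real.norm_of_nonneg hs.le
  -- colours on the two rays
  have hcol : ∀ β : ℝ, (β = t + Real.pi / 2 ∨ β = t - Real.pi / 2) → ∀ s : ℝ, 0 < s → s < ρ →
      ∀ i, x + s * cis β ∈ F i → i = c ∨ i = d := by
    intro β hβ s hs0 hsρ i hi
    have h3 : ∀ k, (k = a ∨ k = b) → x + s * cis β ∉ F k := by
      rcases hβ with rfl | rfl
      · exact hw _ s (by simpa only [sub_self, abs_zero, gt_iff_lt] using hr) hs0.ne'
          (by rw [abs_of_pos hs0]; exact hsρ.trans_le (min_le_left _ _))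
      · have h4 := hw (t + Real.pi / 2) (-s) (by simpa using hr) (neg_ne_zero.2 hs0.ne')
          (by rw [abs_neg, abs_of_pos hs0]; exact hsρ.trans_le (min_le_left _ _))
        have e : x + ((-s : ℝ) : ℂ) * cis (t + Real.pi / 2) = x + s * cis (t - Real.pi / 2) := by
          have : t + Real.pi / 2 = (t - Real.pi / 2) + Real.pi := by ring
          rw [this, cis_add, cis_pi]; push_cast; ring
        rwa [e] at h4
    have h5 : x ∈ F i := hn _ (by
      rw [hdist s β hs0]
      exact hsρ.trans_le ((min_le_right _ _).trans (min_le_left _ _))) i hi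
    rcases five_list q a b c d hnd i with e | e | e | e | e
    · rw [e] at h5; exact absurd h5 hx.hq
    · exact absurd hi (h3 i (Or.inl e))
    · exact absurd hi (h3 i (Or.inr e))
    · exact Or.inl e
    · exact Or.inr e
  have hnot : ∀ β : ℝ, (β = t + Real.pi / 2 ∨ β = t - Real.pi / 2) → ∀ s : ℝ, 0 < s → s < ρ →
      ¬ (x + s * cis β ∈ F c ∧ x + s * cis β ∈ F d) := by
    rintro β hβ s hs0 hsρ ⟨h3, h4⟩
    obtain ⟨k, hkc, hkd, hk⟩ := hbr (x + s * cis β) (by
      rw [Metric.mem_ball, hdist s β hs0]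
      exact hsρ.trans_le ((min_le_right _ _).trans (min_le_right _ _))) h3 h4
    rcases hcol β hβ s hs0 hsρ k hk with e | e
    · exact hkc e
    · exact hkd e
  -- both rays of the same colour are impossible
  have hsame : ∀ i, x ∈ F i → (i = c ∨ i = d) →
      (∀ s : ℝ, 0 < s → s < ρ → x + s * cis (t + Real.pi / 2) ∈ F i) →
      (∀ s : ℝ, 0 < s → s < ρ → x + s * cis (t - Real.pi / 2) ∈ F i) → False := by
    intro i hxi hicd hp hm
    obtain ⟨τ, hτ⟩ := hx.hcd
    have hi : ∀ᶠ s in 𝓝 τ, x + cis s ∈ F i := by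
      rcases hicd with rfl | rfl
      · exact hτ.mono fun _ hs => hs.1
      · exact hτ.mono fun _ hs => hs.2
    refine not_eventually_cos_const (t + Real.pi / 2) 0 τ ?_
    filter_upwards [hi] with s hs
    by_contra hne
    have e : Real.cos (s - (t - Real.pi / 2)) = - Real.cos (s - (t + Real.pi / 2)) := by
      have : s - (t - Real.pi / 2) = (s - (t + Real.pi / 2)) + Real.pi := by ring
      rw [this, Real.cos_add_pi]
    rcases lt_or_gt_of_ne hne with h3 | h3
    · exact h.vee hρ0 hxi hm hp (by rw [e]; linarith only [h3]) h3 hs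
    · exact h.vee hρ0 hxi hp hm h3 (by rw [e]; linarith only [h3]) hs
  rcases h.ray_pure (hcol _ (Or.inl rfl)) (hnot _ (Or.inl rfl)) with h3 | h3 <;>
  rcases h.ray_pure (hcol _ (Or.inr rfl)) (hnot _ (Or.inr rfl)) with h4 | h4
  · exact (hsame c hx.hc (Or.inl rfl) h3 h4).elim
  · exact Or.inl ⟨ρ, hρ0, fun s hs0 hsρ => ⟨h3 s hs0 hsρ, h4 s hs0 hsρ⟩⟩
  · refine Or.inr ⟨ρ, hρ0, fun s hs0 hsρ => ⟨?_, ?_⟩⟩
    · have e : cis (t + Real.pi + Real.pi / 2) = cis (t - Real.pi / 2) := by
        rw [← cis_add_two_pi (t - Real.pi / 2)]; congr 1; ring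
      rw [e]; exact h4 s hs0 hsρ
    · have e : t + Real.pi - Real.pi / 2 = t + Real.pi / 2 := by ring
      rw [e]; exact h3 s hs0 hsρ
  · exact (hsame d hx.hd (Or.inr rfl) h3 h4).elim

theorem Nrm.add_two_pi {x : ℂ} {c d : Fin 5} {n : ℝ} (h : Nrm F x c d n) :
    Nrm F x c d (n + 2 * Real.pi) := by
  obtain ⟨r, hr, h1⟩ := h
  refine ⟨r, hr, fun s hs0 hsr => ?_⟩
  have e1 : n + 2 * Real.pi + Real.pi / 2 = (n + Real.pi / 2) + 2 * Real.pi := by ring
  have e2 : n + 2 * Real.pi - Real.pi / 2 = (n - Real.pi / 2) + 2 * Real.pi := by ring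
  rw [e1, e2, cis_add_two_pi, cis_add_two_pi]
  exact h1 s hs0 hsr

theorem Nrm.sub_two_pi {x : ℂ} {c d : Fin 5} {n : ℝ} (h : Nrm F x c d n) :
    Nrm F x c d (n - 2 * Real.pi) := by
  obtain ⟨r, hr, h1⟩ := h
  refine ⟨r, hr, fun s hs0 hsr => ?_⟩
  rw [← cis_add_two_pi (n - 2 * Real.pi + Real.pi / 2),
    ← cis_add_two_pi (n - 2 * Real.pi - Real.pi / 2)]
  have e1 : n - 2 * Real.pi + Real.pi / 2 + 2 * Real.pi = n + Real.pi / 2 := by ring
  have e2 : n - 2 * Real.pi - Real.pi / 2 + 2 * Real.pi = n - Real.pi / 2 := by ring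
  rw [e1, e2]
  exact h1 s hs0 hsr

/-- opposite directions are not both normals. -/
theorem Dj.nrm_excl (h : CC F) {x : ℂ} {q a b c d : Fin 5} (hx : Dj F x q a b c d) {n : ℝ}
    (h1 : Nrm F x c d n) (h2 : Nrm F x c d (n + Real.pi)) : False := by
  have hnd := hx.nodup
  have hcd : c ≠ d := by rintro rfl; simp at hnd
  obtain ⟨r, hr, h1⟩ := h1
  obtain ⟨r', hr', h2⟩ := h2
  set ρ := min r r' / 2 with hρ
  have hρ0 : 0 < ρ := half_pos (lt_min hr hr')
  have hρr : ρ < r := (half_lt_self (lt_min hr hr')).trans_le (min_le_left _ _)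
  have hρr' : ρ < r' := (half_lt_self (lt_min hr hr')).trans_le (min_le_right _ _)
  have e : n + Real.pi - Real.pi / 2 = n + Real.pi / 2 := by ring
  have hpre : IsPreconnected ((fun u : ℝ => x + (u : ℂ) * cis (n + Real.pi / 2)) '' Icc 0 ρ) := by
    refine isPreconnected_Icc.image _ ?_
    have hc' : Continuous (fun u : ℝ => x + (u : ℂ) * cis (n + Real.pi / 2)) := by fun_prop
    exact hc'.continuousOn
  refine h.T1 hcd hpre ?_ ?_ (p := x) (q := x + (ρ : ℂ) * cis (n + Real.pi / 2)) ?_ ?_ ?_ hx.hcd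
  · rintro _ ⟨u, hu, rfl⟩
    rcases hu.1.eq_or_lt with h0 | h0
    · simpa [← h0] using hx.hc
    · exact (h1 u h0 (hu.2.trans_lt hρr)).1
  · rintro _ ⟨u, hu, rfl⟩
    rcases hu.1.eq_or_lt with h0 | h0
    · simpa [← h0] using hx.hd
    · have := (h2 u h0 (hu.2.trans_lt hρr')).2
      rwa [e] at this
  · exact ⟨0, ⟨le_rfl, hρ0.le⟩, by simp⟩
  · exact mem_image_of_mem _ ⟨hρ0.le, le_rfl⟩
  · intro h0
    have h3 : (ρ : ℂ) * cis (n + Real.pi / 2) = 0 := by
      have h4 : x + 0 = x + (ρ : ℂ) * cis (n + Real.pi / 2) := by rw [add_zero]; exact h0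
      exact (add_left_cancel h4).symm
    rcases mul_eq_zero.1 h3 with h4 | h4
    · exact hρ0.ne' (by exact_mod_cast h4)
    · exact cis_ne_zero _ h4

/-- between two normals the colours `c d` are absent. -/
theorem Dj.between (h : CC F) {x : ℂ} {q a b c d : Fin 5} (hx : Dj F x q a b c d) {n n' φ : ℝ}
    (h1 : Nrm F x c d n) (h2 : Nrm F x c d n')
    (hs : Real.sin (φ - n) * Real.sin (φ - n') < 0) : x + cis φ ∉ F c ∧ x + cis φ ∉ F d := by
  obtain ⟨r, hr, h1⟩ := h1
  obtain ⟨r', hr', h2⟩ := h2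
  have hρ0 : 0 < min r r' := lt_min hr hr'
  have e1 : ∀ m : ℝ, Real.cos (φ - (m + Real.pi / 2)) = Real.sin (φ - m) := by
    intro m
    rw [← Real.cos_sub_pi_div_two]; congr 1; ring
  have e2 : ∀ m : ℝ, Real.cos (φ - (m - Real.pi / 2)) = - Real.sin (φ - m) := by
    intro m
    rw [← Real.cos_add_pi_div_two]; congr 1; ring
  have c1 : ∀ s : ℝ, 0 < s → s < min r r' → x + s * cis (n + Real.pi / 2) ∈ F c :=
    fun s hs0 hsr => (h1 s hs0 (hsr.trans_le (min_le_left _ _))).1
  have d1 : ∀ s : ℝ, 0 < s → s < min r r' → x + s * cis (n - Real.pi / 2) ∈ F d :=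
    fun s hs0 hsr => (h1 s hs0 (hsr.trans_le (min_le_left _ _))).2
  have c2 : ∀ s : ℝ, 0 < s → s < min r r' → x + s * cis (n' + Real.pi / 2) ∈ F c :=
    fun s hs0 hsr => (h2 s hs0 (hsr.trans_le (min_le_right _ _))).1
  have d2 : ∀ s : ℝ, 0 < s → s < min r r' → x + s * cis (n' - Real.pi / 2) ∈ F d :=
    fun s hs0 hsr => (h2 s hs0 (hsr.trans_le (min_le_right _ _))).2
  rcases mul_neg_iff.1 hs with ⟨h3, h4⟩ | ⟨h3, h4⟩
  · exact ⟨h.vee hρ0 hx.hc c1 c2 (by rw [e1]; exact h3) (by rw [e1]; exact h4),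
      h.vee hρ0 hx.hd d2 d1 (by rw [e2]; linarith) (by rw [e2]; linarith only [h3])⟩
  · exact ⟨h.vee hρ0 hx.hc c2 c1 (by rw [e1]; exact h4) (by rw [e1]; exact h3),
      h.vee hρ0 hx.hd d1 d2 (by rw [e2]; linarith) (by rw [e2]; linarith)⟩

/-- the conclusion of the theory of BETA points. -/
def BetaMain (F : Fin 5 → Set ℂ) : Prop :=
  ∀ (x : ℂ) (p q a b c : Fin 5), Beta F x p q a b c →
    ∃ d, (d = a ∨ d = b ∨ d = c) ∧ (∀ z, dist z x = 1 → z ∉ F d) ∧
      ∀ y, dist y x = 1 → y ∈ F p → y ∈ F q →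
        ∃ r > 0, ∀ z, dist z y = 1 → dist z x < r → z ∈ F d

/-- an `a b` arc cannot end where `c d` are absent. -/
theorem Dj.step (h : CC F) (hB : BetaMain F) {x : ℂ} {q a b c d : Fin 5}
    (hx : Dj F x q a b c d) {u s : ℝ} (hus : u ≠ s) (hlt : |u - s| < 2 * Real.pi)
    (hA : ∀ τ ∈ uIcc u s, x + cis τ ∈ F a ∧ x + cis τ ∈ F b)
    (hc : x + cis s ∉ F c) (hd : x + cis s ∉ F d) : ArcAt F x a b s := by
  have hnd := hx.nodup
  have hab : a ≠ b := by rintro rfl; simp at hnd
  have hqa : q ≠ a := by rintro rfl; simp at hnd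
  have hqb : q ≠ b := by rintro rfl; simp at hnd
  by_contra hcon
  set y := x + cis s with hy
  have hxy : dist x y = 1 := by rw [dist_comm, dist_eq_norm, hy]; simp
  have hyab := hA s right_mem_uIcc
  -- the colour q is present
  have hyq : y ∈ F q := by
    by_contra hyq
    apply hcon
    have h1 := (continuous_circ1 x).continuousAt.eventually (h.nhd (x + cis s))
    filter_upwards [h1] with τ hτ
    refine h.both (c := x) ?_ hx.ha hx.hb (by rw [dist_eq_norm]; simp)
    intro k hk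
    have h2 := hτ k hk
    rcases five_list q a b c d hnd k with e | e | e | e | e
    · rw [e] at h2; exact absurd h2 hyq
    · exact Or.inl e
    · exact Or.inr e
    · rw [e] at h2; exact absurd h2 hc
    · rw [e] at h2; exact absurd h2 hd
  have hS : ∀ k, y ∈ F k → k = a ∨ k = b ∨ k = q := by
    intro k hk
    rcases five_list q a b c d hnd k with e | e | e | e | e
    · exact Or.inr (Or.inr e)
    · exact Or.inl e
    · exact Or.inr (Or.inl e)
    · rw [e] at hk; exact absurd hk hc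
    · rw [e] at hk; exact absurd hk hd
  -- not a centre
  have hpre : IsPreconnected ((fun τ => x + cis τ) '' uIcc u s) :=
    isPreconnected_uIcc.image _ (continuous_circ1 x).continuousOn
  have hne : y ≠ x + cis u := by
    intro h0
    have h1 : cis s = cis u := add_left_cancel h0
    have h2 : cis (u - s) = 1 := by
      rw [sub_eq_add_neg, cis_add, cis_neg, ← h1, mul_inv_cancel₀ (cis_ne_zero _)]
    have h3 : Real.cos (u - s) = 1 := by rw [← cis_re, h2]; simp
    rw [abs_lt] at hlt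
    have h4 := (Real.cos_eq_one_iff_of_lt_of_lt hlt.1 hlt.2).1 h3
    exact hus (by linarith only [h4])
  have n1 : ¬ Arc F y a b := by
    refine h.T1 hab hpre ?_ ?_ (p := y) (q := x + cis u) ?_ ?_ hne
    · rintro _ ⟨τ, hτ, rfl⟩; exact (hA τ hτ).1
    · rintro _ ⟨τ, hτ, rfl⟩; exact (hA τ hτ).2
    · exact mem_image_of_mem _ right_mem_uIcc
    · exact mem_image_of_mem _ left_mem_uIcc
  have n2 : ¬ Arc F y a q := by
    intro harc
    refine (h.ring (l := b) hqa.symm (p := y) ?_ harc).2 x hxy hx.hb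
    intro k hk
    rcases hS k hk with e | e | e
    · exact Or.inl e
    · exact Or.inr (Or.inr e)
    · exact Or.inr (Or.inl e)
  have n3 : ¬ Arc F y b q := by
    intro harc
    refine (h.ring (l := a) hqb.symm (p := y) ?_ harc).2 x hxy hx.ha
    intro k hk
    rcases hS k hk with e | e | e
    · exact Or.inr (Or.inr e)
    · exact Or.inl e
    · exact Or.inr (Or.inl e)
  have hbeta : Beta F y c d a b q := by
    refine ⟨?_, hc, hd, hyab.1, hyab.2, hyq, n1, n2, n3⟩
    simp only [List.nodup_cons, List.mem_cons, not_or, List.not_mem_nil, not_false_eq_true,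
      List.nodup_nil, and_true] at hnd ⊢
    obtain ⟨⟨h1, h2, h3, h4⟩, ⟨h5, h6, h7⟩, ⟨h8, h9⟩, h10⟩ := hnd
    exact ⟨⟨h10, Ne.symm h6, Ne.symm h8, Ne.symm h3⟩, ⟨Ne.symm h7, Ne.symm h9, Ne.symm h4⟩,
      ⟨h5, Ne.symm h1⟩, Ne.symm h2⟩
  obtain ⟨e, he, habs, hpure⟩ := hB y c d a b q hbeta
  have heq : e = q := by
    rcases he with rfl | rfl | rfl
    · exact absurd hx.ha (habs x hxy)
    · exact absurd hx.hb (habs x hxy)
    · rfl
  obtain ⟨r, hr, hr'⟩ := hpure x hxy hx.hc hx.hd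
  rw [heq] at hr'
  -- a point of the open arc near s
  have h1 : ∀ᶠ τ in 𝓝 s, dist (x + cis τ) y < r :=
    (continuous_circ1 x).continuousAt.eventually (Metric.ball_mem_nhds _ hr)
  obtain ⟨ε, hε, hball⟩ := Metric.eventually_nhds_iff.1 h1
  obtain ⟨τ, hτ1, hτ2⟩ : ∃ τ, dist τ s < ε ∧ (τ ∈ Ioo u s ∨ τ ∈ Ioo s u) := by
    rcases lt_or_gt_of_ne hus with h2 | h2
    · refine ⟨max ((u + s) / 2) (s - ε / 2), ?_, Or.inl ⟨?_, ?_⟩⟩
      · rw [Real.dist_eq, abs_lt]
        constructor
        · have := le_max_right ((u + s) / 2) (s - ε / 2); linarith only [hε, this]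
        · have : max ((u + s) / 2) (s - ε / 2) < s := max_lt (by linarith only [h2]) (by linarith only [hε])
          linarith only [hε, this]
      · exact lt_max_of_lt_left (by linarith only [h2])
      · exact max_lt (by linarith only [h2]) (by linarith only [hε])
    · refine ⟨min ((u + s) / 2) (s + ε / 2), ?_, Or.inr ⟨?_, ?_⟩⟩
      · rw [Real.dist_eq, abs_lt]
        constructor
        · have : s < min ((u + s) / 2) (s + ε / 2) := lt_min (by linarith only [h2]) (by linarith)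
          linarith only [hε, this]
        · have := min_le_right ((u + s) / 2) (s + ε / 2); linarith only [hε, this]
      · exact lt_min (by linarith only [h2]) (by linarith only [hε])
      · exact (min_le_left _ _).trans_lt (by linarith only [h2])
  have hinner : ArcAt F x a b τ := by
    rcases hτ2 with h2 | h2
    · filter_upwards [Ioo_mem_nhds h2.1 h2.2] with σ hσ
      exact hA σ (Ioo_subset_Icc_self.trans Icc_subset_uIcc hσ)
    · filter_upwards [Ioo_mem_nhds h2.1 h2.2] with σ hσ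
      exact hA σ (Ioo_subset_Icc_self.trans Icc_subset_uIcc' hσ)
  have hq' : x + cis τ ∈ F q := hr' _ (by rw [dist_eq_norm]; simp) (hball hτ1)
  rcases (h.arcQ hab hinner).self_of_nhds q hq' with e | e
  · exact hqa e
  · exact hqb e

end Vale.Agent.P032.B
end
end

section

section

/-! The case of two disjoint pairs on arcs, part 2: the normals. -/

namespace Vale.Agent.P032.B

open Set Topology

variable {F : Fin 5 → Set ℂ}

/-- continuous induction to the right. -/
theorem prop_right {A : Set ℝ} (hA : IsClosed A) {t0 t1 : ℝ} (h0 : A ∈ 𝓝 t0)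
    (hstep : ∀ s, t0 < s → s < t1 → Icc t0 s ⊆ A → A ∈ 𝓝 s) : Icc t0 t1 ⊆ A := by
  intro φ hφ
  by_contra hcon
  have h01 : t0 ≤ t1 := hφ.1.trans hφ.2
  set B : Set ℝ := {s | s ∈ Icc t0 t1 ∧ Icc t0 s ⊆ A} with hB
  have ht0 : t0 ∈ A := mem_of_mem_nhds h0
  have hBne : t0 ∈ B := ⟨⟨le_rfl, h01⟩, by rw [Icc_self]; exact singleton_subset_iff.2 ht0⟩
  have hBb : BddAbove B := ⟨t1, fun s hs => hs.1.2⟩
  set S := sSup B with hS
  have hS0 : t0 ≤ S := le_csSup hBb hBne
  have hS1 : S ≤ t1 := csSup_le ⟨t0, hBne⟩ fun s hs => hs.1.2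
  have hlt : ∀ s, t0 ≤ s → s < S → s ∈ A := by
    intro s hs0 hsS
    obtain ⟨s', hs', hss'⟩ := exists_lt_of_lt_csSup ⟨t0, hBne⟩ hsS
    exact hs'.2 ⟨hs0, hss'.le⟩
  have hSA : S ∈ A := by
    rcases hS0.eq_or_lt with h1 | h1
    · rw [← h1]; exact ht0
    · have h2 : S ∈ closure (Ioo t0 S) := by
        rw [closure_Ioo h1.ne]; exact ⟨h1.le, le_rfl⟩
      exact (closure_minimal (fun s hs => hlt s hs.1.le hs.2) hA) h2
  have hIcc : Icc t0 S ⊆ A := by
    intro s hs
    rcases hs.2.eq_or_lt with h1 | h1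
    · rw [h1]; exact hSA
    · exact hlt s hs.1 h1
  have hSt1 : S < t1 := by
    by_contra h1
    push Not at h1
    exact hcon (hIcc ⟨hφ.1, hφ.2.trans h1⟩)
  have hnb : A ∈ 𝓝 S := by
    rcases hS0.eq_or_lt with h1 | h1
    · rw [← h1]; exact h0
    · exact hstep S h1 hSt1 hIcc
  obtain ⟨ε, hε, hball⟩ := Metric.mem_nhds_iff.1 hnb
  set s' := min t1 (S + ε / 2) with hs'
  have h1 : S < s' := lt_min hSt1 (by linarith only [hε])
  have h2 : s' ∈ B := by
    refine ⟨⟨hS0.trans h1.le, min_le_left _ _⟩, ?_⟩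
    intro s hs
    rcases le_or_gt s S with h3 | h3
    · exact hIcc ⟨hs.1, h3⟩
    · refine hball ?_
      rw [Metric.mem_ball, Real.dist_eq, abs_lt]
      have := hs.2.trans (min_le_right t1 (S + ε / 2))
      constructor <;> linarith only [h3, this]
  exact absurd (le_csSup hBb h2) (not_le.2 h1)

/-- continuous induction to the left. -/
theorem prop_left {A : Set ℝ} (hA : IsClosed A) {t0 t1 : ℝ} (h0 : A ∈ 𝓝 t1)
    (hstep : ∀ s, t0 < s → s < t1 → Icc s t1 ⊆ A → A ∈ 𝓝 s) : Icc t0 t1 ⊆ A := by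
  have hneg : Continuous (fun s : ℝ => -s) := continuous_neg
  have h1 := prop_right (A := (fun s : ℝ => -s) ⁻¹' A) (hA.preimage hneg) (t0 := -t1) (t1 := -t0)
    (hneg.continuousAt.preimage_mem_nhds (by simpa only [neg_neg] using h0)) (by
      intro s hs0 hs1 hsub
      refine hneg.continuousAt.preimage_mem_nhds (hstep (-s) (by linarith) (by linarith) ?_)
      intro u hu
      have := hsub (show -u ∈ Icc (-t1) s from ⟨by linarith [hu.2], by linarith [hu.1]⟩)
      simpa using this)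
  intro s hs
  have := h1 (show -s ∈ Icc (-t1) (-t0) from ⟨by linarith [hs.2], by linarith [hs.1]⟩)
  simpa using this

/-- the closed set of angles whose point carries `a` and `b` -/
def AB (F : Fin 5 → Set ℂ) (x : ℂ) (a b : Fin 5) : Set ℝ :=
  {t | x + cis t ∈ F a ∧ x + cis t ∈ F b}

theorem CC.isClosed_AB (h : CC F) (x : ℂ) (a b : Fin 5) : IsClosed (AB F x a b) :=
  ((h.closed a).preimage (continuous_circ1 x)).inter ((h.closed b).preimage (continuous_circ1 x))

/-- spreading of an `a b` arc between two angles. -/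
theorem Dj.spread (h : CC F) (hB : BetaMain F) {x : ℂ} {q a b c d : Fin 5}
    (hx : Dj F x q a b c d) {t0 t1 : ℝ} (hlt : t1 - t0 < Real.pi)
    (habs : ∀ φ, t0 < φ → φ < t1 → x + cis φ ∉ F c ∧ x + cis φ ∉ F d)
    (harc : ArcAt F x a b t0 ∨ ArcAt F x a b t1) : Icc t0 t1 ⊆ AB F x a b := by
  have hpi := Real.pi_pos
  rcases harc with h0 | h0
  · refine prop_right (h.isClosed_AB x a b) h0 ?_
    intro s hs0 hs1 hsub
    refine hx.step h hB (u := t0) hs0.ne (by rw [abs_lt]; constructor <;> linarith only [hlt, hs0, hs1]) ?_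
      (habs s hs0 hs1).1 (habs s hs0 hs1).2
    intro τ hτ
    rw [uIcc_of_le hs0.le] at hτ
    exact hsub hτ
  · refine prop_left (h.isClosed_AB x a b) h0 ?_
    intro s hs0 hs1 hsub
    refine hx.step h hB (u := t1) hs1.ne' (by rw [abs_lt]; constructor <;> linarith only [hlt, hs0, hs1]) ?_
      (habs s hs0 hs1).1 (habs s hs0 hs1).2
    intro τ hτ
    rw [uIcc_of_ge hs1.le] at hτ
    exact hsub hτ

/-- no unit chord inside an `a b` arc. -/
theorem CC.no_third (h : CC F) {x : ℂ} {a b : Fin 5} {t : ℝ} (ht : ArcAt F x a b t) :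
    t + Real.pi / 3 ∉ AB F x a b ∧ t - Real.pi / 3 ∉ AB F x a b := by
  have h1 : ∀ᶠ s in 𝓝 t, x + ((1 : ℝ) : ℂ) * cis s ∈ F a := by
    filter_upwards [ht] with s hs
    simpa using hs.1
  have hs3 : Real.sin (Real.pi / 3) ≠ 0 := by
    rw [Real.sin_pi_div_three]; positivity
  constructor
  · intro hm
    refine h.cross_circ (ρ := 1) (θ := Real.pi / 3) one_pos ?_ hs3 h1 ?_
    · rw [Real.cos_pi_div_three]; norm_num
    · simpa using hm.1
  · intro hm
    refine h.cross_circ (ρ := 1) (θ := -(Real.pi / 3)) one_pos ?_ ?_ h1 ?_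
    · rw [Real.cos_neg, Real.cos_pi_div_three]; norm_num
    · rw [Real.sin_neg]; exact neg_ne_zero.2 hs3
    · have := hm.1
      simpa [sub_eq_add_neg] using this

/-- an oriented normal of an `a b` arc -/
def NA (F : Fin 5 → Set ℂ) (x : ℂ) (a b c d : Fin 5) (n : ℝ) : Prop :=
  Nrm F x c d n ∧ (ArcAt F x a b n ∨ ArcAt F x a b (n + Real.pi))

theorem sin_pos' {φ : ℝ} (h1 : 0 < φ) (h2 : φ < Real.pi) : 0 < Real.sin φ :=
  Real.sin_pos_of_pos_of_lt_pi h1 h2

theorem Dj.spread1 (h : CC F) (hB : BetaMain F) {x : ℂ} {q a b c d : Fin 5}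
    (hx : Dj F x q a b c d) {n n' : ℝ} (h1 : Nrm F x c d n) (h2 : Nrm F x c d n')
    (hlt : n' < n + Real.pi) (harc : ArcAt F x a b n ∨ ArcAt F x a b n') :
    Icc n n' ⊆ AB F x a b := by
  refine hx.spread h hB (by linarith) ?_ harc
  intro φ h3 h4
  refine hx.between h h1 h2 ?_
  have h5 := sin_pos' (φ := φ - n) (by linarith) (by linarith)
  have h6 := sin_pos' (φ := n' - φ) (by linarith) (by linarith)
  have h7 : Real.sin (φ - n') = - Real.sin (n' - φ) := by rw [← Real.sin_neg]; congr 1; ring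
  rw [h7]
  nlinarith only [h5, h6]

theorem Dj.spread2 (h : CC F) (hB : BetaMain F) {x : ℂ} {q a b c d : Fin 5}
    (hx : Dj F x q a b c d) {n n' : ℝ} (h1 : Nrm F x c d n) (h2 : Nrm F x c d n')
    (hlt : n' < n + Real.pi)
    (harc : ArcAt F x a b (n + Real.pi) ∨ ArcAt F x a b (n' + Real.pi)) :
    Icc (n + Real.pi) (n' + Real.pi) ⊆ AB F x a b := by
  refine hx.spread h hB (by linarith only [hlt]) ?_ harc
  intro φ h3 h4
  refine hx.between h h1 h2 ?_
  have h5 := sin_pos' (φ := φ - Real.pi - n) (by linarith) (by linarith)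
  have h6 := sin_pos' (φ := n' - (φ - Real.pi)) (by linarith) (by linarith)
  have h7 : Real.sin (φ - n') = Real.sin (n' - (φ - Real.pi)) := by
    rw [← Real.sin_pi_sub (φ - n')]; congr 1; ring
  have h8 : Real.sin (φ - n) = - Real.sin (φ - Real.pi - n) := by
    have : φ - n = (φ - Real.pi - n) + Real.pi := by ring
    rw [this, Real.sin_add_pi]
  rw [h7, h8]
  nlinarith only [h5, h6]

/-- two normals closer than 180 degrees are closer than 60 degrees. -/
theorem Dj.close (h : CC F) (hB : BetaMain F) {x : ℂ} {q a b c d : Fin 5}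
    (hx : Dj F x q a b c d) {n n' : ℝ} (h1 : NA F x a b c d n) (h2 : NA F x a b c d n')
    (hnn' : n < n') (hlt : n' < n + Real.pi) : n' < n + Real.pi / 3 := by
  have hpi := Real.pi_pos
  by_contra hcon
  push Not at hcon
  rcases h1.2 with h3 | h3
  · exact (h.no_third h3).1 (hx.spread1 h hB h1.1 h2.1 hlt (Or.inl h3)
      ⟨by linarith only [hnn', hlt], hcon⟩)
  · refine (h.no_third h3).1 (hx.spread2 h hB h1.1 h2.1 hlt (Or.inl h3)
      ⟨by linarith only [hnn', hlt], by linarith⟩)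

theorem NA.add_two_pi {x : ℂ} {a b c d : Fin 5} {n : ℝ} (h : NA F x a b c d n) :
    NA F x a b c d (n + 2 * Real.pi) := by
  refine ⟨h.1.add_two_pi, ?_⟩
  rcases h.2 with h1 | h1
  · exact Or.inl h1.add_two_pi
  · right
    have := h1.add_two_pi
    rwa [show n + Real.pi + 2 * Real.pi = n + 2 * Real.pi + Real.pi by ring] at this

theorem NA.sub_two_pi {x : ℂ} {a b c d : Fin 5} {n : ℝ} (h : NA F x a b c d n) :
    NA F x a b c d (n - 2 * Real.pi) := by
  refine ⟨h.1.sub_two_pi, ?_⟩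
  rcases h.2 with h1 | h1
  · exact Or.inl h1.sub_two_pi
  · right
    have := h1.sub_two_pi
    rwa [show n + Real.pi - 2 * Real.pi = n - 2 * Real.pi + Real.pi by ring] at this

theorem Dj.close2 (h : CC F) (hB : BetaMain F) {x : ℂ} {q a b c d : Fin 5}
    (hx : Dj F x q a b c d) {n n' : ℝ} (h1 : NA F x a b c d n) (h2 : NA F x a b c d n')
    (hnn' : n ≤ n') (hlt : n' < n + 2 * Real.pi) :
    n' < n + Real.pi / 3 ∨ n + 5 * Real.pi / 3 < n' := by
  have hpi := Real.pi_pos
  rcases hnn'.eq_or_lt with h3 | h3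
  · left; linarith
  rcases lt_trichotomy n' (n + Real.pi) with h4 | h4 | h4
  · exact Or.inl (hx.close h hB h1 h2 h3 h4)
  · exfalso
    subst h4
    exact hx.nrm_excl h h1.1 h2.1
  · right
    have := hx.close h hB h2 h1.add_two_pi hlt (by linarith)
    linarith only [this]

/-- every arc of type `a b` has a normal in `NA`. -/
theorem Dj.na_of_arc (h : CC F) {x : ℂ} {q a b c d : Fin 5} (hx : Dj F x q a b c d) {t : ℝ}
    (ht : ArcAt F x a b t) : NA F x a b c d t ∨ NA F x a b c d (t + Real.pi) := by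
  rcases hx.nrm h ht with h1 | h1
  · exact Or.inl ⟨h1, Or.inl ht⟩
  · refine Or.inr ⟨h1, Or.inr ?_⟩
    have := ht.add_two_pi
    rwa [show t + 2 * Real.pi = t + Real.pi + Real.pi by ring] at this

/-- arcs of type `a b` at angles differing by a multiple of 60 degrees are antipodal. -/
theorem Dj.mod_three (h : CC F) (hB : BetaMain F) {x : ℂ} {q a b c d : Fin 5}
    (hx : Dj F x q a b c d) {t : ℝ} {k k' : ℕ} (hk : k < k') (hk' : k' < 6)
    (h1 : ArcAt F x a b (t + k * (Real.pi / 3))) (h2 : ArcAt F x a b (t + k' * (Real.pi / 3))) :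
    k' = k + 3 := by
  have hpi := Real.pi_pos
  -- normals
  obtain ⟨e, he, hn⟩ : ∃ e : ℕ, e ≤ 1 ∧ NA F x a b c d (t + (k + 3 * e : ℕ) * (Real.pi / 3)) := by
    rcases hx.na_of_arc h h1 with h3 | h3
    · exact ⟨0, by norm_num, by simpa using h3⟩
    · refine ⟨1, le_rfl, ?_⟩
      have e1 : t + ((k + 3 * 1 : ℕ) : ℝ) * (Real.pi / 3) = t + k * (Real.pi / 3) + Real.pi := by
        push_cast; ring
      rw [e1]; exact h3
  obtain ⟨e', he', hn'⟩ : ∃ e : ℕ, e ≤ 1 ∧ NA F x a b c d (t + (k' + 3 * e : ℕ) * (Real.pi / 3)) := by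
    rcases hx.na_of_arc h h2 with h3 | h3
    · exact ⟨0, by norm_num, by simpa using h3⟩
    · refine ⟨1, le_rfl, ?_⟩
      have e1 : t + ((k' + 3 * 1 : ℕ) : ℝ) * (Real.pi / 3) = t + k' * (Real.pi / 3) + Real.pi := by
        push_cast; ring
      rw [e1]; exact h3
  -- comparing two normals at integer multiples
  have key : ∀ m m' : ℕ, m < m' → m' < m + 6 → NA F x a b c d (t + m * (Real.pi / 3)) →
      NA F x a b c d (t + m' * (Real.pi / 3)) → False := by
    intro m m' hm hm' g1 g2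
    have c1 : (m : ℝ) + 1 ≤ m' := by exact_mod_cast hm
    have c2 : (m' : ℝ) + 1 ≤ m + 6 := by exact_mod_cast hm'
    rcases hx.close2 h hB g1 g2 (by nlinarith only [hpi, c1]) (by nlinarith only [hpi, c2]) with h3 | h3
    · nlinarith only [h3, hpi, c1]
    · nlinarith only [h3, hpi, c2]
  have key2 : ∀ m m' : ℕ, m < m' → m' < m + 12 → m' ≠ m + 6 →
      NA F x a b c d (t + m * (Real.pi / 3)) →
      NA F x a b c d (t + m' * (Real.pi / 3)) → False := by
    intro m m' hm hm' hne g1 g2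
    rcases lt_or_gt_of_ne hne with h3 | h3
    · exact key m m' hm h3 g1 g2
    · refine key (m + 6) m' h3 (by omega) ?_ g2
      have := g1.add_two_pi
      have e1 : t + ((m + 6 : ℕ) : ℝ) * (Real.pi / 3) = t + m * (Real.pi / 3) + 2 * Real.pi := by
        push_cast; ring
      rw [e1]; exact this
  by_contra hne
  rcases lt_trichotomy (k + 3 * e) (k' + 3 * e') with h3 | h3 | h3
  · exact key2 _ _ h3 (by omega) (by omega) hn hn'
  · omega
  · exact key2 _ _ h3 (by omega) (by omega) hn' hn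

end Vale.Agent.P032.B
end
end

section

section

/-! Points with all five colours. -/

namespace Vale.Agent.P032.B

open Set Topology

variable {F : Fin 5 → Set ℂ}

/-! ### combinatorics of pairs -/

/-- first element of pair number `n` -/
def pa (n : Fin 10) : Fin 5 := ![0, 0, 0, 0, 1, 1, 1, 2, 2, 3] n
/-- second element of pair number `n` -/
def pb (n : Fin 10) : Fin 5 := ![1, 2, 3, 4, 2, 3, 4, 3, 4, 4] n

theorem exists_pair : ∀ i j : Fin 5, i ≠ j →
    ∃ n : Fin 10, (pa n = i ∧ pb n = j) ∨ (pa n = j ∧ pb n = i) := by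
  decide

theorem pa_ne_pb : ∀ n : Fin 10, pa n ≠ pb n := by decide

/-- disjoint pairs -/
def dj (m n : Fin 10) : Bool := pa m ≠ pa n && pa m ≠ pb n && pb m ≠ pa n && pb m ≠ pb n

/-- pair number `n` is `{p, r}` -/
def isP (n : Fin 10) (p r : Fin 5) : Bool := (pa n == p && pb n == r) || (pa n == r && pb n == p)

/-- the common element of two pairs -/
def com (m n : Fin 10) : Fin 5 := if pa m == pa n || pa m == pb n then pa m else pb m

/-- the other element of a pair -/
def oth (m : Fin 10) (p : Fin 5) : Fin 5 := if pa m == p then pb m else pa m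

/-- the five colours are different -/
def nd5 (p q r s t : Fin 5) : Bool :=
  p != q && p != r && p != s && p != t && q != r && q != s && q != t && r != s && r != t && s != t

/-- the conclusion of the hexagon analysis, as a computation -/
def conclB (e0 e1 e2 e3 e4 e5 : Fin 10) (p q r s t : Fin 5) : Bool :=
  nd5 p q r s t && isP e0 p r && isP e1 q s && isP e2 p t && isP e3 q r && isP e4 p s && isP e5 q t

theorem hexComb0 : ∀ e0 e1 : Fin 10, dj e0 e1 = true → ∀ e2 : Fin 10, dj e1 e2 = true →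
    ∀ e3 : Fin 10, dj e2 e3 = true → dj e0 e3 = false → ∀ e4 : Fin 10, dj e3 e4 = true →
    dj e1 e4 = false → ∀ e5 : Fin 10, dj e4 e5 = true → dj e5 e0 = true → dj e2 e5 = false →
    conclB e0 e1 e2 e3 e4 e5 (com e0 e2) (com e1 e3) (oth e0 (com e0 e2)) (oth e1 (com e1 e3))
      (oth e2 (com e0 e2)) = true := by
  (clear * -; decide +kernel)

theorem hexComb (e0 e1 : Fin 10) (h1 : dj e0 e1 = true) (e2 : Fin 10) (h2 : dj e1 e2 = true)
    (e3 : Fin 10) (h3 : dj e2 e3 = true) (h4 : dj e0 e3 = false) (e4 : Fin 10)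
    (h5 : dj e3 e4 = true) (h6 : dj e1 e4 = false) (e5 : Fin 10) (h7 : dj e4 e5 = true)
    (h8 : dj e5 e0 = true) (h9 : dj e2 e5 = false) :
    ∃ p q r s t : Fin 5, [p, q, r, s, t].Nodup ∧
      (isP e0 p r && isP e1 q s && isP e2 p t && isP e3 q r && isP e4 p s && isP e5 q t) = true := by
  have h := hexComb0 e0 e1 h1 e2 h2 e3 h3 h4 e4 h5 h6 e5 h7 h8 h9
  refine ⟨com e0 e2, com e1 e3, oth e0 (com e0 e2), oth e1 (com e1 e3), oth e2 (com e0 e2), ?_, ?_⟩
  rotate_left
  · simp only [conclB, Bool.and_eq_true] at h ⊢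
    obtain ⟨⟨⟨⟨⟨⟨-, g1⟩, g2⟩, g3⟩, g4⟩, g5⟩, g6⟩ := h
    exact ⟨⟨⟨⟨⟨g1, g2⟩, g3⟩, g4⟩, g5⟩, g6⟩
  · simp only [conclB, nd5, Bool.and_eq_true, bne_iff_ne] at h
    obtain ⟨⟨⟨⟨⟨⟨g, -⟩, -⟩, -⟩, -⟩, -⟩, -⟩ := h
    obtain ⟨⟨⟨⟨⟨⟨⟨⟨⟨k1, k2⟩, k3⟩, k4⟩, k5⟩, k6⟩, k7⟩, k8⟩, k9⟩, k10⟩ := g
    simp only [List.nodup_cons, List.mem_cons, List.not_mem_nil, or_false, not_or,
      not_false_eq_true, List.nodup_nil, and_true]
    exact ⟨⟨k1, k2, k3, k4⟩, ⟨k5, k6, k7⟩, ⟨k8, k9⟩, k10⟩

theorem dj_four : ∀ m n : Fin 10, dj m n = true →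
    ∃ l, (∀ k, k ≠ pa m → k ≠ pb m → k ≠ pa n → k ≠ pb n → k = l) ∧ l ≠ pa m ∧ l ≠ pb m ∧
      l ≠ pa n ∧ l ≠ pb n := by
  (clear * -; decide +kernel)

/-- the pair `u v` is not a pair between `{p, q}` and its complement -/
def na (p q u v : Fin 5) : Bool :=
  !((u == p && v != q) || (u == q && v != p) || (v == p && u != q) || (v == q && u != p))

theorem na_comm : ∀ p q u v : Fin 5, na p q u v = na q p u v := by decide

/-- same pair -/
def sP (u v p q : Fin 5) : Bool := (u == p && v == q) || (u == q && v == p)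

theorem sP_iff {u v p q : Fin 5} (h : sP u v p q = true) : (u = p ∧ v = q) ∨ (u = q ∧ v = p) := by
  simpa [sP] using h

theorem tc1a : ∀ p q p' q' : Fin 5, [p, q, p', q'].Nodup →
    ∀ u v, u ≠ v → na p q u v = true → na p' q' u v = true →
      (sP u v p q || sP u v p' q') = true := by
  (clear * -; decide +kernel)

theorem tc1b : ∀ p q p' q' : Fin 5, [p, q, p', q'].Nodup → ∃ m, [p, q, p', q', m].Nodup := by
  (clear * -; decide +kernel)

theorem tc1 (p q p' q' : Fin 5) (h : [p, q, p', q'].Nodup) : ∃ m, [p, q, p', q', m].Nodup ∧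
    ∀ u v, u ≠ v → na p q u v = true → na p' q' u v = true →
      (u = p ∧ v = q) ∨ (u = q ∧ v = p) ∨ (u = p' ∧ v = q') ∨ (u = q' ∧ v = p') := by
  obtain ⟨m, hm⟩ := tc1b p q p' q' h
  refine ⟨m, hm, fun u v huv h1 h2 => ?_⟩
  have := tc1a p q p' q' h u v huv h1 h2
  rw [Bool.or_eq_true] at this
  rcases this with h3 | h3
  · rcases sP_iff h3 with h4 | h4
    · exact Or.inl h4
    · exact Or.inr (Or.inl h4)
  · rcases sP_iff h3 with h4 | h4
    · exact Or.inr (Or.inr (Or.inl h4))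
    · exact Or.inr (Or.inr (Or.inr h4))

theorem tc2 : ∀ p q q' : Fin 5, [p, q, q'].Nodup → ∃ s t, [s, t, p, q, q'].Nodup ∧
    ∀ u v, u ≠ v → na p q u v = true → na p q' u v = true →
      (u = s ∧ v = t) ∨ (u = t ∧ v = s) := by
  (clear * -; decide +kernel)

theorem fifth_eq : ∀ i j i' j' : Fin 5, [i, j, i', j'].Nodup → ∀ k l : Fin 5,
    [i, j, i', j', k].Nodup → [i, j, i', j', l].Nodup → k = l := by
  (clear * -; decide +kernel)

/-- the final combinatorial step -/
theorem twoCenters (p q p' q' : Fin 5) (h1 : p ≠ q) (h2 : p' ≠ q')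
    (h3 : ¬ ((p = p' ∧ q = q') ∨ (p = q' ∧ q = p'))) :
    ∃ i j k l m : Fin 5, [i, j, k, l, m].Nodup ∧
      ∀ u v, u ≠ v → na p q u v = true → na p' q' u v = true →
        (u = i ∧ v = j) ∨ (u = j ∧ v = i) ∨ (u = k ∧ v = l) ∨ (u = l ∧ v = k) := by
  by_cases e1 : p = p'
  · subst e1
    have : q ≠ q' := fun h => h3 (Or.inl ⟨rfl, h⟩)
    obtain ⟨s, t, hnd, hst⟩ := tc2 p q q' (by simp [h1, h2, this])
    exact ⟨s, t, p, q, q', hnd, fun u v huv ha hb => by
      rcases hst u v huv ha hb with h | h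
      · exact Or.inl h
      · exact Or.inr (Or.inl h)⟩
  by_cases e2 : p = q'
  · subst e2
    have : q ≠ p' := fun h => h3 (Or.inr ⟨rfl, h⟩)
    obtain ⟨s, t, hnd, hst⟩ := tc2 p q p' (by simp [h1, h2.symm, this])
    exact ⟨s, t, p, q, p', hnd, fun u v huv ha hb => by
      rw [na_comm] at hb
      rcases hst u v huv ha hb with h | h
      · exact Or.inl h
      · exact Or.inr (Or.inl h)⟩
  by_cases e3 : q = p'
  · subst e3
    obtain ⟨s, t, hnd, hst⟩ := tc2 q p q' (by simp [h1.symm, h2, e2])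
    exact ⟨s, t, q, p, q', hnd, fun u v huv ha hb => by
      rw [na_comm] at ha
      rcases hst u v huv ha hb with h | h
      · exact Or.inl h
      · exact Or.inr (Or.inl h)⟩
  by_cases e4 : q = q'
  · subst e4
    obtain ⟨s, t, hnd, hst⟩ := tc2 q p p' (by simp [h1.symm, h2.symm, e1])
    exact ⟨s, t, q, p, p', hnd, fun u v huv ha hb => by
      rw [na_comm] at ha hb
      rcases hst u v huv ha hb with h | h
      · exact Or.inl h
      · exact Or.inr (Or.inl h)⟩
  obtain ⟨m, hnd, hst⟩ := tc1 p q p' q' (by simp [h1, h2, e1, e2, e3, e4])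
  exact ⟨p, q, p', q', m, hnd, hst⟩

/-! ### geometry -/

/-- a double cone of colour `l` at `p` makes `l` absent on the unit circle about `p`. -/
theorem CC.cone (h : CC F) {l : Fin 5} {p : ℂ} {θ r ρ : ℝ} (hr : 0 < r) (hρ0 : 0 < ρ)
    (hl : ∀ β s : ℝ, |β - θ| < r → s ≠ 0 → |s| < ρ → p + s * cis β ∈ F l) :
    p ∈ F l ∧ ∀ z, dist z p = 1 → z ∉ F l := by
  have hpl : p ∈ F l := by
    have hc : Filter.Tendsto (fun u : ℝ => p + (u : ℂ) * cis θ) (𝓝[≠] 0) (𝓝 p) := by
      have hc' : Continuous (fun u : ℝ => p + (u : ℂ) * cis θ) := by fun_prop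
      have := (hc'.tendsto 0).mono_left (nhdsWithin_le_nhds (s := {0}ᶜ))
      simpa using this
    refine (h.closed l).mem_of_tendsto hc ?_
    have h4 : ∀ᶠ u : ℝ in 𝓝[≠] (0 : ℝ), |u| < ρ :=
      (small_abs hρ0).filter_mono nhdsWithin_le_nhds
    have h5 : ∀ᶠ u : ℝ in 𝓝[≠] (0 : ℝ), u ≠ 0 := eventually_mem_nhdsWithin
    filter_upwards [h4, h5] with u hu1 hu2
    exact hl _ u (by simpa using hr) hu2 hu1
  refine ⟨hpl, ?_⟩
  intro z hz
  obtain ⟨φ, hφ⟩ : ∃ φ : ℝ, z - p = cis φ := exists_cis (by rw [← dist_eq_norm, hz])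
  have hzp : z = p + cis φ := by rw [← hφ]; ring
  -- choose a good direction
  obtain ⟨β, hβ1, hβ2⟩ : ∃ β : ℝ, |β - θ| < r ∧ Real.cos (φ - β) ≠ 0 := by
    by_cases h0 : Real.cos (φ - θ) = 0
    · refine ⟨θ + min (r / 2) 1, ?_, ?_⟩
      · rw [add_sub_cancel_left, abs_of_pos (lt_min (by linarith only [hr]) one_pos)]
        exact (min_le_left _ _).trans_lt (by linarith)
      · have e1 : φ - (θ + min (r / 2) 1) = (φ - θ) - min (r / 2) 1 := by ring
        rw [e1, Real.cos_sub, h0, zero_mul, zero_add]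
        have h1 : Real.sin (φ - θ) ≠ 0 := by
          intro h1
          have := Real.sin_sq_add_cos_sq (φ - θ)
          rw [h0, h1] at this
          norm_num at this
        have h2 : 0 < Real.sin (min (r / 2) 1) :=
          Real.sin_pos_of_pos_of_lt_pi (lt_min (by linarith only [hr]) one_pos)
            ((min_le_right _ _).trans_lt (by linarith [Real.pi_gt_three]))
        exact mul_ne_zero h1 h2.ne'
    · exact ⟨θ, by simpa using hr, h0⟩
  set c := Real.cos (φ - β) with hc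
  obtain ⟨s, hs0, hsρ, hsc⟩ : ∃ s : ℝ, 0 < s ∧ s < ρ ∧ s < 2 * |c| :=
    ⟨min (ρ / 2) |c|, lt_min (by linarith only [hρ0]) (abs_pos.2 hβ2),
      (min_le_left _ _).trans_lt (by linarith only [hρ0]),
      (min_le_right _ _).trans_lt (by linarith only [abs_pos.2 hβ2])⟩
  have hpre : IsPreconnected ((fun u : ℝ => p + (u : ℂ) * cis β) '' Icc (-s) s) := by
    refine isPreconnected_Icc.image _ ?_
    have hc' : Continuous (fun u : ℝ => p + (u : ℂ) * cis β) := by fun_prop
    exact hc'.continuousOn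
  have hsub : ((fun u : ℝ => p + (u : ℂ) * cis β) '' Icc (-s) s) ⊆ F l := by
    rintro _ ⟨u, hu, rfl⟩
    by_cases hu0 : u = 0
    · simpa [hu0] using hpl
    · exact hl β u hβ1 hu0 ((abs_le.2 hu).trans_lt hsρ)
  have hA : p + ((-s : ℝ) : ℂ) * cis β ∈ ((fun u : ℝ => p + (u : ℂ) * cis β) '' Icc (-s) s) :=
    mem_image_of_mem _ ⟨le_rfl, by linarith only [hs0]⟩
  have hB : p + ((s : ℝ) : ℂ) * cis β ∈ ((fun u : ℝ => p + (u : ℂ) * cis β) '' Icc (-s) s) :=
    mem_image_of_mem _ ⟨by linarith only [hs0], le_rfl⟩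
  rw [hzp]
  rcases lt_or_gt_of_ne hβ2 with hneg | hpos
  · rw [abs_of_neg hneg] at hsc
    refine h.wlemma hpre hsub hA hB ?_ ?_
    · apply dist_lt_one
      rw [circ_sq]
      nlinarith only [hs0, hsc]
    · apply one_lt_dist
      rw [circ_sq]
      nlinarith only [hs0, hsc]
  · rw [abs_of_pos hpos] at hsc
    refine h.wlemma hpre hsub hB hA ?_ ?_
    · apply dist_lt_one
      rw [circ_sq]
      nlinarith only [hs0, hsc]
    · apply one_lt_dist
      rw [circ_sq]
      nlinarith only [hs0, hsc]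

theorem cis_add_pi (t : ℝ) : cis (t + Real.pi) = - cis t := by
  rw [cis_add, cis_pi]; ring

/-- antipodal arcs of disjoint types: the fifth colour is absent on the unit circle. -/
theorem CC.antipodal (h : CC F) {i j i' j' l : Fin 5} {x : ℂ} {t : ℝ}
    (hl : ∀ k, k ≠ i → k ≠ j → k ≠ i' → k ≠ j' → k = l)
    (h1 : ∀ᶠ s in 𝓝 t, x + cis s ∈ F i ∧ x + cis s ∈ F j)
    (h2 : ∀ᶠ s in 𝓝 (t + Real.pi), x + cis s ∈ F i' ∧ x + cis s ∈ F j') :
    x ∈ F l ∧ ∀ z, dist z x = 1 → z ∉ F l := by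
  obtain ⟨r, hr, hw⟩ := h.wedge' (p := x) (t := t) (P := fun k => k = i ∨ k = j) (by
    filter_upwards [h1] with a ha
    rintro k (rfl | rfl)
    · exact ha.1
    · exact ha.2)
  obtain ⟨r', hr', hw'⟩ := h.wedge' (p := x) (t := t + Real.pi) (P := fun k => k = i' ∨ k = j') (by
    filter_upwards [h2] with a ha
    rintro k (rfl | rfl)
    · exact ha.1
    · exact ha.2)
  refine h.cone (θ := t + Real.pi / 2) (r := min r r') (ρ := min r r') (lt_min hr hr')
    (lt_min hr hr') ?_
  intro β s hβ hs hs'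
  have h3 := hw β s (hβ.trans_le (min_le_left _ _)) hs (hs'.trans_le (min_le_left _ _))
  have h4 := hw' (β + Real.pi) (-s) (by
    have : β + Real.pi - (t + Real.pi + Real.pi / 2) = β - (t + Real.pi / 2) := by ring
    rw [this]
    exact hβ.trans_le (min_le_right _ _)) (neg_ne_zero.2 hs) (by
    rw [abs_neg]; exact hs'.trans_le (min_le_right _ _))
  have e : x + ((-s : ℝ) : ℂ) * cis (β + Real.pi) = x + s * cis β := by
    rw [cis_add_pi]; push_cast; ring
  rw [e] at h4
  obtain ⟨k, hk⟩ := h.cover (x + s * cis β)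
  have : k = l := by
    refine hl k ?_ ?_ ?_ ?_
    · rintro rfl; exact h3 k (Or.inl rfl) hk
    · rintro rfl; exact h3 k (Or.inr rfl) hk
    · rintro rfl; exact h4 k (Or.inl rfl) hk
    · rintro rfl; exact h4 k (Or.inr rfl) hk
  rwa [← this]

theorem dist_cis_third (u : ℝ) : dist (cis u) (cis (u + Real.pi / 3)) = 1 := by
  rw [dist_comm, dist_eq_norm]; exact norm_cis_add_pi_div_three u

theorem im_cis_third (u : ℝ) : (cis u * (starRingEnd ℂ) (cis (u + Real.pi / 3))).im ≠ 0 := by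
  have : (cis u * (starRingEnd ℂ) (cis (u + Real.pi / 3))).im = - Real.sin (Real.pi / 3) := by
    simp only [Complex.mul_im, Complex.conj_re, Complex.conj_im, cis_re, cis_im, Real.sin_add,
      Real.cos_add]
    have := Real.sin_sq_add_cos_sq u
    linear_combination (- Real.sin (Real.pi / 3)) * this
  rw [this, Real.sin_pi_div_three]
  have : 0 < √3 := by positivity
  intro h0
  linarith

theorem dist_cis_sum1 (u : ℝ) : dist (cis u) (cis u + cis (u + Real.pi / 3)) = 1 := by
  rw [dist_eq_norm]; simp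

theorem dist_cis_sum2 (u : ℝ) : dist (cis (u + Real.pi / 3)) (cis u + cis (u + Real.pi / 3)) = 1 := by
  rw [dist_eq_norm]; simp

theorem im_cis_sum1 (u : ℝ) :
    (cis u * (starRingEnd ℂ) (cis u + cis (u + Real.pi / 3))).im ≠ 0 := by
  have : (cis u * (starRingEnd ℂ) (cis u + cis (u + Real.pi / 3))).im
      = (cis u * (starRingEnd ℂ) (cis (u + Real.pi / 3))).im := by
    simp only [Complex.mul_im, Complex.conj_re, Complex.conj_im, Complex.add_re, Complex.add_im]
    ring
  rw [this]; exact im_cis_third u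

theorem im_cis_sum2 (u : ℝ) :
    (cis (u + Real.pi / 3) * (starRingEnd ℂ) (cis u + cis (u + Real.pi / 3))).im ≠ 0 := by
  have : (cis (u + Real.pi / 3) * (starRingEnd ℂ) (cis u + cis (u + Real.pi / 3))).im
      = - (cis u * (starRingEnd ℂ) (cis (u + Real.pi / 3))).im := by
    simp only [Complex.mul_im, Complex.conj_re, Complex.conj_im, Complex.add_re, Complex.add_im]
    ring
  rw [this]; exact neg_ne_zero.2 (im_cis_third u)

/-- if `l` is absent on the unit circle about a five-coloured point we get a contradiction. -/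
theorem CC.five_absent (h : CC F) {x : ℂ} (hall : ∀ i, x ∈ F i) {l : Fin 5}
    (hl : ∀ z, dist z x = 1 → z ∉ F l) : False := by
  refine h.irr_sqrt_three (k := l) (m := l) (x := x) ?_
  intro z hz
  left
  set ω := cis (Real.pi / 3) with hω
  refine h.gen_circle (w := 1 + ω) one_add_cis_third {cis 0, cis (0 + Real.pi / 3)} (h.closed l) ?_
    (z := z) (by rw [hz, norm_one_add_cis_third])
  intro t hg
  obtain ⟨i, j, hij, hi, hj, -, -, -⟩ := h.gen_pair hg (u := 0) (by simp) (fun i _ => hall i)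
  obtain ⟨i', j', hij', hi', hj', -, -, -⟩ := h.gen_pair hg (u := 0 + Real.pi / 3) (by simp)
    (fun i _ => hall i)
  have hc : ∀ k, x + cis 0 * cis t ∈ F k → x + cis (0 + Real.pi / 3) * cis t ∉ F k := fun k hk =>
    h.gen_cross hg (by simp) (dist_cis_third 0) (im_cis_third 0) hk
  have hc1 : ∀ k, x + cis 0 * cis t ∈ F k →
      x + (cis 0 + cis (0 + Real.pi / 3)) * cis t ∉ F k := fun k hk =>
    h.gen_cross hg (by simp) (dist_cis_sum1 0) (im_cis_sum1 0) hk
  have hc2 : ∀ k, x + cis (0 + Real.pi / 3) * cis t ∈ F k →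
      x + (cis 0 + cis (0 + Real.pi / 3)) * cis t ∉ F k := fun k hk =>
    h.gen_cross hg (by simp) (dist_cis_sum2 0) (im_cis_sum2 0) hk
  have hd : ∀ u : ℝ, dist (x + cis u * cis t) x = 1 := by
    intro u; rw [dist_eq_norm, ← cis_add]; simp
  have e1 : 1 + ω = cis 0 + cis (0 + Real.pi / 3) := by rw [cis_zero, zero_add]
  rw [e1]
  obtain ⟨k, hk⟩ := h.cover (x + (cis 0 + cis (0 + Real.pi / 3)) * cis t)
  have k1 : k ≠ i := by rintro rfl; exact hc1 _ hi hk
  have k2 : k ≠ j := by rintro rfl; exact hc1 _ hj hk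
  have k3 : k ≠ i' := by rintro rfl; exact hc2 _ hi' hk
  have k4 : k ≠ j' := by rintro rfl; exact hc2 _ hj' hk
  have l1 : l ≠ i := by rintro rfl; exact hl _ (hd _) hi
  have l2 : l ≠ j := by rintro rfl; exact hl _ (hd _) hj
  have l3 : l ≠ i' := by rintro rfl; exact hl _ (hd _) hi'
  have l4 : l ≠ j' := by rintro rfl; exact hl _ (hd _) hj'
  have m1 : i ≠ i' := by rintro rfl; exact hc _ hi hi'
  have m2 : i ≠ j' := by rintro rfl; exact hc _ hi hj'
  have m3 : j ≠ i' := by rintro rfl; exact hc _ hj hi'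
  have m4 : j ≠ j' := by rintro rfl; exact hc _ hj hj'
  have : k = l := fifth_eq i j i' j' (by simp [*]) k l
    (by simp [hij, hij', m1, m2, m3, m4, k1.symm, k2.symm, k3.symm, k4.symm])
    (by simp [hij, hij', m1, m2, m3, m4, l1.symm, l2.symm, l3.symm, l4.symm])
  rwa [this] at hk

/-! ### the hexagon -/

/-- the vertices of the standard hexagon -/
noncomputable def hx (k : ℕ) : ℂ := cis (k * (Real.pi / 3))

theorem hx_succ (k : ℕ) : hx (k + 1) = cis (k * (Real.pi / 3) + Real.pi / 3) := by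
  unfold hx; congr 1; push_cast; ring

theorem hx_six : hx 6 = hx 0 := by
  unfold hx
  have : ((6 : ℕ) : ℝ) * (Real.pi / 3) = ((0 : ℕ) : ℝ) * (Real.pi / 3) + 2 * Real.pi := by
    push_cast; ring
  rw [this, cis_add_two_pi]

theorem hx_zero : hx 0 = 1 := by unfold hx; simp

theorem hx_ne (k : ℕ) : hx k ≠ 0 := cis_ne_zero _

/-- the directions used for a five-coloured point -/
noncomputable def V8 : Finset ℂ :=
  {hx 0, hx 1, hx 2, hx 3, hx 4, hx 5, hx 0 + hx 1, hx 5 + hx 6}

theorem hx_mem {k : ℕ} (hk : k ≤ 6) : hx k ∈ V8 := by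
  have : k = 0 ∨ k = 1 ∨ k = 2 ∨ k = 3 ∨ k = 4 ∨ k = 5 ∨ k = 6 := by omega
  rcases this with rfl | rfl | rfl | rfl | rfl | rfl | rfl <;> simp [V8, hx_six]

/-- adjacent vertices -/
theorem CC.hx_cross (h : CC F) {x : ℂ} {V : Finset ℂ} {t : ℝ} (hg : Gen F x V t) {k : ℕ}
    (hk : hx k ∈ V) {i : Fin 5} (hi : x + hx k * cis t ∈ F i) : x + hx (k + 1) * cis t ∉ F i := by
  rw [hx_succ]
  exact h.gen_cross hg hk (dist_cis_third _) (im_cis_third _) hi

theorem CC.hx_cross1 (h : CC F) {x : ℂ} {V : Finset ℂ} {t : ℝ} (hg : Gen F x V t) {k : ℕ}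
    (hk : hx k ∈ V) {i : Fin 5} (hi : x + hx k * cis t ∈ F i) :
    x + (hx k + hx (k + 1)) * cis t ∉ F i := by
  rw [hx_succ]
  exact h.gen_cross hg hk (dist_cis_sum1 _) (im_cis_sum1 _) hi

theorem CC.hx_cross2 (h : CC F) {x : ℂ} {V : Finset ℂ} {t : ℝ} (hg : Gen F x V t) {k : ℕ}
    (hk : hx (k + 1) ∈ V) {i : Fin 5} (hi : x + hx (k + 1) * cis t ∈ F i) :
    x + (hx k + hx (k + 1)) * cis t ∉ F i := by
  have h1 : hx (k + 1) ∈ V := hk
  rw [hx_succ] at hi hk ⊢
  exact h.gen_cross hg hk (dist_cis_sum2 _) (im_cis_sum2 _) hi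

/-- the pair of a vertex of a generic hexagon at a five-coloured point -/
theorem CC.five_pair (h : CC F) {x : ℂ} (hall : ∀ i, x ∈ F i) {V : Finset ℂ} {t : ℝ}
    (hg : Gen F x V t) {k : ℕ} (hk : hx k ∈ V) :
    ∃ n : Fin 10, x + hx k * cis t ∈ F (pa n) ∧ x + hx k * cis t ∈ F (pb n) ∧
      (∀ l, x + hx k * cis t ∈ F l → l = pa n ∨ l = pb n) ∧
      ∀ᶠ s in 𝓝 (k * (Real.pi / 3) + t), x + cis s ∈ F (pa n) ∧ x + cis s ∈ F (pb n) := by
  obtain ⟨i, j, hij, hi, hj, -, -, -⟩ := h.gen_pair hg hk (fun i _ => hall i)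
  obtain ⟨n, hn⟩ := exists_pair i j hij
  have harc := h.gen_arc hg hk hi hj
  have h2 : ∀ l, x + hx k * cis t ∈ F l → l = i ∨ l = j := fun l hl =>
    h.gen_two hg hk (hx_ne k) hij hi hj hl
  rcases hn with ⟨h3, h4⟩ | ⟨h3, h4⟩
  · subst h3; subst h4
    exact ⟨n, hi, hj, h2, harc⟩
  · subst h3; subst h4
    exact ⟨n, hj, hi, fun l hl => (h2 l hl).symm, harc.mono fun _ hs => hs.symm⟩

theorem isP_iff {n : Fin 10} {p r : Fin 5} (h : isP n p r = true) :
    (pa n = p ∧ pb n = r) ∨ (pa n = r ∧ pb n = p) := by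
  simpa [isP] using h

/-- hexagon analysis at a five-coloured point -/
theorem CC.five_hex (h : CC F) {x : ℂ} (hall : ∀ i, x ∈ F i) {t : ℝ} (hg : Gen F x V8 t) :
    ∃ p q : Fin 5, p ≠ q ∧ (∀ u v, u ≠ v → ¬ Arc F x u v → na p q u v = true) ∧
      (x + 2 * cis t ∈ F p ∨ x + 2 * cis t ∈ F q) := by
  obtain ⟨e0, a0, b0, c0, d0⟩ := h.five_pair hall hg (hx_mem (k := 0) (by norm_num))
  obtain ⟨e1, a1, b1, c1, d1⟩ := h.five_pair hall hg (hx_mem (k := 1) (by norm_num))
  obtain ⟨e2, a2, b2, c2, d2⟩ := h.five_pair hall hg (hx_mem (k := 2) (by norm_num))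
  obtain ⟨e3, a3, b3, c3, d3⟩ := h.five_pair hall hg (hx_mem (k := 3) (by norm_num))
  obtain ⟨e4, a4, b4, c4, d4⟩ := h.five_pair hall hg (hx_mem (k := 4) (by norm_num))
  obtain ⟨e5, a5, b5, c5, d5⟩ := h.five_pair hall hg (hx_mem (k := 5) (by norm_num))
  have hdj : ∀ (k : ℕ) (m n : Fin 10), hx k ∈ V8 → x + hx k * cis t ∈ F (pa m) →
      x + hx k * cis t ∈ F (pb m) → x + hx (k + 1) * cis t ∈ F (pa n) →
      x + hx (k + 1) * cis t ∈ F (pb n) → dj m n = true := by
    intro k m n hk ha hb ha' hb'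
    have h1 := h.hx_cross hg hk ha
    have h2 := h.hx_cross hg hk hb
    simp only [dj, Bool.and_eq_true, decide_eq_true_eq]
    refine ⟨⟨⟨?_, ?_⟩, ?_⟩, ?_⟩
    · intro e; rw [e] at h1; exact h1 ha'
    · intro e; rw [e] at h1; exact h1 hb'
    · intro e; rw [e] at h2; exact h2 ha'
    · intro e; rw [e] at h2; exact h2 hb'
  have hnd : ∀ (k : ℕ) (m n : Fin 10),
      (∀ᶠ s in 𝓝 (k * (Real.pi / 3) + t), x + cis s ∈ F (pa m) ∧ x + cis s ∈ F (pb m)) →
      (∀ᶠ s in 𝓝 ((k + 3 : ℕ) * (Real.pi / 3) + t), x + cis s ∈ F (pa n) ∧ x + cis s ∈ F (pb n)) →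
      dj m n = false := by
    intro k m n h1 h2
    by_contra hcon
    rw [Bool.not_eq_false] at hcon
    obtain ⟨l, hl, -⟩ := dj_four m n hcon
    have e : ((k + 3 : ℕ) : ℝ) * (Real.pi / 3) + t = (k * (Real.pi / 3) + t) + Real.pi := by
      push_cast; ring
    rw [e] at h2
    exact h.five_absent hall (h.antipodal hl h1 h2).2
  have h50 : dj e5 e0 = true := hdj 5 e5 e0 (hx_mem (by norm_num)) a5 b5
    (by rw [show 5 + 1 = 6 from rfl, hx_six]; exact a0)
    (by rw [show 5 + 1 = 6 from rfl, hx_six]; exact b0)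
  obtain ⟨p, q, r, s, w, hnodup, hP⟩ := hexComb e0 e1 (hdj 0 e0 e1 (hx_mem (by norm_num)) a0 b0 a1 b1)
    e2 (hdj 1 e1 e2 (hx_mem (by norm_num)) a1 b1 a2 b2)
    e3 (hdj 2 e2 e3 (hx_mem (by norm_num)) a2 b2 a3 b3) (hnd 0 e0 e3 d0 d3)
    e4 (hdj 3 e3 e4 (hx_mem (by norm_num)) a3 b3 a4 b4) (hnd 1 e1 e4 d1 d4)
    e5 (hdj 4 e4 e5 (hx_mem (by norm_num)) a4 b4 a5 b5) h50 (hnd 2 e2 e5 d2 d5)
  simp only [Bool.and_eq_true] at hP
  obtain ⟨⟨⟨⟨⟨P0, P1⟩, P2⟩, P3⟩, P4⟩, P5⟩ := hP
  have hsym : ∀ {i j : Fin 5}, Arc F x i j → Arc F x j i := by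
    rintro i j ⟨t, ht⟩
    exact ⟨t, ht.mono fun _ hs => hs.symm⟩
  have harcs : ∀ (n : Fin 10) (i j : Fin 5), isP n i j = true → Arc F x (pa n) (pb n) →
      Arc F x i j ∧ Arc F x j i := by
    intro n i j hn harc
    rcases isP_iff hn with ⟨e1, e2⟩ | ⟨e1, e2⟩
    · rw [e1, e2] at harc; exact ⟨harc, hsym harc⟩
    · rw [e1, e2] at harc; exact ⟨hsym harc, harc⟩
  have A0 := harcs _ _ _ P0 ⟨_, d0⟩
  have A1 := harcs _ _ _ P1 ⟨_, d1⟩
  have A2 := harcs _ _ _ P2 ⟨_, d2⟩
  have A3 := harcs _ _ _ P3 ⟨_, d3⟩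
  have A4 := harcs _ _ _ P4 ⟨_, d4⟩
  have A5 := harcs _ _ _ P5 ⟨_, d5⟩
  have hpq : p ≠ q := by
    rintro rfl; simp at hnodup
  refine ⟨p, q, hpq, ?_, ?_⟩
  · intro u v huv harc
    by_contra hcon
    have key : ∀ y, y ≠ p → y ≠ q → (Arc F x p y ∧ Arc F x y p) ∧ (Arc F x q y ∧ Arc F x y q) := by
      intro y hyp hyq
      rcases five_list p q r s w hnodup y with e | e | e | e | e
      · exact absurd e hyp
      · exact absurd e hyq
      · rw [e]; exact ⟨A0, A3⟩
      · rw [e]; exact ⟨A4, A1⟩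
      · rw [e]; exact ⟨A2, A5⟩
    simp only [na, Bool.not_eq_true, Bool.not_eq_false', Bool.or_eq_true, Bool.and_eq_true,
      beq_iff_eq, bne_iff_ne, ne_eq] at hcon
    rcases hcon with ((⟨h1, h2⟩ | ⟨h1, h2⟩) | ⟨h1, h2⟩) | ⟨h1, h2⟩
    · subst h1; exact harc (key v (Ne.symm huv) h2).1.1
    · subst h1; exact harc (key v h2 (Ne.symm huv)).2.1
    · subst h1; exact harc (key u huv h2).1.2
    · subst h1; exact harc (key u h2 huv).2.2
  · -- the point at distance two
    have hmem : ∀ {n : Fin 10} {i j : Fin 5} {z : ℂ}, isP n i j = true → z ∈ F (pa n) →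
        z ∈ F (pb n) → z ∈ F i ∧ z ∈ F j := by
      intro n i j z hn ha hb
      rcases isP_iff hn with ⟨e1, e2⟩ | ⟨e1, e2⟩
      · rw [e1] at ha; rw [e2] at hb; exact ⟨ha, hb⟩
      · rw [e1] at ha; rw [e2] at hb; exact ⟨hb, ha⟩
    have m0 := hmem P0 a0 b0
    have m1 := hmem P1 a1 b1
    have m5 := hmem P5 a5 b5
    have m6 : x + hx (5 + 1) * cis t ∈ F p ∧ x + hx (5 + 1) * cis t ∈ F r := by
      rw [show 5 + 1 = 6 from rfl, hx_six]; exact m0
    -- z0 has only colour w, z5 only colour s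
    have hz0 : x + (hx 0 + hx 1) * cis t ∈ F w := by
      obtain ⟨k, hk⟩ := h.cover (x + (hx 0 + hx 1) * cis t)
      rcases five_list p q r s w hnodup k with e | e | e | e | e
      · rw [e] at hk; exact absurd hk (h.hx_cross1 hg (hx_mem (by norm_num)) m0.1)
      · rw [e] at hk
        exact absurd hk (h.hx_cross2 (k := 0) hg (hx_mem (by norm_num)) m1.1)
      · rw [e] at hk; exact absurd hk (h.hx_cross1 hg (hx_mem (by norm_num)) m0.2)
      · rw [e] at hk
        exact absurd hk (h.hx_cross2 (k := 0) hg (hx_mem (by norm_num)) m1.2)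
      · rwa [e] at hk
    have hz5 : x + (hx 5 + hx 6) * cis t ∈ F s := by
      obtain ⟨k, hk⟩ := h.cover (x + (hx 5 + hx 6) * cis t)
      rcases five_list p q r s w hnodup k with e | e | e | e | e
      · rw [e] at hk
        exact absurd hk (h.hx_cross2 (k := 5) hg (hx_mem (by norm_num)) m6.1)
      · rw [e] at hk; exact absurd hk (h.hx_cross1 hg (hx_mem (by norm_num)) m5.1)
      · rw [e] at hk
        exact absurd hk (h.hx_cross2 (k := 5) hg (hx_mem (by norm_num)) m6.2)
      · rwa [e] at hk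
      · rw [e] at hk; exact absurd hk (h.hx_cross1 hg (hx_mem (by norm_num)) m5.2)
    have hV0 : hx 0 + hx 1 ∈ V8 := by simp only [V8, Finset.mem_insert, add_eq_left, add_eq_right, Finset.mem_singleton, true_or, or_true]
    have hV5 : hx 5 + hx 6 ∈ V8 := by simp only [V8, Finset.mem_insert, add_eq_left, Finset.mem_singleton, or_true]
    have im1 : (hx 1).im = √3 / 2 := by
      unfold hx; rw [cis_im]; push_cast; rw [one_mul, Real.sin_pi_div_three]
    have im5 : (hx 5).im = - (√3 / 2) := by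
      unfold hx; rw [cis_im]
      have : ((5 : ℕ) : ℝ) * (Real.pi / 3) = - (Real.pi / 3) + 2 * Real.pi := by push_cast; ring
      rw [this, Real.sin_add_two_pi, Real.sin_neg, Real.sin_pi_div_three]
    have h3 : 0 < √3 := by positivity
    have hw : x + 2 * cis t ∉ F w := by
      refine h.gen_cross hg hV0 (w' := 2) ?_ ?_ hz0
      · have := dist_cis_third 0
        rw [zero_add, cis_zero] at this
        rw [hx_zero, dist_comm, dist_eq_norm]
        rw [dist_eq_norm] at this
        have e : (2 : ℂ) - (1 + hx 1) = 1 - cis (Real.pi / 3) := by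
          unfold hx; push_cast; rw [one_mul]; ring
        rw [e]; exact this
      · have : ((hx 0 + hx 1) * (starRingEnd ℂ) 2).im = 2 * (hx 1).im := by
          rw [hx_zero]; simp only [Complex.mul_im, Complex.add_re, Complex.one_re, Complex.conj_im, Complex.im_ofNat, neg_zero, mul_zero, Complex.add_im, Complex.one_im, zero_add, Complex.conj_re, Complex.re_ofNat]; ring
        rw [this, im1]; positivity
    have hs : x + 2 * cis t ∉ F s := by
      refine h.gen_cross hg hV5 (w' := 2) ?_ ?_ hz5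
      · have := dist_cis_third (5 * (Real.pi / 3))
        rw [show 5 * (Real.pi / 3) + Real.pi / 3 = 0 + 2 * Real.pi by ring, cis_add_two_pi,
          cis_zero, dist_eq_norm] at this
        rw [hx_six, hx_zero, dist_eq_norm]
        have e : hx 5 + 1 - (2 : ℂ) = cis (5 * (Real.pi / 3)) - 1 := by
          unfold hx; push_cast; ring
        rw [e]; exact this
      · have : ((hx 5 + hx 6) * (starRingEnd ℂ) 2).im = 2 * (hx 5).im := by
          rw [hx_six, hx_zero]; simp only [Complex.mul_im, Complex.add_re, Complex.one_re, Complex.conj_im, Complex.im_ofNat, neg_zero, mul_zero, Complex.add_im, Complex.one_im, add_zero, Complex.conj_re, Complex.re_ofNat, zero_add]; ring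
        rw [this, im5]
        intro h0
        linarith only [h3, h0]
    by_contra hcon
    push Not at hcon
    have hr : ∀ j, x + 2 * cis t ∈ F j → j = r := by
      intro j hj
      rcases five_list p q r s w hnodup j with e | e | e | e | e
      · rw [e] at hj; exact absurd hj hcon.1
      · rw [e] at hj; exact absurd hj hcon.2
      · exact e
      · rw [e] at hj; exact absurd hj hs
      · rw [e] at hj; exact absurd hj hw
    refine h.single hr (y := x + hx 0 * cis t) ?_ m0.2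
    rw [hx_zero, dist_eq_norm]
    have e : x + 2 * cis t - (x + 1 * cis t) = cis t := by ring
    rw [e, norm_cis]

/-- five colours at `x`: the pairs not occurring on arcs are contained in two disjoint pairs. -/
theorem CC.five (h : CC F) {x : ℂ} (hall : ∀ i, x ∈ F i) :
    ∃ i j k l m : Fin 5, [i, j, k, l, m].Nodup ∧
      ((∀ u v, u ≠ v → ¬ Arc F x u v → (u = i ∧ v = j) ∨ (u = j ∧ v = i) ∨
        (u = k ∧ v = l) ∨ (u = l ∧ v = k))) := by
  by_contra hcon
  obtain ⟨t0, ht0⟩ := (h.gen_dense x V8).nonempty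
  obtain ⟨p, q, hpq, hna, -⟩ := h.five_hex hall ht0
  have hsame : ∀ t, Gen F x V8 t → x + 2 * cis t ∈ F p ∪ F q := by
    intro t ht
    obtain ⟨p', q', hpq', hna', h2⟩ := h.five_hex hall ht
    by_cases he : (p = p' ∧ q = q') ∨ (p = q' ∧ q = p')
    · rcases he with ⟨rfl, rfl⟩ | ⟨rfl, rfl⟩
      · exact h2
      · exact h2.symm
    · exfalso
      apply hcon
      obtain ⟨i, j, k, l, m, hnd, hc⟩ := twoCenters p q p' q' hpq hpq' he
      exact ⟨i, j, k, l, m, hnd, fun u v huv harc => hc u v huv (hna u v huv harc)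
        (hna' u v huv harc)⟩
  refine h.irr_two (k := p) (m := q) (x := x) ?_
  intro z hz
  exact h.gen_circle (w := 2) two_ne_zero V8 ((h.closed p).union (h.closed q)) hsame (z := z)
    (by rw [hz]; simp)

end Vale.Agent.P032.B
end
end

section

section

/-! The case of two disjoint pairs on arcs, part 3: contradiction. -/

namespace Vale.Agent.P032.B

open Set Topology

variable {F : Fin 5 → Set ℂ}

theorem hex3 : ∀ f0 f1 f2 f3 f4 f5 : Fin 3, f0 ≠ f1 → f1 ≠ f2 → f2 ≠ f3 → f3 ≠ f4 → f4 ≠ f5 →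
    f5 ≠ f0 → (f0 = f2 → f0 = 2) → (f1 = f3 → f1 = 2) → (f2 = f4 → f2 = 2) →
    (f3 = f5 → f3 = 2) → (f4 = f0 → f4 = 2) → (f5 = f1 → f5 = 2) →
    ((f0 == 0 && f3 == 0) || (f1 == 0 && f4 == 0) || (f2 == 0 && f5 == 0)) = true := by
  (clear * -; decide +kernel)

/-- type of a vertex of a generic hexagon -/
theorem Dj.vertex (h : CC F) {x : ℂ} {q a b c d : Fin 5} (H : Dj F x q a b c d) {t : ℝ}
    (hg : Gen F x V8 t) {k : ℕ} (hk : k ≤ 6) :
    x + hx k * cis t ∈ F q ∨ ArcAt F x a b (t + k * (Real.pi / 3)) ∨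
      ArcAt F x c d (t + k * (Real.pi / 3)) := by
  have hnd := H.nodup
  by_cases hq : x + hx k * cis t ∈ F q
  · exact Or.inl hq
  right
  have hmem := hx_mem hk
  have hS : ∀ i, x + hx k * cis t ∈ F i → x ∈ F i := by
    intro i hi
    rcases five_list q a b c d hnd i with e | e | e | e | e
    · rw [e] at hi; exact absurd hi hq
    · rw [e]; exact H.ha
    · rw [e]; exact H.hb
    · rw [e]; exact H.hc
    · rw [e]; exact H.hd
  obtain ⟨i, j, hij, hi, hj, hxi, hxj, harc⟩ := h.gen_pair hg hmem hS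
  have hat := h.gen_arc hg hmem hi hj
  rw [add_comm] at hat
  have hiq : i ≠ q := by rintro rfl; exact H.hq hxi
  have hjq : j ≠ q := by rintro rfl; exact H.hq hxj
  have hat' : ∀ᶠ s in 𝓝 (t + k * (Real.pi / 3)), x + cis s ∈ F j ∧ x + cis s ∈ F i :=
    hat.mono fun _ hs => hs.symm
  have n1 := H.hac
  have n2 := H.had
  have n3 := H.hbc
  have n4 := H.hbd
  rcases five_list q a b c d hnd i with e | e | e | e | e <;>
  rcases five_list q a b c d hnd j with e' | e' | e' | e' | e' <;>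
  rw [e] at hij hat hat' harc hiq <;> rw [e'] at hij hat hat' harc hjq <;>
  first
    | exact absurd rfl hij
    | exact absurd rfl hiq
    | exact absurd rfl hjq
    | exact Or.inl hat
    | exact Or.inl hat'
    | exact Or.inr hat
    | exact Or.inr hat'
    | exact absurd harc ‹_›
    | exact absurd (arc_comm harc) ‹_›

/-- each generic hexagon has an antipodal pair of vertices of type `a b`. -/
theorem Dj.hexagon (h : CC F) (hB : BetaMain F) {x : ℂ} {q a b c d : Fin 5}
    (H : Dj F x q a b c d) {t : ℝ} (hg : Gen F x V8 t) :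
    ∃ k : ℕ, ArcAt F x a b (t + k * (Real.pi / 3)) ∧
      ArcAt F x a b (t + (k + 3 : ℕ) * (Real.pi / 3)) := by
  classical
  have hqa : q ≠ a := by have := H.nodup; rintro rfl; simp at this
  -- the type function
  obtain ⟨f, hf⟩ : ∃ f : ℕ → Fin 3, ∀ k, k ≤ 6 →
      (f k = 0 → ArcAt F x a b (t + k * (Real.pi / 3))) ∧
      (f k = 1 → ArcAt F x c d (t + k * (Real.pi / 3))) ∧
      (f k = 2 → x + hx k * cis t ∈ F q) := by
    refine ⟨fun k => if x + hx k * cis t ∈ F q then 2 else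
      if ArcAt F x a b (t + k * (Real.pi / 3)) then 0 else 1, ?_⟩
    intro k hk
    have := H.vertex h hg hk
    by_cases h1 : x + hx k * cis t ∈ F q
    · simp [h1]
    · by_cases h2 : ArcAt F x a b (t + k * (Real.pi / 3))
      · simp only [h1, ↓reduceIte, h2, Fin.isValue, imp_self, zero_ne_one, IsEmpty.forall_iff, Fin.reduceEq, and_self]
      · have h3 : ArcAt F x c d (t + k * (Real.pi / 3)) := by
          rcases this with h3 | h3 | h3
          · exact absurd h3 h1
          · exact absurd h3 h2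
          · exact h3
        simp only [h1, ↓reduceIte, h2, Fin.isValue, one_ne_zero, imp_self, h3, Fin.reduceEq, and_self]
  -- a vertex of type arc has the colours
  have hcol : ∀ (i j : Fin 5) (k : ℕ), ArcAt F x i j (t + k * (Real.pi / 3)) →
      x + hx k * cis t ∈ F i := by
    intro i j k hk
    have := hk.self_of_nhds.1
    unfold hx
    rwa [← cis_add, add_comm (_ * _) t]
  -- adjacent vertices
  have hadj : ∀ k, k + 1 ≤ 6 → f k ≠ f (k + 1) := by
    intro k hk heq
    have h1 := hf k (by omega)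
    have h2 := hf (k + 1) hk
    have hm : hx k ∈ V8 := hx_mem (by omega)
    have h012 : f k = 0 ∨ f k = 1 ∨ f k = 2 := by
      generalize f k = u; revert u; decide
    rcases h012 with h3 | h3 | h3
    · exact h.hx_cross hg hm (hcol _ _ k (h1.1 h3)) (hcol _ _ (k + 1) (h2.1 (heq ▸ h3)))
    · exact h.hx_cross hg hm (hcol _ _ k (h1.2.1 h3)) (hcol _ _ (k + 1) (h2.2.1 (heq ▸ h3)))
    · exact h.hx_cross hg hm (h1.2.2 h3) (h2.2.2 (heq ▸ h3))
  have hpi6 : ∀ (i j : Fin 5), ArcAt F x i j (t + (6 : ℕ) * (Real.pi / 3)) →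
      ArcAt F x i j (t + (0 : ℕ) * (Real.pi / 3)) := by
    intro i j h6
    have := h6.sub_two_pi
    have e : t + ((6 : ℕ) : ℝ) * (Real.pi / 3) - 2 * Real.pi = t + ((0 : ℕ) : ℝ) * (Real.pi / 3) := by
      push_cast; ring
    rwa [e] at this
  -- the value at six may be replaced by the value at zero
  have h50 : f 5 ≠ f 0 := by
    intro heq
    have h1 := hf 5 (by omega)
    have h2 := hf 0 (by omega)
    have hm : hx 5 ∈ V8 := hx_mem (by omega)
    have h012 : f 5 = 0 ∨ f 5 = 1 ∨ f 5 = 2 := by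
      generalize f 5 = u; revert u; decide
    have e6 : ∀ i, x + hx 0 * cis t ∈ F i → x + hx (5 + 1) * cis t ∈ F i := by
      intro i hi
      rw [show 5 + 1 = 6 from rfl, hx_six]; exact hi
    rcases h012 with h3 | h3 | h3
    · exact h.hx_cross hg hm (hcol _ _ 5 (h1.1 h3)) (e6 _ (hcol _ _ 0 (h2.1 (heq ▸ h3))))
    · exact h.hx_cross hg hm (hcol _ _ 5 (h1.2.1 h3)) (e6 _ (hcol _ _ 0 (h2.2.1 (heq ▸ h3))))
    · exact h.hx_cross hg hm (h1.2.2 h3) (e6 _ (h2.2.2 (heq ▸ h3)))
  -- second neighbours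
  have hsec : ∀ k k' : ℕ, k < k' → k' < 6 → k' ≠ k + 3 → f k = f k' → f k = 2 := by
    intro k k' hk hk' hne heq
    have h1 := hf k (by omega)
    have h2 := hf k' (by omega)
    have h012 : f k = 0 ∨ f k = 1 ∨ f k = 2 := by
      generalize f k = u; revert u; decide
    rcases h012 with h3 | h3 | h3
    · exact absurd (H.mod_three h hB hk hk' (h1.1 h3) (h2.1 (heq ▸ h3))) hne
    · exact absurd (H.swap.mod_three h hB hk hk' (h1.2.1 h3) (h2.2.1 (heq ▸ h3))) hne
    · exact h3
  have hres := hex3 (f 0) (f 1) (f 2) (f 3) (f 4) (f 5) (hadj 0 (by norm_num))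
    (hadj 1 (by norm_num)) (hadj 2 (by norm_num)) (hadj 3 (by norm_num)) (hadj 4 (by norm_num))
    h50 (hsec 0 2 (by norm_num) (by norm_num) (by norm_num))
    (hsec 1 3 (by norm_num) (by norm_num) (by norm_num))
    (hsec 2 4 (by norm_num) (by norm_num) (by norm_num))
    (hsec 3 5 (by norm_num) (by norm_num) (by norm_num))
    (fun e => by rw [e]; exact hsec 0 4 (by norm_num) (by norm_num) (by norm_num) e.symm)
    (fun e => by rw [e]; exact hsec 1 5 (by norm_num) (by norm_num) (by norm_num) e.symm)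
  simp only [Bool.or_eq_true, Bool.and_eq_true, beq_iff_eq] at hres
  rcases hres with (⟨h1, h2⟩ | ⟨h1, h2⟩) | ⟨h1, h2⟩
  · exact ⟨0, (hf 0 (by norm_num)).1 h1, (hf 3 (by norm_num)).1 h2⟩
  · exact ⟨1, (hf 1 (by norm_num)).1 h1, (hf 4 (by norm_num)).1 h2⟩
  · exact ⟨2, (hf 2 (by norm_num)).1 h1, (hf 5 (by norm_num)).1 h2⟩

/-- a doubly marked normal -/
def NS (F : Fin 5 → Set ℂ) (x : ℂ) (a b c d : Fin 5) (n : ℝ) : Prop :=
  Nrm F x c d n ∧ ArcAt F x a b n ∧ ArcAt F x a b (n + Real.pi)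

theorem NS.na {x : ℂ} {a b c d : Fin 5} {n : ℝ} (h : NS F x a b c d n) : NA F x a b c d n :=
  ⟨h.1, Or.inl h.2.1⟩

theorem NS.add_two_pi {x : ℂ} {a b c d : Fin 5} {n : ℝ} (h : NS F x a b c d n) :
    NS F x a b c d (n + 2 * Real.pi) := by
  refine ⟨h.1.add_two_pi, h.2.1.add_two_pi, ?_⟩
  have := h.2.2.add_two_pi
  rwa [show n + Real.pi + 2 * Real.pi = n + 2 * Real.pi + Real.pi by ring] at this

theorem NS.sub_two_pi {x : ℂ} {a b c d : Fin 5} {n : ℝ} (h : NS F x a b c d n) :
    NS F x a b c d (n - 2 * Real.pi) := by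
  refine ⟨h.1.sub_two_pi, h.2.1.sub_two_pi, ?_⟩
  have := h.2.2.sub_two_pi
  rwa [show n + Real.pi - 2 * Real.pi = n - 2 * Real.pi + Real.pi by ring] at this

theorem NS.add_zsmul {x : ℂ} {a b c d : Fin 5} {n : ℝ} (h : NS F x a b c d n) (m : ℤ) :
    NS F x a b c d (n + m * (2 * Real.pi)) := by
  induction m using Int.induction_on with
  | zero => simpa using h
  | succ i ih =>
    have := ih.add_two_pi
    have e : n + ((i : ℤ) : ℝ) * (2 * Real.pi) + 2 * Real.pi
        = n + (((i : ℤ) + 1 : ℤ) : ℝ) * (2 * Real.pi) := by push_cast; ring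
    rwa [e] at this
  | pred i ih =>
    have := ih.sub_two_pi
    have e : n + ((-(i : ℤ) : ℤ) : ℝ) * (2 * Real.pi) - 2 * Real.pi
        = n + ((-(i : ℤ) - 1 : ℤ) : ℝ) * (2 * Real.pi) := by push_cast; ring
    rwa [e] at this

theorem Dj.exists_ns (h : CC F) (hB : BetaMain F) {x : ℂ} {q a b c d : Fin 5}
    (H : Dj F x q a b c d) {t : ℝ} (hg : Gen F x V8 t) :
    ∃ m : ℕ, NS F x a b c d (t + m * (Real.pi / 3)) := by
  obtain ⟨k, h1, h2⟩ := H.hexagon h hB hg
  have e3 : t + ((k + 3 : ℕ) : ℝ) * (Real.pi / 3) = t + k * (Real.pi / 3) + Real.pi := by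
    push_cast; ring
  rcases H.nrm h h1 with h3 | h3
  · refine ⟨k, h3, h1, ?_⟩
    rw [e3] at h2; exact h2
  · refine ⟨k + 3, ?_, h2, ?_⟩
    · rw [e3]; exact h3
    · have := h1.add_two_pi
      rw [e3]
      rwa [show t + k * (Real.pi / 3) + 2 * Real.pi = t + k * (Real.pi / 3) + Real.pi + Real.pi
        by ring] at this

/-- an arc of 60 degrees of type `a b` together with its antipode. -/
theorem Dj.arc60 (h : CC F) (hB : BetaMain F) {x : ℂ} {q a b c d : Fin 5}
    (H : Dj F x q a b c d) : ∃ α : ℝ, ∀ s : ℝ, 0 < s → s < Real.pi / 3 →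
      ArcAt F x a b (α + s) ∧ ArcAt F x a b (α + s + Real.pi) := by
  have hpi := Real.pi_pos
  obtain ⟨t0, ht0⟩ := (h.gen_dense x V8).nonempty
  obtain ⟨m0, hm0⟩ := H.exists_ns h hB ht0
  set n0 := t0 + m0 * (Real.pi / 3) with hn0
  set W : Set ℝ := {n | NS F x a b c d n ∧ n0 - Real.pi / 3 < n ∧ n < n0 + Real.pi / 3} with hW
  have hWne : W.Nonempty := ⟨n0, hm0, by linarith only [hpi], by linarith only [hpi]⟩
  have hWb : BddBelow W := ⟨n0 - Real.pi / 3, fun n hn => hn.2.1.le⟩
  -- every doubly marked normal can be translated into W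
  have hred : ∀ n, NS F x a b c d n → ∃ j : ℤ, n + j * (2 * Real.pi) ∈ W := by
    intro n hn
    obtain ⟨j, ⟨hj1, hj2⟩, -⟩ := existsUnique_add_zsmul_mem_Ico (a := (2 * Real.pi))
      (by positivity) n n0
    rw [zsmul_eq_mul] at hj1 hj2
    have h1 := hn.add_zsmul j
    rcases H.close2 h hB hm0.na h1.na hj1 hj2 with h2 | h2
    · exact ⟨j, h1, by linarith only [hpi, hj1], h2⟩
    · refine ⟨j - 1, hn.add_zsmul (j - 1), ?_, ?_⟩
      · push_cast; linarith only [h2]
      · push_cast; linarith only [hj2, h2]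
  refine ⟨sInf W, ?_⟩
  intro s hs0 hs1
  set α := sInf W with hα
  set φ := α + s with hφ
  obtain ⟨n, hn, hnφ⟩ := exists_lt_of_csInf_lt hWne (show sInf W < φ by linarith only [hs0])
  obtain ⟨n', hn', hφn'⟩ : ∃ n' ∈ W, φ < n' := by
    by_contra hcon
    push Not at hcon
    obtain ⟨t, ht, htg⟩ := (h.gen_dense x V8).inter_open_nonempty (Ioo φ (α + Real.pi / 3))
      isOpen_Ioo ⟨(φ + (α + Real.pi / 3)) / 2, by constructor <;> linarith only [hs1]⟩
    obtain ⟨m, hm⟩ := H.exists_ns h hB htg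
    obtain ⟨j, hj⟩ := hred _ hm
    have h1 : α ≤ t + m * (Real.pi / 3) + j * (2 * Real.pi) := csInf_le hWb hj
    have h2 := hcon _ hj
    have e : t + m * (Real.pi / 3) + j * (2 * Real.pi)
        = t + (((m : ℤ) + 6 * j : ℤ) : ℝ) * (Real.pi / 3) := by push_cast; ring
    rw [e] at h1 h2
    set M : ℤ := (m : ℤ) + 6 * j with hM
    have h3 : (M : ℝ) * (Real.pi / 3) < 0 := by linarith only [h2, ht.1]
    have h4 : -(Real.pi / 3) < (M : ℝ) * (Real.pi / 3) := by linarith only [h1, ht.2]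
    have hp3 : 0 < Real.pi / 3 := by positivity
    have h5 : (M : ℝ) < 0 := by
      by_contra h6
      push Not at h6
      have := mul_nonneg h6 hp3.le
      linarith only [h3, this]
    have h6 : (-1 : ℝ) < M := by
      by_contra h7
      push Not at h7
      nlinarith only [h4, hpi, h7]
    have h7 : M < 0 := by exact_mod_cast h5
    have h8 : -1 < M := by exact_mod_cast h6
    (clear * - h7 h8; omega)
  have hlt : n' < n + Real.pi := by linarith only [hs0, hs1, hn.2.1, hn'.2.2]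
  have s1 := H.spread1 h hB hn.1.1 hn'.1.1 hlt (Or.inl hn.1.2.1)
  have s2 := H.spread2 h hB hn.1.1 hn'.1.1 hlt (Or.inl hn.1.2.2)
  constructor
  · filter_upwards [Ioo_mem_nhds hnφ hφn'] with u hu
    exact s1 (Ioo_subset_Icc_self hu)
  · filter_upwards [Ioo_mem_nhds (show n + Real.pi < φ + Real.pi by linarith only [hnφ])
      (show φ + Real.pi < n' + Real.pi by linarith only [hφn'])] with u hu
    exact s2 (Ioo_subset_Icc_self hu)

/-- final step -/
theorem Dj.final (h : CC F) {x : ℂ} {q a b c d : Fin 5}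
    (H : Dj F x q a b c d) {α γ : ℝ} (hsin : Real.sin (α - γ) ≠ 0)
    (hnorm : 2 ≤ ‖cis α + cis γ‖ ^ 2)
    (h1 : ∀ s : ℝ, 0 < s → s < Real.pi / 3 → ArcAt F x a b (α + s))
    (h2 : ∀ s : ℝ, 0 < s → s < Real.pi / 3 → ArcAt F x c d (γ + s)) : False := by
  have hnd := H.nodup
  have hpi := Real.pi_pos
  set w' := cis α + cis γ with hw'
  have hshift : ∀ (β s : ℝ) (i j : Fin 5), ArcAt F x i j (β + s) →
      ∀ᶠ u in 𝓝 s, x + cis β * cis u ∈ F i ∧ x + cis β * cis u ∈ F j := by
    intro β s i j hat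
    have h3 : Filter.Tendsto (fun u : ℝ => β + u) (𝓝 s) (𝓝 (β + s)) :=
      (continuous_const.add continuous_id).tendsto s
    filter_upwards [h3.eventually hat] with u hu
    rwa [← cis_add]
  have hiA : (cis α * (starRingEnd ℂ) w').im = Real.sin (α - γ) := by
    simp only [hw', Complex.mul_im, Complex.conj_re, Complex.conj_im, Complex.add_re,
      Complex.add_im, cis_re, cis_im, Real.sin_sub]
    ring
  have hiC : (cis γ * (starRingEnd ℂ) w').im = - Real.sin (α - γ) := by
    simp only [hw', Complex.mul_im, Complex.conj_re, Complex.conj_im, Complex.add_re,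
      Complex.add_im, cis_re, cis_im, Real.sin_sub]
    ring
  have hdA : dist (cis α) w' = 1 := by rw [dist_eq_norm, hw']; simp
  have hdC : dist (cis γ) w' = 1 := by rw [dist_eq_norm, hw']; simp
  have honly : ∀ s : ℝ, 0 < s → s < Real.pi / 3 → ∀ i, x + w' * cis s ∈ F i → i = q := by
    intro s hs0 hs1 i hi
    have hA := hshift α s a b (h1 s hs0 hs1)
    have hC := hshift γ s c d (h2 s hs0 hs1)
    rcases five_list q a b c d hnd i with e | e | e | e | e
    · exact e
    · rw [e] at hi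
      exact absurd hi (h.cross hdA (by rw [hiA]; exact hsin) (hA.mono fun _ hs => hs.1))
    · rw [e] at hi
      exact absurd hi (h.cross hdA (by rw [hiA]; exact hsin) (hA.mono fun _ hs => hs.2))
    · rw [e] at hi
      exact absurd hi (h.cross hdC (by rw [hiC]; exact neg_ne_zero.2 hsin)
        (hC.mono fun _ hs => hs.1))
    · rw [e] at hi
      exact absurd hi (h.cross hdC (by rw [hiC]; exact neg_ne_zero.2 hsin)
        (hC.mono fun _ hs => hs.2))
  -- the angle of a unit chord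
  set P := ‖w'‖ ^ 2 with hP
  have hP0 : 0 < P := by linarith only [hnorm]
  set θ := Real.arccos (1 - 1 / (2 * P)) with hθ
  have hrange : 3 / 4 ≤ 1 - 1 / (2 * P) := by
    have : 1 / (2 * P) ≤ 1 / 4 := by
      apply one_div_le_one_div_of_le <;> linarith only [hnorm]
    linarith only [this]
  have hrange2 : 1 - 1 / (2 * P) < 1 := by
    have : 0 < 1 / (2 * P) := by (clear * - hnorm; positivity)
    linarith only [this]
  have hcosθ : Real.cos θ = 1 - 1 / (2 * P) := Real.cos_arccos (by linarith only [hrange]) hrange2.le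
  have hθ0 : 0 < θ := Real.arccos_pos.2 hrange2
  have hθ1 : θ < Real.pi / 3 := by
    by_contra hcon
    push Not at hcon
    have h3 : Real.cos θ ≤ Real.cos (Real.pi / 3) :=
      Real.cos_le_cos_of_nonneg_of_le_pi (by linarith only [hpi]) (Real.arccos_le_pi _) hcon
    rw [Real.cos_pi_div_three, hcosθ] at h3
    linarith only [hrange, h3]
  set s1 := (Real.pi / 3 - θ) / 2 with hs1
  set s2 := s1 + θ with hs2
  have hs1a : 0 < s1 := by rw [hs1]; linarith only [hθ1]
  have hs1b : s1 < Real.pi / 3 := by rw [hs1]; linarith only [hpi, hθ0]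
  have hs2a : 0 < s2 := by linarith only [hθ0, hs1a]
  have hs2b : s2 < Real.pi / 3 := by rw [hs2, hs1]; linarith only [hθ1]
  have hd : dist (x + w' * cis s1) (x + w' * cis s2) = 1 := by
    rw [dist_comm, dist_eq_norm, add_sub_add_left_eq_sub, ← mul_sub, norm_mul]
    have h3 := dist_cis s2 s1
    rw [show s2 - s1 = θ by rw [hs2]; ring, hcosθ] at h3
    have h4 : (‖w'‖ * ‖cis s2 - cis s1‖) ^ 2 = 1 := by
      rw [mul_pow, h3, ← hP]
      field_simp
      ring
    have h5 : 0 ≤ ‖w'‖ * ‖cis s2 - cis s1‖ := by (clear * -; positivity)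
    nlinarith only [h4, h5]
  obtain ⟨i, hi⟩ := h.cover (x + w' * cis s2)
  have hiq := honly s2 hs2a hs2b i hi
  rw [hiq] at hi
  exact h.single (honly s1 hs1a hs1b) hd hi

/-- two disjoint types of arcs are impossible. -/
theorem Dj.false (h : CC F) (hB : BetaMain F) {x : ℂ} {q a b c d : Fin 5}
    (H : Dj F x q a b c d) : False := by
  have hnd := H.nodup
  have hpi := Real.pi_pos
  have hab : a ≠ b := by rintro rfl; simp at hnd
  have hca : c ≠ a := by rintro rfl; simp at hnd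
  have hcb : c ≠ b := by rintro rfl; simp at hnd
  obtain ⟨α, hα⟩ := H.arc60 h hB
  obtain ⟨γ, hγ⟩ := H.swap.arc60 h hB
  have hp6 : 0 < Real.pi / 6 ∧ Real.pi / 6 < Real.pi / 3 := by constructor <;> linarith only [hpi]
  have hsin : Real.sin (α - γ) ≠ 0 := by
    intro h0
    have hc2 : Real.cos (α - γ) ^ 2 = 1 := by
      have := Real.sin_sq_add_cos_sq (α - γ)
      rw [h0] at this
      linarith only [this]
    have hm : x + cis (α + Real.pi / 6) ∈ F c := by
      have hA : cis (α - γ) = Real.cos (α - γ) := by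
        apply Complex.ext
        · rw [cis_re, Complex.ofReal_re]
        · rw [cis_im, h0, Complex.ofReal_im]
      have hc3 : (Real.cos (α - γ) - 1) * (Real.cos (α - γ) + 1) = 0 := by
        linear_combination hc2
      have hc4 : Real.cos (α - γ) = 1 ∨ Real.cos (α - γ) = -1 := by
        rcases mul_eq_zero.1 hc3 with h3 | h3
        · left; linarith only [h3]
        · right; linarith only [h3]
      rcases hc4 with h3 | h3
      all_goals
        rw [h3] at hA
        have e : α + Real.pi / 6 = (α - γ) + (γ + Real.pi / 6) := by ring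
        rw [e, cis_add, hA]
      · have := (hγ (Real.pi / 6) hp6.1 hp6.2).1.self_of_nhds.1
        simpa using this
      · have := (hγ (Real.pi / 6) hp6.1 hp6.2).2.self_of_nhds.1
        rw [cis_add_pi] at this
        simpa using this
    rcases (h.arcQ hab (hα (Real.pi / 6) hp6.1 hp6.2).1).self_of_nhds c hm with e | e
    · exact hca e
    · exact hcb e
  have hsum : ‖cis α + cis γ‖ ^ 2 + ‖cis α + cis (γ + Real.pi)‖ ^ 2 = 4 := by
    rw [cis_add_pi, ← Complex.normSq_eq_norm_sq, ← Complex.normSq_eq_norm_sq,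
      Complex.normSq_apply, Complex.normSq_apply]
    simp only [Complex.add_re, Complex.add_im, Complex.neg_re, Complex.neg_im, cis_re, cis_im]
    have e1 := Real.sin_sq_add_cos_sq α
    have e2 := Real.sin_sq_add_cos_sq γ
    linear_combination 2 * e1 + 2 * e2
  by_cases hbig : 2 ≤ ‖cis α + cis γ‖ ^ 2
  · exact H.final h hsin hbig (fun s hs0 hs1 => (hα s hs0 hs1).1) (fun s hs0 hs1 => (hγ s hs0 hs1).1)
  · push Not at hbig
    refine H.final h (α := α) (γ := γ + Real.pi) ?_ (by linarith only [hsum, hbig])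
      (fun s hs0 hs1 => (hα s hs0 hs1).1) (fun s hs0 hs1 => ?_)
    · rw [show α - (γ + Real.pi) = (α - γ) - Real.pi by ring, Real.sin_sub_pi]
      exact neg_ne_zero.2 hsin
    · have := (hγ s hs0 hs1).2
      rwa [show γ + s + Real.pi = γ + Real.pi + s by ring] at this

/-- the case M = {ab, cd} -/
theorem CC.fourDisjoint (h : CC F) (hB : BetaMain F) {x : ℂ} {q a b c d : Fin 5}
    (hnd : [q, a, b, c, d].Nodup)
    (hq : x ∉ F q) (ha : x ∈ F a) (hb : x ∈ F b) (hc : x ∈ F c) (hd : x ∈ F d)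
    (hab : Arc F x a b) (hcd : Arc F x c d)
    (hac : ¬ Arc F x a c) (had : ¬ Arc F x a d) (hbc : ¬ Arc F x b c) (hbd : ¬ Arc F x b d) :
    False :=
  Dj.false h hB ⟨hnd, hq, ha, hb, hc, hd, hab, hcd, hac, had, hbc, hbd⟩

end Vale.Agent.P032.B
end
end

section

section

/-! Points with exactly four colours are inessential. -/

namespace Vale.Agent.P032.B

open Set Topology

variable {F : Fin 5 → Set ℂ}

structure Four (F : Fin 5 → Set ℂ) (x : ℂ) (q a b c d : Fin 5) : Prop where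
  nodup : [q, a, b, c, d].Nodup
  hq : x ∉ F q
  ha : x ∈ F a
  hb : x ∈ F b
  hc : x ∈ F c
  hd : x ∈ F d

theorem Four.s1 {x : ℂ} {q a b c d : Fin 5} (hx : Four F x q a b c d) : Four F x q b a c d := by
  obtain ⟨hnd, hq, ha, hb, hc, hd⟩ := hx
  refine ⟨?_, hq, hb, ha, hc, hd⟩
  have : [q, b, a, c, d].Perm [q, a, b, c, d] := (List.Perm.swap a b [c, d]).cons q
  exact this.nodup_iff.2 hnd

theorem Four.s2 {x : ℂ} {q a b c d : Fin 5} (hx : Four F x q a b c d) : Four F x q a c b d := by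
  obtain ⟨hnd, hq, ha, hb, hc, hd⟩ := hx
  refine ⟨?_, hq, ha, hc, hb, hd⟩
  have : [q, a, c, b, d].Perm [q, a, b, c, d] := ((List.Perm.swap b c [d]).cons a).cons q
  exact this.nodup_iff.2 hnd

theorem Four.s3 {x : ℂ} {q a b c d : Fin 5} (hx : Four F x q a b c d) : Four F x q a b d c := by
  obtain ⟨hnd, hq, ha, hb, hc, hd⟩ := hx
  refine ⟨?_, hq, ha, hb, hd, hc⟩
  have : [q, a, b, d, c].Perm [q, a, b, c, d] := (((List.Perm.swap c d []).cons b).cons a).cons q
  exact this.nodup_iff.2 hnd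

theorem Four.cols {x : ℂ} {q a b c d : Fin 5} (hx : Four F x q a b c d) :
    ∀ k, x ∈ F k → k = a ∨ k = b ∨ k = c ∨ k = d := by
  intro k hk
  rcases exhaust hx.nodup k with rfl | rfl | h
  · exact absurd hk hx.hq
  · exact Or.inl rfl
  · exact Or.inr h

theorem Four.tri (h : CC F) {x : ℂ} {q a b c d : Fin 5} (hx : Four F x q a b c d)
    (h1 : Arc F x a b) (h2 : Arc F x a c) (h3 : Arc F x b c) : Iness F x := by
  have hnd := hx.nodup
  simp only [List.nodup_cons, List.mem_cons, List.not_mem_nil, or_false, not_or,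
    not_false_eq_true, List.nodup_nil, and_true] at hnd
  exact iness_tri4 h hx.cols hnd.2.1.1 hnd.2.1.2.1 hnd.2.2.1.1 h1 h2 h3

theorem Four.path (h : CC F) {x : ℂ} {q a b c d : Fin 5} (hx : Four F x q a b c d)
    (h1 : Arc F x a b) (h2 : Arc F x b c) (h3 : Arc F x c d) : Iness F x := by
  have hnd := hx.nodup
  simp only [List.nodup_cons, List.mem_cons, List.not_mem_nil, or_false, not_or,
    not_false_eq_true, List.nodup_nil, and_true] at hnd
  obtain ⟨-, ⟨hab, hac, had⟩, ⟨hbc, hbd⟩, hcd⟩ := hnd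
  refine iness_path4 h (u := a) (v := b) (w := c) (t := d) ?_ hx.cols h1 h2 h3
  simp only [List.nodup_cons, List.mem_cons, List.not_mem_nil, or_false, not_or,
    not_false_eq_true, List.nodup_nil, and_true]
  exact ⟨⟨Ne.symm hac, hcd, Ne.symm hbc⟩, ⟨had, hab⟩, Ne.symm hbd⟩

theorem Four.two (h : CC F) (htri : TriFree F) {x : ℂ} {q a b c d : Fin 5}
    (hx : Four F x q a b c d) (h1 : Arc F x a b) (h2 : Arc F x a c) (h3 : ¬ Arc F x b c)
    (h4 : ¬ Arc F x b d) (h5 : ¬ Arc F x c d) : Iness F x := by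
  have : [a, q, b, c, d].Perm [q, a, b, c, d] := List.Perm.swap q a [b, c, d]
  exact Two.iness h htri ⟨this.nodup_iff.2 hx.nodup, hx.ha, hx.hq, hx.hb, hx.hc, hx.hd, h1, h2, h3,
    h4, h5⟩

theorem Four.single (h : CC F) {x : ℂ} {q a b c d : Fin 5} (hx : Four F x q a b c d)
    (hac : ¬ Arc F x a c) (had : ¬ Arc F x a d) (hbc : ¬ Arc F x b c) (hbd : ¬ Arc F x b d)
    (hcd : ¬ Arc F x c d) : Iness F x :=
  (h.fourSingle hx.nodup hx.hq hx.ha hx.hb hx.hc hx.hd hac had hbc hbd hcd).elim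

theorem Four.aux (h : CC F) (htri : TriFree F) {x : ℂ} {q u v w t : Fin 5}
    (hx : Four F x q u v w t) (huv : Arc F x u v) : Iness F x := by
  by_cases hwt : Arc F x w t
  · by_cases huw : Arc F x u w
    · exact hx.s1.path h huv.symm huw hwt
    by_cases hut : Arc F x u t
    · exact hx.s1.s3.path h huv.symm hut hwt.symm
    by_cases hvw : Arc F x v w
    · exact hx.path h huv hvw hwt
    by_cases hvt : Arc F x v t
    · exact hx.s3.path h huv hvt hwt.symm
    exact (h.fourDisjoint (fun _ _ _ _ _ _ hB => hB.main h) hx.nodup hx.hq hx.ha hx.hb hx.hc hx.hd huv hwt huw hut hvw hvt).elim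
  · have hwt' : ¬ Arc F x t w := fun h => hwt h.symm
    by_cases huw : Arc F x u w
    · by_cases hvw : Arc F x v w
      · exact hx.tri h huv huw hvw
      by_cases hvt : Arc F x v t
      · exact hx.s2.s1.path h huw.symm huv hvt
      exact hx.two h htri huv huw hvw hvt hwt
    by_cases hut : Arc F x u t
    · by_cases hvt : Arc F x v t
      · exact hx.s3.tri h huv hut hvt
      by_cases hvw : Arc F x v w
      · exact hx.s3.s2.s1.path h hut.symm huv hvw
      exact hx.s3.two h htri huv hut hvt hvw hwt'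
    by_cases hvw : Arc F x v w
    · exact hx.s1.two h htri huv.symm hvw huw hut hwt
    by_cases hvt : Arc F x v t
    · exact hx.s1.s3.two h htri huv.symm hvt hut huw hwt'
    exact hx.single h huw hut hvw hvt hwt

/-- Points with exactly four colours are inessential. -/
theorem iness_four (h : CC F) (htri : TriFree F) {x : ℂ} {q a b c d : Fin 5}
    (hx : Four F x q a b c d) : Iness F x := by
  by_cases h1 : Arc F x a b
  · exact hx.aux h htri h1
  by_cases h2 : Arc F x a c
  · exact hx.s2.aux h htri h2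
  by_cases h3 : Arc F x a d
  · exact hx.s3.s2.aux h htri h3
  by_cases h4 : Arc F x b c
  · exact hx.s1.s2.aux h htri h4
  by_cases h5 : Arc F x b d
  · exact hx.s1.s3.s2.aux h htri h5
  by_cases h6 : Arc F x c d
  · exact hx.s2.s1.s3.s2.aux h htri h6
  exact hx.single h h2 h3 h4 h5 h6

end Vale.Agent.P032.B
end
end

section

section

/-! Existence of a point that is not inessential. -/

namespace Vale.Agent.P032.B

open Set Topology

variable {F : Fin 5 → Set ℂ}

/-- The closed square of half side `10`. -/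
def BB : Set ℂ := {z | |z.re| ≤ 10 ∧ |z.im| ≤ 10}

/-- The open square of half side `10`. -/
def Bo : Set ℂ := {z | |z.re| < 10 ∧ |z.im| < 10}

/-- Three closed sets around the square. -/
def DD (k : Fin 3) : Set ℂ :=
  {z | (k = 0 ∧ z.im ≤ -10) ∨ (k = 1 ∧ (10 ≤ z.re ∨ 10 ≤ z.im)) ∨ (k = 2 ∧ z.re ≤ -10)}

theorem isClosed_DD (k : Fin 3) : IsClosed (DD k) := by
  have c1 : IsClosed {z : ℂ | z.im ≤ -10} := isClosed_le Complex.continuous_im continuous_const
  have c2 : IsClosed {z : ℂ | 10 ≤ z.re ∨ 10 ≤ z.im} :=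
    (isClosed_le continuous_const Complex.continuous_re).union
      (isClosed_le continuous_const Complex.continuous_im)
  have c3 : IsClosed {z : ℂ | z.re ≤ -10} := isClosed_le Complex.continuous_re continuous_const
  fin_cases k
  · have : DD 0 = {z : ℂ | z.im ≤ -10} := by ext z; simp only [DD, Fin.isValue, true_and, zero_ne_one, false_and, Fin.reduceEq, or_self, or_false, mem_ofPred_eq]
    show IsClosed (DD 0)
    rw [this]; exact c1
  · have : DD 1 = {z : ℂ | 10 ≤ z.re ∨ 10 ≤ z.im} := by ext z; simp only [DD, Fin.isValue, one_ne_zero, false_and, true_and, Fin.reduceEq, or_false, false_or, mem_ofPred_eq]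
    show IsClosed (DD 1)
    rw [this]; exact c2
  · have : DD 2 = {z : ℂ | z.re ≤ -10} := by ext z; simp only [DD, Fin.isValue, Fin.reduceEq, false_and, true_and, false_or, mem_ofPred_eq]
    show IsClosed (DD 2)
    rw [this]; exact c3

theorem isCompact_square (M : ℝ) : IsCompact {z : ℂ | |z.re| ≤ M ∧ |z.im| ≤ M} := by
  refine Metric.isCompact_of_isClosed_isBounded ?_ ?_
  · exact (isClosed_le (continuous_abs.comp Complex.continuous_re) continuous_const).inter
      (isClosed_le (continuous_abs.comp Complex.continuous_im) continuous_const)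
  · refine (Metric.isBounded_closedBall (x := (0 : ℂ)) (r := 2 * M)).subset ?_
    rintro z ⟨h1, h2⟩
    rw [mem_closedBall_zero_iff]
    have := Complex.norm_le_abs_re_add_abs_im z
    linarith

theorem isOpen_square (M : ℝ) : IsOpen {z : ℂ | |z.re| < M ∧ |z.im| < M} :=
  (isOpen_lt (continuous_abs.comp Complex.continuous_re) continuous_const).inter
      (isOpen_lt (continuous_abs.comp Complex.continuous_im) continuous_const)

theorem exists_DD {x : ℂ} : ∃ k, ∀ y, dist x y ≤ 1 → y ∈ BB → y ∉ DD k := by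
  have hre : ∀ y, dist x y ≤ 1 → |x.re - y.re| ≤ 1 := fun y hy => by
    rw [← Complex.sub_re]; exact (Complex.abs_re_le_norm _).trans (by rwa [← Complex.dist_eq])
  have him : ∀ y, dist x y ≤ 1 → |x.im - y.im| ≤ 1 := fun y hy => by
    rw [← Complex.sub_im]; exact (Complex.abs_im_le_norm _).trans (by rwa [← Complex.dist_eq])
  by_cases h0 : -9 < x.im
  · refine ⟨0, fun y hy _ hD => ?_⟩
    have e : y.im ≤ -10 := by simpa only [DD, Fin.isValue, true_and, zero_ne_one, false_and, Fin.reduceEq, or_self, or_false,     mem_ofPred_eq] using hD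
    have := him y hy
    rw [abs_le] at this
    linarith
  · by_cases h1 : x.re < 9
    · refine ⟨1, fun y hy _ hD => ?_⟩
      have e : 10 ≤ y.re ∨ 10 ≤ y.im := by simpa only [DD, Fin.isValue, one_ne_zero, false_and, true_and, Fin.reduceEq, or_false, false_or,     mem_ofPred_eq] using hD
      have a := him y hy
      have b := hre y hy
      rw [abs_le] at a b
      rcases e with e | e <;> linarith only [h0, a, e, h1, b]
    · refine ⟨2, fun y hy _ hD => ?_⟩
      have e : y.re ≤ -10 := by simpa only [DD, Fin.isValue, Fin.reduceEq, false_and, true_and, false_or, mem_ofPred_eq] using hD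
      have b := hre y hy
      rw [abs_le] at b
      linarith

theorem exists_labT (h : CC F) (i : Fin 5) : ∃ L : ℂ → Fin 3,
    (∀ z ∈ F i ∩ BB, ∀ᶠ p in 𝓝 z, p ∈ F i ∩ BB → L p = L z) ∧ ∀ z ∈ F i ∩ BB, z ∉ DD (L z) := by
  classical
  have hcpt : IsCompact (F i ∩ BB) := (isCompact_square 10).inter_left (h.closed i)
  have : CompactSpace ↥(F i ∩ BB) := isCompact_iff_compactSpace.1 hcpt
  have loc : ∀ x : ↥(F i ∩ BB), ∃ W : Set ↥(F i ∩ BB), IsClopen W ∧ x ∈ W ∧
      ∃ a : Fin 3, ∀ y ∈ W, y.1 ∉ DD a := by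
    intro x
    obtain ⟨a, ha⟩ := exists_DD (x := x.1)
    have hcomp : ∀ y ∈ connectedComponent x, y.1 ∉ DD a := by
      intro y hy
      refine ha y.1 ?_ y.2.2
      have hpre : IsPreconnected (Subtype.val '' connectedComponent x) :=
        isPreconnected_connectedComponent.image _ continuous_subtype_val.continuousOn
      refine h.diam_le (i := i) hpre ?_ (mem_image_of_mem _ mem_connectedComponent)
        (mem_image_of_mem _ hy)
      rintro _ ⟨z, -, rfl⟩
      exact z.2.1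
    have hU : IsOpen {y : ↥(F i ∩ BB) | y.1 ∉ DD a} :=
      ((isClosed_DD a).preimage continuous_subtype_val).isOpen_compl
    have : Nonempty {s : Set ↥(F i ∩ BB) // IsClopen s ∧ x ∈ s} := ⟨⟨univ, isClopen_univ, mem_univ _⟩⟩
    have hdir : Directed (· ⊇ ·)
        (fun s : {s : Set ↥(F i ∩ BB) // IsClopen s ∧ x ∈ s} => (s : Set ↥(F i ∩ BB))) := by
      rintro ⟨s, hs, hxs⟩ ⟨t, ht, hxt⟩
      exact ⟨⟨s ∩ t, hs.inter ht, hxs, hxt⟩, inter_subset_left, inter_subset_right⟩
    obtain ⟨⟨s, hs, hxs⟩, hsU⟩ := exists_subset_nhds_of_compactSpace hdir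
      (fun s => s.2.1.isClosed) (U := {y : ↥(F i ∩ BB) | y.1 ∉ DD a}) (by
        intro y hy
        rw [← connectedComponent_eq_iInter_isClopen] at hy
        exact hU.mem_nhds (hcomp y hy))
    exact ⟨s, hs, hxs, a, fun y hy => hsU hy⟩
  obtain ⟨lab, hlab, W, hW, hWs, hall⟩ := (isCompact_univ (X := ↥(F i ∩ BB))).induction_on
    (p := fun Z => ∃ lab : ↥(F i ∩ BB) → Fin 3, (∀ x : ↥(F i ∩ BB), ∀ᶠ y in 𝓝 x, lab y = lab x) ∧
      ∃ W : Set ↥(F i ∩ BB), IsClopen W ∧ Z ⊆ W ∧ ∀ x ∈ W, x.1 ∉ DD (lab x))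
    ⟨fun _ => 0, fun _ => Filter.Eventually.of_forall fun _ => rfl, ∅, isClopen_empty,
      Subset.rfl, by simp⟩
    (by
      rintro s t hst ⟨lab, hl, W, hW, hWs, hall⟩
      exact ⟨lab, hl, W, hW, hst.trans hWs, hall⟩)
    (by
      rintro s t ⟨lab, hl, W, hW, hWs, hall⟩ ⟨lab', hl', W', hW', hWs', hall'⟩
      refine ⟨fun x => if x ∈ W then lab x else lab' x, ?_, W ∪ W',
        hW.union hW', union_subset_union hWs hWs', ?_⟩
      · intro x
        by_cases hx : x ∈ W
        · filter_upwards [hl x, hW.isOpen.mem_nhds hx] with y hy hyW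
          rw [if_pos hyW, if_pos hx, hy]
        · filter_upwards [hl' x, hW.compl.isOpen.mem_nhds hx] with y hy hyW
          rw [if_neg hyW, if_neg hx, hy]
      · intro x hx
        by_cases hxW : x ∈ W
        · show x.1 ∉ DD (if x ∈ W then lab x else lab' x)
          rw [if_pos hxW]; exact hall x hxW
        · show x.1 ∉ DD (if x ∈ W then lab x else lab' x)
          rw [if_neg hxW]; exact hall' x (hx.resolve_left hxW))
    (by
      intro x _
      obtain ⟨W, hW, hxW, a, ha⟩ := loc x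
      exact ⟨W, mem_nhdsWithin_of_mem_nhds (hW.isOpen.mem_nhds hxW), fun _ => a,
        fun _ => Filter.Eventually.of_forall fun _ => rfl, W, hW, Subset.rfl, ha⟩)
  refine ⟨fun z => if hz : z ∈ F i ∩ BB then lab ⟨z, hz⟩ else 0, ?_, ?_⟩
  · intro z hz
    have h1 := hlab ⟨z, hz⟩
    rw [nhds_subtype_eq_comap, Filter.eventually_comap] at h1
    filter_upwards [h1] with p hp hpm
    rw [dif_pos hpm, dif_pos hz]
    exact hp ⟨p, hpm⟩ rfl
  · intro z hz
    simp only [dif_pos hz]
    exact hall ⟨z, hz⟩ (hWs (mem_univ _))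

/-- orientation of a pair of labels -/
def ee (u v : Fin 3) : ℤ := if v = u + 1 then 1 else if u = v + 1 then -1 else 0

theorem ee_anti (u v : Fin 3) : ee u v = -ee v u := by revert u v; decide

theorem ee_flat (k u v : Fin 3) (hu : u ≠ k) (hv : v ≠ k) :
    ee u v = (if v = k + 1 then 0 else 1) - (if u = k + 1 then 0 else 1) := by
  revert k u v; decide

/-- reference labelling -/
noncomputable def rho0 (z : ℂ) : Fin 3 := if 0 ≤ z.im then 0 else if z.re < 0 then 1 else 2

theorem TT_rho0 {η : ℝ} (hη : 0 < η) (Q : ℤ × ℤ) :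
    TT (fun p q => ee (rho0 p) (rho0 q)) η Q = if Q = (-1, -1) then 3 else 0 := by
  have hr : ∀ a b : ℤ, rho0 (gp η a b) = if 0 ≤ b then 0 else if a < 0 then 1 else 2 := by
    intro a b
    have e1 : (0 ≤ (b : ℝ) * η) ↔ 0 ≤ b := by
      rw [mul_nonneg_iff_of_pos_right hη]; exact_mod_cast Iff.rfl
    have e2 : ((a : ℝ) * η < 0) ↔ a < 0 := by
      rw [← not_le, mul_nonneg_iff_of_pos_right hη, ← not_le (a := (0 : ℤ))]
      exact_mod_cast Iff.rfl
    simp only [rho0, gp, e1, e2]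
  obtain ⟨a, b⟩ := Q
  simp only [TT, hr, Prod.mk.injEq]
  by_cases hb : 0 ≤ b
  · have hb1 : 0 ≤ b + 1 := by omega
    have hn : ¬ (a = -1 ∧ b = -1) := by omega
    simp only [if_pos hb, if_pos hb1, if_neg hn]
    decide
  · by_cases hb1 : 0 ≤ b + 1
    · have hb2 : b = -1 := by omega
      by_cases ha : a < 0
      · by_cases ha1 : a + 1 < 0
        · have hn : ¬ (a = -1 ∧ b = -1) := by omega
          simp only [if_neg hb, if_pos hb1, if_neg hn, if_pos ha, if_pos ha1]
          decide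
        · have hn : (a = -1 ∧ b = -1) := by omega
          simp only [if_neg hb, if_pos hb1, if_pos hn, if_pos ha, if_neg ha1]
          decide
      · have ha1 : ¬ a + 1 < 0 := by omega
        have hn : ¬ (a = -1 ∧ b = -1) := by omega
        simp only [if_neg hb, if_pos hb1, if_neg hn, if_neg ha, if_neg ha1]
        decide
    · have hn : ¬ (a = -1 ∧ b = -1) := by omega
      by_cases ha : a < 0
      · by_cases ha1 : a + 1 < 0
        · simp only [if_neg hb, if_neg hb1, if_neg hn, if_pos ha, if_pos ha1]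
          decide
        · simp only [if_neg hb, if_neg hb1, if_neg hn, if_pos ha, if_neg ha1]
          decide
      · have ha1 : ¬ a + 1 < 0 := by omega
        simp only [if_neg hb, if_neg hb1, if_neg hn, if_neg ha, if_neg ha1]
        decide

theorem Tot_rho0 {η : ℝ} (hη : 0 < η) (hη1 : η < 1) :
    Tot (fun p q => ee (rho0 p) (rho0 q)) η {z : ℂ | |z.re| ≤ 11 ∧ |z.im| ≤ 11} = 3 := by
  rw [Tot_eq_sum hη (isCompact_square 11).isBounded, Finset.sum_congr rfl fun Q _ => TT_rho0 hη Q,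
    Finset.sum_ite_eq']
  rw [if_pos]
  rw [Set.Finite.mem_toFinset]
  rintro z ⟨h1, h2, h3, h4⟩
  simp only [Int.cast_neg, Int.cast_one] at h1 h2 h3 h4
  constructor
  · rw [abs_le]; constructor <;> nlinarith
  · rw [abs_le]; constructor <;> nlinarith

/-- (I4) -/
theorem exists_not_iness (h : CC F) (htri : TriFree F) : ∃ x, ¬ Iness F x := by
  classical
  by_contra hcon
  push Not at hcon
  choose ℓ hℓ using h.cover
  choose L hL1 hL2 using exists_labT h
  set lam : ℂ → Fin 3 := fun p => if p ∈ Bo then L (ℓ p) p else rho0 p with hlam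
  set ω : ℂ → ℂ → ℤ := fun p q => ee (lam p) (lam q) with hω
  set K : Set ℂ := {z : ℂ | |z.re| ≤ 11 ∧ |z.im| ≤ 11} with hK
  have hKc : IsCompact K := isCompact_square 11
  have hBoB : Bo ⊆ BB := fun z hz => ⟨hz.1.le, hz.2.le⟩
  have hBoK : Bo ⊆ K := fun z hz => ⟨by linarith only [hz.1], by linarith only [hz.2]⟩
  have hBo : IsOpen Bo := isOpen_square 10
  -- labels near an interior point
  have hin : ∀ z ∈ Bo, ∃ s > 0, Metric.ball z s ⊆ Bo ∧ ∀ p ∈ Metric.ball z s,
      lam p = L (ℓ p) z := by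
    intro z hz
    have e1 : ∀ᶠ p in 𝓝 z, ∀ i, z ∈ F i ∩ BB → p ∈ F i ∩ BB → L i p = L i z := by
      rw [Filter.eventually_all]
      intro i
      by_cases hi : z ∈ F i ∩ BB
      · filter_upwards [hL1 i z hi] with p hp _ using hp
      · exact Filter.Eventually.of_forall fun _ hi' => absurd hi' hi
    obtain ⟨s, hs, hb⟩ := Metric.eventually_nhds_iff_ball.1
      ((e1.and (h.nhd z)).and (hBo.mem_nhds hz))
    refine ⟨s, hs, fun p hp => (hb p hp).2, fun p hp => ?_⟩
    obtain ⟨⟨h1, h2⟩, h3⟩ := hb p hp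
    have h3' : p ∈ Bo := h3
    simp only [hlam]
    rw [if_pos h3']
    exact h1 (ℓ p) ⟨h2 _ (hℓ p), hBoB hz⟩ ⟨hℓ p, hBoB h3⟩
  -- flatness outside the open square
  have hout : ∀ z ∉ Bo, Flat ω z := by
    intro z hz
    obtain ⟨k, hk, s0, hs0, hρ⟩ : ∃ k, z ∈ DD k ∧ ∃ s > 0, ∀ p ∈ Metric.ball z s, rho0 p ≠ k := by
      have hre : ∀ p ∈ Metric.ball z 1, |p.re - z.re| < 1 := fun y hy => by
        rw [← Complex.sub_re]; exact (Complex.abs_re_le_norm _).trans_lt
          (by rw [← Complex.dist_eq]; exact hy)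
      have him : ∀ p ∈ Metric.ball z 1, |p.im - z.im| < 1 := fun y hy => by
        rw [← Complex.sub_im]; exact (Complex.abs_im_le_norm _).trans_lt
          (by rw [← Complex.dist_eq]; exact hy)
      by_cases h0 : z.im ≤ -10
      · refine ⟨0, Or.inl ⟨rfl, h0⟩, 1, one_pos, fun p hp => ?_⟩
        have := him p hp
        rw [abs_lt] at this
        have h1 : ¬ 0 ≤ p.im := by linarith only [h0, this]
        simp only [rho0]
        rw [if_neg h1]
        split_ifs <;> decide
      by_cases h1 : 10 ≤ z.re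
      · refine ⟨1, Or.inr (Or.inl ⟨rfl, Or.inl h1⟩), 1, one_pos, fun p hp => ?_⟩
        have := hre p hp
        rw [abs_lt] at this
        have h2 : ¬ p.re < 0 := by linarith only [h1, this]
        simp only [rho0]
        rw [if_neg h2]
        split_ifs <;> decide
      by_cases h2 : 10 ≤ z.im
      · refine ⟨1, Or.inr (Or.inl ⟨rfl, Or.inr h2⟩), 1, one_pos, fun p hp => ?_⟩
        have := him p hp
        rw [abs_lt] at this
        have h3 : 0 ≤ p.im := by linarith only [h2, this]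
        simp only [rho0]
        rw [if_pos h3]
        decide
      have h3 : z.re ≤ -10 := by
        by_contra h3
        push Not at h0 h1 h2 h3
        exact hz ⟨by rw [abs_lt]; exact ⟨h3, h1⟩, by rw [abs_lt]; exact ⟨h0, h2⟩⟩
      refine ⟨2, Or.inr (Or.inr ⟨rfl, h3⟩), 1, one_pos, fun p hp => ?_⟩
      have := hre p hp
      rw [abs_lt] at this
      have h4 : p.re < 0 := by linarith only [h3, this]
      simp only [rho0]
      rw [if_pos h4]
      split_ifs <;> decide
    obtain ⟨s, hs, hlamk⟩ : ∃ s > 0, ∀ p ∈ Metric.ball z s, lam p ≠ k := by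
      by_cases hzB : z ∈ BB
      · have e1 : ∀ᶠ p in 𝓝 z, ∀ i, z ∈ F i ∩ BB → p ∈ F i ∩ BB → L i p = L i z := by
          rw [Filter.eventually_all]
          intro i
          by_cases hi : z ∈ F i ∩ BB
          · filter_upwards [hL1 i z hi] with p hp _ using hp
          · exact Filter.Eventually.of_forall fun _ hi' => absurd hi' hi
        obtain ⟨s, hs, hb⟩ := Metric.eventually_nhds_iff_ball.1
          ((e1.and (h.nhd z)).and (Metric.ball_mem_nhds z hs0))
        refine ⟨s, hs, fun p hp => ?_⟩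
        obtain ⟨⟨h1, h2⟩, h3⟩ := hb p hp
        simp only [hlam]
        split_ifs with hpB
        · rw [h1 (ℓ p) ⟨h2 _ (hℓ p), hzB⟩ ⟨hℓ p, hBoB hpB⟩]
          intro e
          exact hL2 (ℓ p) z ⟨h2 _ (hℓ p), hzB⟩ (e ▸ hk)
        · exact hρ p h3
      · obtain ⟨s, hs, hb⟩ := Metric.isOpen_iff.1 (isCompact_square 10).isClosed.isOpen_compl z hzB
        refine ⟨min s s0, lt_min hs hs0, fun p hp => ?_⟩
        have h1 : p ∉ Bo := fun hpB => hb (Metric.ball_subset_ball (min_le_left _ _) hp) (hBoB hpB)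
        simp only [hlam]
        rw [if_neg h1]
        exact hρ p (Metric.ball_subset_ball (min_le_right _ _) hp)
    refine ⟨s, hs, fun p => if lam p = k + 1 then 0 else 1, fun p hp q hq => ?_⟩
    exact ee_flat k _ _ (hlamk p hp) (hlamk q hq)
  -- local form at interior points
  have hLG : ∀ᶠ η in 𝓝[>] (0 : ℝ), Tot ω η K = 0 := by
    refine Tot_lg hKc h.isClosed_Tr (h.td_Tr htri hKc) ?_ ?_
    · intro z _ hzT
      by_cases hzB : z ∈ Bo
      · obtain ⟨s, hs, -, hb⟩ := hin z hzB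
        obtain ⟨i, j, -, -, hij⟩ := two_of_notTr h hzT
        refine flat_congr hs (fun p hp q hq => ?_) (flat_of_two h hij hℓ
          (θ := fun u v => ee (L u z) (L v z)) fun u v => ee_anti _ _)
        simp only [hω]
        rw [hb p hp, hb q hq]
      · exact hout z hzB
    · intro z _ hzT
      by_cases hzB : z ∈ Bo
      · right
        obtain ⟨s, hs, hsB, hb⟩ := hin z hzB
        obtain ⟨u, hu, hI⟩ := hcon z
        refine ⟨min s u, lt_min hs hu, (Metric.ball_subset_ball (min_le_left _ _)).trans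
          (hsB.trans hBoK), fun K' hK' hK'b hfr' => ?_⟩
        have h1 := hI K' hK' (hK'b.trans (Metric.ball_subset_ball (min_le_right _ _))) hfr' ℓ hℓ
          (fun u v => ee (L u z) (L v z)) fun u v => ee_anti _ _
        filter_upwards [h1, self_mem_nhdsWithin] with η h2 hη
        rw [← h2]
        refine Tot_congr hη hK'.isBounded fun p hp q hq => ?_
        simp only [hω]
        rw [hb p (Metric.ball_subset_ball (min_le_left _ _) (hK'b hp)),
          hb q (Metric.ball_subset_ball (min_le_left _ _) (hK'b hq))]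
      · exact Or.inl (hout z hzB)
  have hdiff : ∀ᶠ η in 𝓝[>] (0 : ℝ),
      Tot (fun p q => ω p q - ee (rho0 p) (rho0 q)) η K = 0 := by
    refine Tot_bv hKc ?_ ?_
    · intro p q
      have := ee_anti (lam p) (lam q)
      have := ee_anti (rho0 p) (rho0 q)
      simp only [hω]
      omega
    · intro z hz
      have hzB : z ∉ BB := by
        intro hzB
        refine hz.2 ?_
        refine interior_maximal (t := {z : ℂ | |z.re| < 11 ∧ |z.im| < 11}) ?_ (isOpen_square 11) ?_
        · exact fun z hz => ⟨hz.1.le, hz.2.le⟩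
        · exact ⟨by linarith only [hzB.1], by linarith only [hzB.2]⟩
      obtain ⟨s, hs, hb⟩ := Metric.isOpen_iff.1 (isCompact_square 10).isClosed.isOpen_compl z hzB
      refine ⟨s, hs, fun p hp q hq => ?_⟩
      have h1 : p ∉ Bo := fun hpB => hb hp (hBoB hpB)
      have h2 : q ∉ Bo := fun hqB => hb hq (hBoB hqB)
      simp only [hω, hlam]
      rw [if_neg h1, if_neg h2]
      omega
  obtain ⟨η, ⟨h1, h2⟩, h3⟩ := ((hLG.and hdiff).and
    (Ioo_mem_nhdsGT (show (0 : ℝ) < 1 by norm_num))).exists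
  have e := Tot_sub h3.1 hKc.isBounded ω (fun p q => ee (rho0 p) (rho0 q))
  rw [h1, h2, Tot_rho0 h3.1 h3.2] at e
  norm_num at e

end Vale.Agent.P032.B
end
end

section

section

/-! There is no five-colour closed cover. -/

namespace Vale.Agent.P032.B

open Set Topology

variable {F : Fin 5 → Set ℂ}

/-- Points with all five colours are inessential. -/
theorem iness_five (h : CC F) {x : ℂ} (hall : ∀ i, x ∈ F i) : Iness F x := by
  obtain ⟨i, j, k, l, m, hnd, hc⟩ := h.five hall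
  have hnd' : [i, j, k, l].Nodup := by
    simp only [List.nodup_cons, List.mem_cons, List.not_mem_nil, or_false, not_or,
      not_false_eq_true, List.nodup_nil, and_true] at hnd ⊢
    (clear * - hnd; tauto)
  refine iness_of_graph h (fun u v => (u = i ∧ v = j) ∨ (u = j ∧ v = i) ∨
        (u = k ∧ v = l) ∨ (u = l ∧ v = k)) ?_ fun θ hθ => exact_path hnd' (fun u v huv => by (clear * - huv; tauto)) hθ
  have hev : ∀ᶠ z in 𝓝 x, ∀ u v, u ≠ v → Arc F x u v →
      ¬ (z ∈ F u ∧ z ∈ F v ∧ ∀ k, z ∈ F k → k = u ∨ k = v) := by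
    refine Filter.eventually_all.2 fun u => Filter.eventually_all.2 fun v => ?_
    by_cases huv : u ≠ v
    · by_cases harc : Arc F x u v
      · filter_upwards [h.notExact huv harc] with z hz _ _ using hz
      · exact Filter.Eventually.of_forall fun z _ h1 => absurd h1 harc
    · exact Filter.Eventually.of_forall fun z h1 => absurd h1 huv
  filter_upwards [hev] with z hz u v huv hu hv hk
  refine hc u v huv fun harc => hz u v huv harc ⟨hu, hv, hk⟩

theorem ex4 : ∀ q : Fin 5, ∃ a b c d, [q, a, b, c, d].Nodup := by decide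

theorem ex3 : ∀ q p : Fin 5, q ≠ p → ∃ a b c, [p, q, a, b, c].Nodup := by decide

theorem ex2 : ∀ q p r : Fin 5, q ≠ p → q ≠ r → p ≠ r → ∃ a b, ∀ k, k = q ∨ k = p ∨ k = r ∨
    k = a ∨ k = b := by decide

theorem iness_all (h : CC F) (htri : TriFree F) (x : ℂ) : Iness F x := by
  by_cases hall : ∀ i, x ∈ F i
  · exact iness_five h hall
  push Not at hall
  obtain ⟨q, hq⟩ := hall
  by_cases hall' : ∀ i, i ≠ q → x ∈ F i
  · obtain ⟨a, b, c, d, hnd⟩ := ex4 q
    have hnd' := hnd
    simp only [List.nodup_cons, List.mem_cons, List.not_mem_nil, or_false, not_or,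
      not_false_eq_true, List.nodup_nil, and_true] at hnd'
    obtain ⟨⟨h1, h2, h3, h4⟩, -⟩ := hnd'
    exact iness_four h htri ⟨hnd, hq, hall' a (Ne.symm h1), hall' b (Ne.symm h2),
      hall' c (Ne.symm h3), hall' d (Ne.symm h4)⟩
  push Not at hall'
  obtain ⟨p, hpq, hp⟩ := hall'
  by_cases hall'' : ∀ i, i ≠ q → i ≠ p → x ∈ F i
  · obtain ⟨a, b, c, hnd⟩ := ex3 q p hpq.symm
    have hnd' := hnd
    simp only [List.nodup_cons, List.mem_cons, List.not_mem_nil, or_false, not_or,
      not_false_eq_true, List.nodup_nil, and_true] at hnd'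
    obtain ⟨⟨-, h1, h2, h3⟩, ⟨h4, h5, h6⟩, -⟩ := hnd'
    exact iness_three h htri hnd hp hq (hall'' a (Ne.symm h4) (Ne.symm h1))
      (hall'' b (Ne.symm h5) (Ne.symm h2)) (hall'' c (Ne.symm h6) (Ne.symm h3))
  push Not at hall''
  obtain ⟨r, hrq, hrp, hr⟩ := hall''
  obtain ⟨a, b, hab⟩ := ex2 q p r hpq.symm hrq.symm hrp.symm
  refine iness_of_two h (i := a) (j := b) fun k hk => ?_
  rcases hab k with rfl | rfl | rfl | h'
  · exact absurd hk hq
  · exact absurd hk hp
  · exact absurd hk hr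
  · exact h'

/-- There is no five-colour closed cover of the plane. -/
theorem no_CC (F : Fin 5 → Set ℂ) : ¬ CC F := by
  intro h
  have htri : TriFree F := fun i j k hij hik hjk K hK hi hj hk => h.tri hij hik hjk hK hi hj hk
  obtain ⟨x, hx⟩ := exists_not_iness h htri
  exact hx (iness_all h htri x)

end Vale.Agent.P032.B
end
end

section

/-! Two-colourable open sets of the plane have two-colourings with nice classes. -/

namespace Vale.Agent.P032.Blk

open Set Topology

/-! ### A unit step in the middle -/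

/-- a point at distance one from `a` and `b`. -/
noncomputable def mid (a b : ℂ) : ℂ :=
  (a + b) / 2 + Complex.I * (b - a) / (‖b - a‖ : ℂ) * (Real.sqrt (1 - ‖b - a‖ ^ 2 / 4) : ℂ)

theorem norm_aux {w : ℂ} (hw : w ≠ 0) (hw2 : ‖w‖ ≤ 2) (ε : ℝ) (hε : ε ^ 2 = 1) :
    ‖(ε : ℂ) * w / 2 + Complex.I * w / (‖w‖ : ℂ) * (Real.sqrt (1 - ‖w‖ ^ 2 / 4) : ℂ)‖ = 1 := by
  have hw0 : 0 < ‖w‖ := norm_pos_iff.2 hw
  set q := Real.sqrt (1 - ‖w‖ ^ 2 / 4) with hq
  have hq2 : q ^ 2 = 1 - ‖w‖ ^ 2 / 4 := Real.sq_sqrt (by nlinarith only [hw2, hw0])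
  have e : (ε : ℂ) * w / 2 + Complex.I * w / (‖w‖ : ℂ) * (q : ℂ)
      = w * (((ε / 2 : ℝ) : ℂ) + ((q / ‖w‖ : ℝ) : ℂ) * Complex.I) := by
    push_cast
    have : (‖w‖ : ℂ) ≠ 0 := by exact_mod_cast hw0.ne'
    field_simp
  rw [e, norm_mul]
  have h1 : ‖((ε / 2 : ℝ) : ℂ) + ((q / ‖w‖ : ℝ) : ℂ) * Complex.I‖ ^ 2
      = (ε / 2) ^ 2 + (q / ‖w‖) ^ 2 := by
    rw [← Complex.normSq_eq_norm_sq, Complex.normSq_apply]
    simp only [Complex.ofReal_div, Complex.ofReal_ofNat, Complex.add_re, Complex.div_ofNat_re, Complex.ofReal_re, Complex.mul_re, Complex.div_ofReal_re, Complex.I_re, mul_zero, Complex.div_ofReal_im, Complex.ofReal_im, zero_div, Complex.I_im, mul_one, sub_self, add_zero, Complex.add_im, Complex.div_ofNat_im, Complex.mul_im, zero_add]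
    ring
  have h2 : (‖w‖ * ‖((ε / 2 : ℝ) : ℂ) + ((q / ‖w‖ : ℝ) : ℂ) * Complex.I‖) ^ 2 = 1 := by
    rw [mul_pow, h1]
    field_simp
    nlinarith only [hq2, hε]
  have h3 : 0 ≤ ‖w‖ * ‖((ε / 2 : ℝ) : ℂ) + ((q / ‖w‖ : ℝ) : ℂ) * Complex.I‖ := by (clear * - hw; positivity)
  nlinarith only [h2, h3]

theorem dist_mid_left {a b : ℂ} (hab : a ≠ b) (h2 : ‖b - a‖ ≤ 2) : dist (mid a b) a = 1 := by
  rw [dist_eq_norm, ← norm_aux (sub_ne_zero.2 hab.symm) h2 1 (by norm_num)]
  congr 1
  unfold mid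
  push_cast
  ring

theorem dist_mid_right {a b : ℂ} (hab : a ≠ b) (h2 : ‖b - a‖ ≤ 2) : dist (mid a b) b = 1 := by
  rw [dist_eq_norm, ← norm_aux (sub_ne_zero.2 hab.symm) h2 (-1) (by norm_num)]
  congr 1
  unfold mid
  push_cast
  ring

/-- Small displacements are compositions of four unit steps near a given unit step. -/
theorem local_walk {x y : ℂ} (hxy : dist x y = 1) {r : ℝ} (hr : 0 < r) :
    ∃ x1 y1, dist x1 x < r ∧ dist y1 y < r ∧ dist x y1 = 1 ∧ dist y1 x1 = 1 ∧
      ∀ᶠ x' in 𝓝 x, ∃ y2, dist y2 y < r ∧ dist x1 y2 = 1 ∧ dist y2 x' = 1 := by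
  set e := y - x with he
  have hen : ‖e‖ = 1 := by rw [he, ← dist_eq_norm, dist_comm]; exact hxy
  -- x1 = x + τ * (-I * e)
  have hcont : Continuous fun τ : ℝ => (x + (x + (τ : ℂ) * (-Complex.I * e))) / 2
      + e * (Real.sqrt (1 - τ ^ 2 / 4) : ℂ) := by fun_prop
  have h0 : (fun τ : ℝ => (x + (x + (τ : ℂ) * (-Complex.I * e))) / 2
      + e * (Real.sqrt (1 - τ ^ 2 / 4) : ℂ)) 0 = y := by
    simp [he]
  have hev : ∀ᶠ τ : ℝ in 𝓝[>] 0, dist ((x + (x + (τ : ℂ) * (-Complex.I * e))) / 2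
      + e * (Real.sqrt (1 - τ ^ 2 / 4) : ℂ)) y < r := by
    refine Filter.Eventually.filter_mono nhdsWithin_le_nhds ?_
    exact (hcont.tendsto' 0 y h0).eventually (Metric.ball_mem_nhds y hr)
  have hev2 : ∀ᶠ τ : ℝ in 𝓝[>] 0, τ < min r 1 :=
    Filter.Eventually.filter_mono nhdsWithin_le_nhds (gt_mem_nhds (lt_min hr one_pos))
  have hev3 : ∀ᶠ τ : ℝ in 𝓝[>] 0, 0 < τ := eventually_mem_nhdsWithin
  obtain ⟨τ, h1, h2, h3⟩ := (hev.and (hev2.and hev3)).exists
  set x1 := x + (τ : ℂ) * (-Complex.I * e) with hx1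
  have hnx1 : ‖x1 - x‖ = τ := by
    rw [hx1, add_sub_cancel_left, norm_mul, norm_mul, norm_neg, Complex.norm_I, one_mul, hen,
      mul_one, Complex.norm_real, Real.norm_of_nonneg h3.le]
  have hne : x ≠ x1 := by
    intro h
    rw [← h, sub_self, norm_zero] at hnx1
    exact h3.ne hnx1
  have hle : ‖x1 - x‖ ≤ 2 := by rw [hnx1]; linarith only [h2, min_le_right r 1]
  have hmid : mid x x1 = (x + x1) / 2 + e * (Real.sqrt (1 - τ ^ 2 / 4) : ℂ) := by
    unfold mid
    rw [hnx1]
    have hτ : (τ : ℂ) ≠ 0 := by exact_mod_cast h3.ne'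
    have : Complex.I * (x1 - x) / (τ : ℂ) = e := by
      rw [hx1]
      field_simp
      ring_nf
      rw [Complex.I_sq]
      ring
    rw [this]
  have hcmid : ContinuousAt (fun x' => mid x' x1) x := by
    unfold mid
    have : (‖x1 - x‖ : ℂ) ≠ 0 := by
      rw [hnx1]; exact_mod_cast h3.ne'
    (clear * - this; fun_prop (disch := exact this))
  refine ⟨x1, mid x x1, ?_, ?_, ?_, dist_mid_right hne hle, ?_⟩
  · rw [dist_eq_norm, hnx1]; exact h2.trans_le (min_le_left _ _)
  · rw [hmid]; exact h1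
  · rw [dist_comm]; exact dist_mid_left hne hle
  · have g1 : ∀ᶠ x' in 𝓝 x, dist (mid x' x1) y < r := by
      have hh : dist (mid x x1) y < r := by rw [hmid]; exact h1
      exact hcmid.eventually ((isOpen_lt (continuous_id.dist continuous_const)
        continuous_const).mem_nhds hh)
    have g2 : ∀ᶠ x' in 𝓝 x, x' ≠ x1 := isOpen_ne.mem_nhds hne
    have g3 : ∀ᶠ x' in 𝓝 x, ‖x1 - x'‖ < 2 := by
      have hh : ‖x1 - x‖ < 2 := by rw [hnx1]; linarith only [h2, min_le_right r 1]
      exact (isOpen_lt (continuous_const.sub continuous_id).norm continuous_const).mem_nhds hh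
    filter_upwards [g1, g2, g3] with x' k1 k2 k3
    exact ⟨mid x' x1, k1, by rw [dist_comm]; exact dist_mid_right k2 k3.le,
      dist_mid_left k2 k3.le⟩

/-! ### Transfer to the Euclidean plane -/

theorem local_walk_E {x y : EuclideanSpace ℝ (Fin 2)} (hxy : dist x y = 1) {r : ℝ} (hr : 0 < r) :
    ∃ x1 y1, dist x1 x < r ∧ dist y1 y < r ∧ dist x y1 = 1 ∧ dist y1 x1 = 1 ∧
      ∀ᶠ x' in 𝓝 x, ∃ y2, dist y2 y < r ∧ dist x1 y2 = 1 ∧ dist y2 x' = 1 := by
  set e : ℂ ≃ₗᵢ[ℝ] EuclideanSpace ℝ (Fin 2) := Complex.orthonormalBasisOneI.repr with he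
  obtain ⟨x1, y1, h1, h2, h3, h4, h5⟩ := local_walk (x := e.symm x) (y := e.symm y)
    (by rw [e.symm.dist_map]; exact hxy) hr
  have hd : ∀ (a : ℂ) (b : EuclideanSpace ℝ (Fin 2)), dist (e a) b = dist a (e.symm b) := by
    intro a b
    conv_lhs => rw [← e.apply_symm_apply b]
    exact e.dist_map _ _
  have hd' : ∀ (b : EuclideanSpace ℝ (Fin 2)) (a : ℂ), dist b (e a) = dist (e.symm b) a := by
    intro b a
    rw [dist_comm, hd, dist_comm]
  refine ⟨e x1, e y1, ?_, ?_, ?_, ?_, ?_⟩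
  · rw [hd]; exact h1
  · rw [hd]; exact h2
  · rw [hd']; exact h3
  · rw [e.dist_map]; exact h4
  · have hc : Filter.Tendsto e.symm (𝓝 x) (𝓝 (e.symm x)) := e.symm.continuous.tendsto x
    filter_upwards [hc.eventually h5] with x' hx'
    obtain ⟨y2, k1, k2, k3⟩ := hx'
    exact ⟨e y2, by rw [hd]; exact k1, by rw [e.dist_map]; exact k2, by rw [hd]; exact k3⟩

/-! ### The unit-distance graph of a set -/

/-- unit-distance graph on `U` -/
def ug (U : Set (EuclideanSpace ℝ (Fin 2))) : SimpleGraph (EuclideanSpace ℝ (Fin 2)) where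
  Adj x y := x ∈ U ∧ y ∈ U ∧ dist x y = 1
  symm := ⟨fun x y h => ⟨h.2.1, h.1, by rw [dist_comm]; exact h.2.2⟩⟩
  loopless := ⟨fun x h => by simpa using h.2.2⟩

/-- a two-colouring of an open set is locally constant at points with neighbours. -/
theorem locally_const {U : Set (EuclideanSpace ℝ (Fin 2))} (hU : IsOpen U)
    (f : (ug U).Coloring (Fin 2)) {x y : EuclideanSpace ℝ (Fin 2)} (hx : x ∈ U) (hy : y ∈ U)
    (hxy : dist x y = 1) : ∀ᶠ x' in 𝓝 x, x' ∈ U ∧ (∃ y' ∈ U, dist x' y' = 1) ∧ f x' = f x := by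
  obtain ⟨r1, hr1, hb1⟩ := Metric.isOpen_iff.1 hU x hx
  obtain ⟨r2, hr2, hb2⟩ := Metric.isOpen_iff.1 hU y hy
  obtain ⟨x1, y1, h1, h2, h3, h4, h5⟩ := local_walk_E hxy (lt_min hr1 hr2)
  have hx1 : x1 ∈ U := hb1 (h1.trans_le (min_le_left _ _))
  have hy1 : y1 ∈ U := hb2 (h2.trans_le (min_le_right _ _))
  have two : ∀ a b c : Fin 2, a ≠ b → b ≠ c → a = c := by decide
  filter_upwards [h5, hU.mem_nhds hx] with x' hx' hx'U
  obtain ⟨y2, k1, k2, k3⟩ := hx'
  have hy2 : y2 ∈ U := hb2 (k1.trans_le (min_le_right _ _))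
  have e1 : f x = f x1 := two _ _ _ (f.valid (show (ug U).Adj x y1 from ⟨hx, hy1, h3⟩))
    (f.valid (show (ug U).Adj y1 x1 from ⟨hy1, hx1, h4⟩))
  have e2 : f x1 = f x' := two _ _ _ (f.valid (show (ug U).Adj x1 y2 from ⟨hx1, hy2, k2⟩))
    (f.valid (show (ug U).Adj y2 x' from ⟨hy2, hx'U, k3⟩))
  exact ⟨hx'U, ⟨y2, hy2, by rw [dist_comm]; exact k3⟩, (e1.trans e2).symm⟩

/-- a two-colourable open set has a two-colouring with an open class and a closed class. -/
theorem nice_two {U : Set (EuclideanSpace ℝ (Fin 2))} (hU : IsOpen U)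
    (hcol : (ug U).Colorable 2) : ∃ S : Set (EuclideanSpace ℝ (Fin 2)), IsOpen S ∧
      ∀ x ∈ U, ∀ y ∈ U, dist x y = 1 → (x ∈ S ↔ y ∉ S) := by
  obtain ⟨f⟩ := hcol
  refine ⟨{x | x ∈ U ∧ (∃ y ∈ U, dist x y = 1) ∧ f x = 0}, ?_, ?_⟩
  · rw [isOpen_iff_mem_nhds]
    rintro x ⟨hx, ⟨y, hy, hxy⟩, hfx⟩
    filter_upwards [locally_const hU f hx hy hxy] with x' hx'
    exact ⟨hx'.1, hx'.2.1, hx'.2.2.trans hfx⟩
  · intro x hx y hy hxy
    have hne : f x ≠ f y := f.valid (show (ug U).Adj x y from ⟨hx, hy, hxy⟩)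
    have two : ∀ a b : Fin 2, a ≠ b → (a = 0 ↔ ¬ b = 0) := by decide
    have h1 : ∃ y' ∈ U, dist x y' = 1 := ⟨y, hy, hxy⟩
    have h2 : ∃ y' ∈ U, dist y y' = 1 := ⟨x, hx, by rw [dist_comm]; exact hxy⟩
    simp only [mem_ofPred_eq, hx, hy, h1, h2, true_and]
    exact two _ _ hne

/-- translating a finite subset of an open set into a residual set. -/
theorem exists_translate {U G : Set (EuclideanSpace ℝ (Fin 2))} (hU : IsOpen U)
    (hG : G ∈ residual (EuclideanSpace ℝ (Fin 2))) (P : List (EuclideanSpace ℝ (Fin 2)))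
    (hP : ∀ p ∈ P, p ∈ U) : ∃ t : EuclideanSpace ℝ (Fin 2), ∀ p ∈ P, p + t ∈ U ∧ p + t ∈ G := by
  have h1 : ∀ᶠ t in 𝓝 (0 : EuclideanSpace ℝ (Fin 2)), ∀ p ∈ P, p + t ∈ U := by
    induction P with
    | nil => simp
    | cons p P ih =>
      have h2 := ih fun q hq => hP q (List.mem_cons_of_mem _ hq)
      have h3 : ∀ᶠ t in 𝓝 (0 : EuclideanSpace ℝ (Fin 2)), p + t ∈ U := by
        have hc : Continuous fun t : EuclideanSpace ℝ (Fin 2) => p + t := by fun_prop
        exact (hc.tendsto' 0 p (by simp)).eventually (hU.mem_nhds (hP p List.mem_cons_self))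
      filter_upwards [h2, h3] with t ht ht' q hq
      rcases List.mem_cons.1 hq with rfl | hq
      · exact ht'
      · exact ht q hq
  have h2 : ∀ᶠ t in residual (EuclideanSpace ℝ (Fin 2)), ∀ p ∈ P, p + t ∈ G := by
    clear h1 hP
    induction P with
    | nil => simp
    | cons p P ih =>
      have h3 : ∀ᶠ t in residual (EuclideanSpace ℝ (Fin 2)), p + t ∈ G :=
        tendsto_residual_of_isOpenMap (continuous_const_add p) (isOpenMap_add_left p) hG
      filter_upwards [ih, h3] with t ht ht' q hq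
      rcases List.mem_cons.1 hq with rfl | hq
      · exact ht'
      · exact ht q hq
  obtain ⟨V, hV, hVo, hV0⟩ := eventually_nhds_iff.1 h1
  obtain ⟨t, htV, ht⟩ := (dense_of_mem_residual h2).inter_open_nonempty V hVo ⟨0, hV0⟩
  exact ⟨t, fun p hp => ⟨hV t htV p hp, ht p hp⟩⟩

/-! ### Walks and parity -/

theorem support_subset {U : Set (EuclideanSpace ℝ (Fin 2))} {u v : EuclideanSpace ℝ (Fin 2)}
    (w : (ug U).Walk u v) (hu : u ∈ U) : ∀ p ∈ w.support, p ∈ U := by
  induction w with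
  | nil => simpa using hu
  | cons h w ih =>
    intro p hp
    rw [SimpleGraph.Walk.support_cons, List.mem_cons] at hp
    rcases hp with rfl | hp
    · exact hu
    · exact ih h.2.1 p hp

/-- parity of a walk versus the colours of a translate of it. -/
theorem walk_parity {U G : Set (EuclideanSpace ℝ (Fin 2))} {k : ℕ}
    {c : EuclideanSpace ℝ (Fin 2) → Fin k} {J : Finset (Fin k)} (hJ : J.card ≤ 2)
    (hJU : ∀ x ∈ U, x ∈ G → c x ∈ J)
    (hc : ∀ x ∈ G, ∀ y ∈ G, dist x y = 1 → c x ≠ c y) (t : EuclideanSpace ℝ (Fin 2))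
    {u v : EuclideanSpace ℝ (Fin 2)} (w : (ug U).Walk u v)
    (ht : ∀ p ∈ w.support, p + t ∈ U ∧ p + t ∈ G) :
    Even w.length ↔ c (u + t) = c (v + t) := by
  induction w with
  | nil => simp only [SimpleGraph.Walk.length_nil, Even.zero]
  | @cons u u' v h w ih =>
    have ht' : ∀ p ∈ w.support, p + t ∈ U ∧ p + t ∈ G := fun p hp =>
      ht p (by rw [SimpleGraph.Walk.support_cons]; exact List.mem_cons_of_mem _ hp)
    have hu := ht u (by rw [SimpleGraph.Walk.support_cons]; exact List.mem_cons_self)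
    have hu' := ht' u' w.start_mem_support
    have hv := ht' v w.end_mem_support
    have h1 : c (u + t) ≠ c (u' + t) := hc _ hu.2 _ hu'.2 (by rw [dist_add_right]; exact h.2.2)
    have hne : ¬ (c (u + t) ≠ c (v + t) ∧ c (u' + t) ≠ c (v + t)) := by
      rintro ⟨h2, h3⟩
      have h4 : ({c (u + t), c (u' + t), c (v + t)} : Finset (Fin k)) ⊆ J := by
        intro i hi
        simp only [Finset.mem_insert, Finset.mem_singleton] at hi
        rcases hi with rfl | rfl | rfl
        · exact hJU _ hu.1 hu.2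
        · exact hJU _ hu'.1 hu'.2
        · exact hJU _ hv.1 hv.2
      have h5 := Finset.card_le_card h4
      rw [Finset.card_eq_three.2 ⟨_, _, _, h1, h2, h3, rfl⟩] at h5
      omega
    rw [SimpleGraph.Walk.length_cons, Nat.even_add_one, ih ht']
    constructor
    · intro h2
      by_contra h3
      exact hne ⟨h3, h2⟩
    · intro h2 h3
      exact h1 (h2.trans h3.symm)

/-- an open set whose generic points are properly coloured with two colours has a bipartite
unit-distance graph. -/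
theorem colorable_two {U G : Set (EuclideanSpace ℝ (Fin 2))} (hU : IsOpen U)
    (hG : G ∈ residual (EuclideanSpace ℝ (Fin 2))) {k : ℕ}
    {c : EuclideanSpace ℝ (Fin 2) → Fin k} {J : Finset (Fin k)} (hJ : J.card ≤ 2)
    (hJU : ∀ x ∈ U, x ∈ G → c x ∈ J)
    (hc : ∀ x ∈ G, ∀ y ∈ G, dist x y = 1 → c x ≠ c y) : (ug U).Colorable 2 := by
  rw [SimpleGraph.two_colorable_iff_forall_loop_even]
  intro u w
  by_cases hu : u ∈ U
  · obtain ⟨t, ht⟩ := exists_translate hU hG w.support (support_subset w hu)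
    exact (walk_parity hJ hJU hc t w ht).2 rfl
  · cases w with
    | nil => simp only [SimpleGraph.Walk.length_nil, Even.zero]
    | cons h w => exact absurd h.1 hu

/-! ### The new colouring -/

/-- If the colours are grouped in blocks of at most two colours such that the union of the classes
of each block has the property of Baire, then the colouring can be changed inside the blocks to
one all whose classes have the property of Baire. -/
theorem exists_nice {k m : ℕ} (c : EuclideanSpace ℝ (Fin 2) → Fin k) (π : Fin k → Fin m)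
    (hπ : ∀ j, (Finset.univ.filter (fun i => π i = j)).card ≤ 2)
    (hB : ∀ j, BaireMeasurableSet {x | π (c x) = j})
    {D : Set (EuclideanSpace ℝ (Fin 2))} (hD : D ∈ residual (EuclideanSpace ℝ (Fin 2)))
    (hc : ∀ x ∈ D, ∀ y ∈ D, dist x y = 1 → c x ≠ c y) :
    ∃ (c' : EuclideanSpace ℝ (Fin 2) → Fin k) (G : Set (EuclideanSpace ℝ (Fin 2))),
      G ∈ residual (EuclideanSpace ℝ (Fin 2)) ∧ (∀ x, π (c' x) = π (c x)) ∧
      (∀ i, BaireMeasurableSet (c' ⁻¹' {i})) ∧
      (∀ x ∈ G, ∀ y ∈ G, dist x y = 1 → c' x ≠ c' y) := by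
  classical
  choose U hUo hUeq using fun j => (hB j).residualEq_isOpen
  set G : Set (EuclideanSpace ℝ (Fin 2)) := {x | ∀ j, x ∈ {x | π (c x) = j} ↔ x ∈ U j} ∩ D with hG
  have hGr : G ∈ residual (EuclideanSpace ℝ (Fin 2)) := by
    have : ∀ j, ∀ᶠ x in residual (EuclideanSpace ℝ (Fin 2)), x ∈ {x | π (c x) = j} ↔ x ∈ U j :=
      fun j => Filter.eventuallyEq_set.1 (hUeq j)
    exact Filter.inter_mem (Filter.eventually_all.2 this) hD
  have hcG : ∀ x ∈ G, ∀ y ∈ G, dist x y = 1 → c x ≠ c y := fun x hx y hy h => hc x hx.2 y hy.2 h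
  have hGU : ∀ x ∈ G, ∀ j, π (c x) = j ↔ x ∈ U j := fun x hx j => hx.1 j
  have hcol : ∀ j, (ug (U j)).Colorable 2 := fun j =>
    colorable_two (hUo j) hGr (hπ j) (fun x hxU hxG => by simpa only [Finset.mem_filter, Finset.mem_univ, true_and] using (hGU x hxG j).2 hxU) hcG
  choose S hSo hS using fun j => nice_two (hUo j) (hcol j)
  have hpq : ∀ j, ∃ p q : Fin k, (∀ i, π i = j → π p = j ∧ π q = j) ∧
      (∀ i i', π i = j → π i' = j → i ≠ i' → p ≠ q) := by
    intro j
    by_cases h1 : ∃ i i', π i = j ∧ π i' = j ∧ i ≠ i'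
    · obtain ⟨i, i', h2, h3, h4⟩ := h1
      exact ⟨i, i', fun _ _ => ⟨h2, h3⟩, fun _ _ _ _ _ => h4⟩
    · have h1' : ∀ i i', π i = j → π i' = j → i ≠ i' → False :=
        fun i i' h2 h3 h4 => h1 ⟨i, i', h2, h3, h4⟩
      by_cases h2 : ∃ i, π i = j
      · obtain ⟨i, hi⟩ := h2
        exact ⟨i, i, fun _ _ => ⟨hi, hi⟩, fun a b ha hb hab => (h1' a b ha hb hab).elim⟩
      · exact ⟨c 0, c 0, fun i hi => (h2 ⟨i, hi⟩).elim, fun a b ha hb hab => (h1' a b ha hb hab).elim⟩
  choose p q hpq1 hpq2 using hpq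
  set c' : EuclideanSpace ℝ (Fin 2) → Fin k := fun x =>
    if x ∈ S (π (c x)) then p (π (c x)) else q (π (c x)) with hc'
  have hπc : ∀ x, π (c' x) = π (c x) := by
    intro x
    have := hpq1 _ (c x) rfl
    simp only [hc']
    split_ifs
    · exact this.1
    · exact this.2
  refine ⟨c', G, hGr, hπc, ?_, ?_⟩
  · intro i
    have hconst : ∀ P : Prop, BaireMeasurableSet {_x : EuclideanSpace ℝ (Fin 2) | P} := by
      intro P
      by_cases hP : P
      · simpa [hP] using isOpen_univ.baireMeasurableSet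
      · simpa [hP] using isOpen_empty.baireMeasurableSet
    have he : c' ⁻¹' {i} = {x | π (c x) = π i} ∩
        ((S (π i) ∩ {x | p (π i) = i}) ∪ ((S (π i))ᶜ ∩ {x | q (π i) = i})) := by
      ext x
      simp only [mem_preimage, mem_singleton_iff, mem_inter_iff, mem_union, mem_compl_iff,
        mem_ofPred_eq]
      constructor
      · intro h
        have h1 : π (c x) = π i := by rw [← hπc x, h]
        refine ⟨h1, ?_⟩
        have h2 : (if x ∈ S (π i) then p (π i) else q (π i)) = i := by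
          have h3 : c' x = if x ∈ S (π (c x)) then p (π (c x)) else q (π (c x)) := rfl
          rw [h1] at h3
          rw [← h3, h]
        by_cases hx : x ∈ S (π i)
        · rw [if_pos hx] at h2
          exact Or.inl ⟨hx, h2⟩
        · rw [if_neg hx] at h2
          exact Or.inr ⟨hx, h2⟩
      · rintro ⟨h1, h2⟩
        have h3 : c' x = if x ∈ S (π (c x)) then p (π (c x)) else q (π (c x)) := rfl
        rw [h1] at h3
        rw [h3]
        rcases h2 with ⟨h2, h4⟩ | ⟨h2, h4⟩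
        · rw [if_pos h2, h4]
        · rw [if_neg h2, h4]
    rw [he]
    exact (hB _).inter (((hSo _).baireMeasurableSet.inter (hconst _)).union
      ((hSo _).baireMeasurableSet.compl.inter (hconst _)))
  · intro x hx y hy hxy heq
    have h1 : π (c x) = π (c y) := by rw [← hπc x, ← hπc y, heq]
    have h2 : p (π (c x)) ≠ q (π (c x)) := hpq2 _ (c x) (c y) rfl h1.symm (hcG x hx y hy hxy)
    have hxU : x ∈ U (π (c x)) := (hGU x hx _).1 rfl
    have hyU : y ∈ U (π (c x)) := (hGU y hy _).1 h1.symm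
    have h3 := hS _ x hxU y hyU hxy
    have hx' : c' x = if x ∈ S (π (c x)) then p (π (c x)) else q (π (c x)) := rfl
    have hy' : c' y = if y ∈ S (π (c x)) then p (π (c x)) else q (π (c x)) := by
      rw [h1]
    rw [hx', hy'] at heq
    by_cases hxS : x ∈ S (π (c x))
    · rw [if_pos hxS, if_neg (h3.1 hxS)] at heq
      exact h2 heq
    · have hyS : y ∈ S (π (c x)) := by
        by_contra hyS
        exact hxS (h3.2 hyS)
      rw [if_neg hxS, if_pos hyS] at heq
      exact h2 heq.symm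

end Vale.Agent.P032.Blk
end
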